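import Mathlib

/-!
# P262 log-free bound: basic definitions
-/

namespace Vale.Agent.Steinitz2

open Finset

/-- elements with a fractional value -/
noncomputable def frac {ι : Type*} [Fintype ι] (x : ι → ℝ) : Finset ι :=
  univ.filter (fun i => 0 < x i ∧ x i < 1)

/-- number of coordinates of `Hc` in class `n` -/
noncomputable def cn {D : Type*} (Hc : Finset D) (s : D → ℕ) (n : ℕ) : ℝ :=
  ((Hc.filter (fun p => s p = n)).card : ℝ)

/-- a set `F` of elements that is even on the high coordinates `Hc`: its Gram matrix is close to a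
diagonal matrix `y` with `y j ≥ 2^t0 2^(s j) / 4`, and its trace on each class is bounded. -/
def Even {ι : Type*} {d : ℕ} (v : ι → Fin d → ℝ) (Hc : Finset (Fin d)) (s : Fin d → ℕ)
    (K : ℝ) (t0 : ℕ) (F : Finset ι) : Prop :=
  (∃ y : Fin d → ℝ, (∀ j ∈ Hc, 2 ^ t0 * 2 ^ (s j) / 4 ≤ y j) ∧
    ∀ n : ℕ, ∑ j ∈ Hc with s j = n, ∑ l ∈ Hc,
      (∑ i ∈ F, v i j * v i l - if j = l then y j else 0) ^ 2
        ≤ K * 2 ^ t0 * cn Hc s n * (9 / 4) ^ n) ∧
  ∀ n : ℕ, ∑ i ∈ F, ∑ j ∈ Hc with s j = n, v i j ^ 2 ≤ 8 * 2 ^ t0 * cn Hc s n * 2 ^ n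

end Vale.Agent.Steinitz2
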