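import Mathlib
import Vale.Agent.Lib.Steinitz2.Defs

/-!
# P262 log-free bound: definitions for the level structure
-/

namespace Vale.Agent.Steinitz2

open Finset

/-- Data of the split of one block. `Ba`, `Bb`: the two label classes of the block; the block is
split in `La ∪ Lb`, `Ra ∪ Rb` and the rest. `w1L`, `w1C` certify the error of the left boundary,
`w2C`, `w2R` that of the right boundary. -/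
structure Split (ι : Type) where
  La : Finset ι
  Ra : Finset ι
  Lb : Finset ι
  Rb : Finset ι
  w1L : ι → ℝ
  w1C : ι → ℝ
  w2C : ι → ℝ
  w2R : ι → ℝ

/-- properties of the split of one block -/
structure Split.Good {ι Qt Λt : Type} [DecidableEq ι] [Fintype Λt] {d : ℕ} (S : Split ι)
    (v : ι → Fin d → ℝ) (Hc : Finset (Fin d)) (s : Fin d → ℕ) (C6 : ℝ) (t0 : ℕ)
    (Ba Bb : Finset ι) (yl yr : ι → ℝ) (Qs : Finset Qt) (sQ : Qt → ℕ) (f : Qt → Λt → ι → ℝ)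
    (Lb : Qt → ℝ) : Prop where
  La_sub : S.La ⊆ Ba
  Ra_sub : S.Ra ⊆ Ba
  Lb_sub : S.Lb ⊆ Bb
  Rb_sub : S.Rb ⊆ Bb
  disj_a : Disjoint S.La S.Ra
  disj_b : Disjoint S.Lb S.Rb
  w1L_le : ∀ i, |S.w1L i| ≤ 1 / 32
  w1C_le : ∀ i, |S.w1C i| ≤ 1 / 32
  w2C_le : ∀ i, |S.w2C i| ≤ 1 / 32
  w2R_le : ∀ i, |S.w2R i| ≤ 1 / 32
  /-- certificates of the boundaries -/
  cert1L : ∀ n : ℕ, ∑ j ∈ Hc with s j = n,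
    ((∑ i ∈ S.La, v i j + ∑ i ∈ S.Lb, v i j) - 1 / 4 * ∑ i ∈ Ba, v i j
      - ∑ i ∈ Bb, (1 / 4 - 3 / 4 * yl i - 1 / 4 * yr i) * v i j - ∑ i ∈ S.Lb, S.w1L i * v i j) ^ 2
      ≤ C6 * cn Hc s n * (400 / 441) ^ n
  cert1C : ∀ n : ℕ, ∑ j ∈ Hc with s j = n,
    ((∑ i ∈ S.La, v i j + ∑ i ∈ S.Lb, v i j) - 1 / 4 * ∑ i ∈ Ba, v i j
      - ∑ i ∈ Bb, (1 / 4 - 3 / 4 * yl i - 1 / 4 * yr i) * v i j
      - ∑ i ∈ Bb \ (S.Lb ∪ S.Rb), S.w1C i * v i j) ^ 2 ≤ C6 * cn Hc s n * (400 / 441) ^ n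
  cert2C : ∀ n : ℕ, ∑ j ∈ Hc with s j = n,
    ((∑ i ∈ S.Ra, v i j + ∑ i ∈ S.Rb, v i j) - 1 / 4 * ∑ i ∈ Ba, v i j
      - ∑ i ∈ Bb, (1 / 4 + 1 / 4 * yl i + 3 / 4 * yr i) * v i j
      - ∑ i ∈ Bb \ (S.Lb ∪ S.Rb), S.w2C i * v i j) ^ 2 ≤ C6 * cn Hc s n * (400 / 441) ^ n
  cert2R : ∀ n : ℕ, ∑ j ∈ Hc with s j = n,
    ((∑ i ∈ S.Ra, v i j + ∑ i ∈ S.Rb, v i j) - 1 / 4 * ∑ i ∈ Ba, v i j
      - ∑ i ∈ Bb, (1 / 4 + 1 / 4 * yl i + 3 / 4 * yr i) * v i j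
      - ∑ i ∈ S.Rb, S.w2R i * v i j) ^ 2 ≤ C6 * cn Hc s n * (400 / 441) ^ n
  /-- evenness of the pieces -/
  evLa : ∀ n : ℕ, ∑ j ∈ Hc with s j = n, ∑ l,
    (∑ i ∈ S.La, v i j * v i l - 1 / 4 * ∑ i ∈ Ba, v i j * v i l) ^ 2
      ≤ C6 * 2 ^ t0 * cn Hc s n * (9 / 4) ^ n
  evRa : ∀ n : ℕ, ∑ j ∈ Hc with s j = n, ∑ l,
    (∑ i ∈ S.Ra, v i j * v i l - 1 / 4 * ∑ i ∈ Ba, v i j * v i l) ^ 2
      ≤ C6 * 2 ^ t0 * cn Hc s n * (9 / 4) ^ n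
  evLb : ∀ n : ℕ, ∑ j ∈ Hc with s j = n, ∑ l,
    (∑ i ∈ S.Lb, v i j * v i l - ∑ i ∈ Bb, (1 / 4 - 3 / 4 * yl i - 1 / 4 * yr i) * (v i j * v i l)) ^ 2
      ≤ C6 * 2 ^ t0 * cn Hc s n * (9 / 4) ^ n
  evRb : ∀ n : ℕ, ∑ j ∈ Hc with s j = n, ∑ l,
    (∑ i ∈ S.Rb, v i j * v i l - ∑ i ∈ Bb, (1 / 4 + 1 / 4 * yl i + 3 / 4 * yr i) * (v i j * v i l)) ^ 2
      ≤ C6 * 2 ^ t0 * cn Hc s n * (9 / 4) ^ n
  /-- high rows of the new certificates -/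
  ct1L : ∀ n : ℕ, ∑ j ∈ Hc with s j = n, ∑ l, (∑ i ∈ S.Lb, S.w1L i * (v i j * v i l)) ^ 2
      ≤ C6 * 2 ^ t0 * cn Hc s n * (9 / 4) ^ n
  ct1C : ∀ n : ℕ, ∑ j ∈ Hc with s j = n, ∑ l,
    (∑ i ∈ Bb \ (S.Lb ∪ S.Rb), S.w1C i * (v i j * v i l)) ^ 2
      ≤ C6 * 2 ^ t0 * cn Hc s n * (9 / 4) ^ n
  ct2C : ∀ n : ℕ, ∑ j ∈ Hc with s j = n, ∑ l,
    (∑ i ∈ Bb \ (S.Lb ∪ S.Rb), S.w2C i * (v i j * v i l)) ^ 2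
      ≤ C6 * 2 ^ t0 * cn Hc s n * (9 / 4) ^ n
  ct2R : ∀ n : ℕ, ∑ j ∈ Hc with s j = n, ∑ l, (∑ i ∈ S.Rb, S.w2R i * (v i j * v i l)) ^ 2
      ≤ C6 * 2 ^ t0 * cn Hc s n * (9 / 4) ^ n
  /-- generic rows of the pieces -/
  rwLa : ∀ q ∈ Qs, ∑ r, (∑ i ∈ S.La, f q r i - 1 / 4 * ∑ i ∈ Ba, f q r i) ^ 2
      ≤ C6 * (9 / 8) ^ (sQ q) * Lb q
  rwRa : ∀ q ∈ Qs, ∑ r, (∑ i ∈ S.Ra, f q r i - 1 / 4 * ∑ i ∈ Ba, f q r i) ^ 2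
      ≤ C6 * (9 / 8) ^ (sQ q) * Lb q
  rwLb : ∀ q ∈ Qs, ∑ r, (∑ i ∈ S.Lb, f q r i
      - ∑ i ∈ Bb, (1 / 4 - 3 / 4 * yl i - 1 / 4 * yr i) * f q r i) ^ 2
      ≤ C6 * (9 / 8) ^ (sQ q) * Lb q
  rwRb : ∀ q ∈ Qs, ∑ r, (∑ i ∈ S.Rb, f q r i
      - ∑ i ∈ Bb, (1 / 4 + 1 / 4 * yl i + 3 / 4 * yr i) * f q r i) ^ 2
      ≤ C6 * (9 / 8) ^ (sQ q) * Lb q
  /-- generic rows of the new certificates -/
  cr1L : ∀ q ∈ Qs, ∑ r, (∑ i ∈ S.Lb, S.w1L i * f q r i) ^ 2 ≤ C6 * (9 / 8) ^ (sQ q) * Lb q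
  cr1C : ∀ q ∈ Qs, ∑ r, (∑ i ∈ Bb \ (S.Lb ∪ S.Rb), S.w1C i * f q r i) ^ 2
      ≤ C6 * (9 / 8) ^ (sQ q) * Lb q
  cr2C : ∀ q ∈ Qs, ∑ r, (∑ i ∈ Bb \ (S.Lb ∪ S.Rb), S.w2C i * f q r i) ^ 2
      ≤ C6 * (9 / 8) ^ (sQ q) * Lb q
  cr2R : ∀ q ∈ Qs, ∑ r, (∑ i ∈ S.Rb, S.w2R i * f q r i) ^ 2 ≤ C6 * (9 / 8) ^ (sQ q) * Lb q

/-! ### The context -/

/-- vectors in eigencoordinates, eigenvalues, their classes, and the labels -/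
structure Ctx (ι : Type) (d : ℕ) where
  v : ι → Fin d → ℝ
  a : Fin d → ℝ
  cls : Fin d → ℤ
  lab : ι → Bool
  t0 : ℕ

section

variable {ι : Type} {d : ℕ}

/-- the coordinates of class `q` -/
def Ctx.cl (X : Ctx ι d) (q : ℤ) : Finset (Fin d) := univ.filter (fun j => X.cls j = q)

/-- the number of coordinates of class `q` -/
noncomputable def Ctx.mc (X : Ctx ι d) (q : ℤ) : ℝ := ((X.cl q).card : ℝ)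

/-- the energy of an element in class `q` -/
noncomputable def Ctx.En (X : Ctx ι d) (q : ℤ) (i : ι) : ℝ := ∑ j ∈ X.cl q, X.v i j ^ 2

/-- the threshold of heavy elements at level `k` -/
noncomputable def Ctx.thr (X : Ctx ι d) (k : ℕ) (q : ℤ) : ℝ := 2 * (2 : ℝ) ^ (q - k) * X.mc q

/-- the generic rows of class `q` at level `k` -/
noncomputable def Ctx.row (X : Ctx ι d) (k : ℕ) (q : ℤ) : Option (Fin d) → ι → ℝ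
  | none => fun i => if X.En q i ≤ X.thr k q then X.En q i / Real.sqrt (X.thr k q) else 0
  | some j => fun i => if X.cls j = q ∧ X.En q i ≤ X.thr k q then X.v i j else 0

/-- the hypotheses on the context -/
structure Ctx.Good [Fintype ι] (X : Ctx ι d) (K0 : ℝ) : Prop where
  norm_le : ∀ i, ∑ j, X.v i j ^ 2 ≤ 1
  gram : ∀ p l, ∑ i, X.v i p * X.v i l = if p = l then X.a p else 0
  cls_le : ∀ p, (2 : ℝ) ^ X.cls p ≤ X.a p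
  lt_cls : ∀ p, X.a p < (2 : ℝ) ^ (X.cls p + 1)
  sum_zero : ∀ p, ∑ i, X.v i p = 0
  lab_even : ∀ γ : Bool, ∀ n : ℕ, ∑ p ∈ X.cl (X.t0 + n), ∑ l,
    (∑ i with X.lab i = γ, X.v i p * X.v i l - if p = l then X.a p / 2 else 0) ^ 2
      ≤ K0 * 2 ^ X.t0 * X.mc (X.t0 + n) * (9 / 4) ^ n

/-- constants -/
structure Cst where
  c6 : ℝ
  k1 : ℝ
  ke : ℝ
  ks : ℝ
  cr : ℝ

structure Cst.Good (c : Cst) (t0 : ℕ) : Prop where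
  c6_ge : 1 ≤ c.c6
  k1_ge : 20 * c.c6 ≤ c.k1
  ke_ge : 200 * c.c6 ≤ c.ke
  ks_ge : 5 * c.ke ^ 2 + 60 * c.c6 * c.ke + 100 * c.c6 ≤ c.ks
  cr_ge : c.ks + 10 * c.ke ^ 2 + 20 * c.c6 * c.ke + 30 * c.c6 ≤ c.cr
  t0_ge : c.k1 ^ 2 ≤ 2 ^ t0

/-- positions, boundaries and certificates at one level -/
structure State (ι : Type) (d : ℕ) where
  loc : ι → ℤ
  Q : ℤ → Fin d → ℝ
  yp : ℤ → ι → ℝ
  ym : ℤ → ι → ℝ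

/-- the block `j` at level `k` -/
def State.blk [Fintype ι] (S : State ι d) (k : ℕ) (j : ℤ) : Finset ι :=
  univ.filter (fun i => (2 : ℤ) ^ k ∣ S.loc i - j)

/-- the elements of label `γ` of the block `j` at level `k` -/
def State.bl [Fintype ι] (S : State ι d) (X : Ctx ι d) (k : ℕ) (j : ℤ) (γ : Bool) : Finset ι :=
  univ.filter (fun i => (2 : ℤ) ^ k ∣ S.loc i - j ∧ X.lab i = γ)

/-- The invariants at level `k`. Label `false` is `α`, label `true` is `β`. -/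
structure State.Good [Fintype ι] (S : State ι d) (X : Ctx ι d) (c : Cst) (k : ℕ) : Prop where
  Q_per : ∀ j p, S.Q (j + 2 ^ k) p = S.Q j p
  yp_per : ∀ j i, S.yp (j + 2 ^ k) i = S.yp j i
  ym_per : ∀ j i, S.ym (j + 2 ^ k) i = S.ym j i
  Q_succ : ∀ j p, S.Q (j + 1) p = S.Q j p + ∑ i ∈ S.blk k j, X.v i p
  yp_le : ∀ j i, |S.yp j i| ≤ 1 / 32
  ym_le : ∀ j i, |S.ym j i| ≤ 1 / 32
  /-- high classes -/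
  ev : ∀ (j : ℤ) (γ : Bool) (n : ℕ), ∑ p ∈ X.cl (k + X.t0 + n), ∑ l,
    (∑ i ∈ S.bl X k j γ, X.v i p * X.v i l - if p = l then X.a p / 2 ^ k / 2 else 0) ^ 2
      ≤ c.k1 ^ 2 * 2 ^ X.t0 * X.mc (k + X.t0 + n) * (9 / 4) ^ n
  ctp : ∀ (j : ℤ) (n : ℕ), ∑ p ∈ X.cl (k + X.t0 + n), ∑ l,
    (∑ i ∈ S.bl X k j true, S.yp j i * (X.v i p * X.v i l)) ^ 2
      ≤ c.c6 ^ 2 * 2 ^ X.t0 * X.mc (k + X.t0 + n) * (9 / 4) ^ n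
  ctm : ∀ (j : ℤ) (n : ℕ), ∑ p ∈ X.cl (k + X.t0 + n), ∑ l,
    (∑ i ∈ S.bl X k j true, S.ym (j + 1) i * (X.v i p * X.v i l)) ^ 2
      ≤ c.c6 ^ 2 * 2 ^ X.t0 * X.mc (k + X.t0 + n) * (9 / 4) ^ n
  hip : ∀ (j : ℤ) (n : ℕ), ∑ p ∈ X.cl (k + X.t0 + n),
    (S.Q j p - ∑ i ∈ S.bl X k j true, S.yp j i * X.v i p) ^ 2
      ≤ (21 * c.c6) ^ 2 * X.mc (k + X.t0 + n) * (400 / 441) ^ n
  him : ∀ (j : ℤ) (n : ℕ), ∑ p ∈ X.cl (k + X.t0 + n),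
    (S.Q (j + 1) p - ∑ i ∈ S.bl X k j true, S.ym (j + 1) i * X.v i p) ^ 2
      ≤ (21 * c.c6) ^ 2 * X.mc (k + X.t0 + n) * (400 / 441) ^ n
  /-- generic rows of level `k + 1` -/
  rwp : ∀ (j : ℤ) (s : ℕ), ∑ r,
    (∑ i ∈ S.bl X k j true, S.yp j i * X.row (k + 1) (k + X.t0 - s) r i) ^ 2
      ≤ c.c6 ^ 2 * (9 / 8) ^ (s + 1)
        * (8 * c.ke ^ 2 * 2 ^ X.t0 * X.mc (k + X.t0 - s) * (9 / 16) ^ (s + 1))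
  rwm : ∀ (j : ℤ) (s : ℕ), ∑ r,
    (∑ i ∈ S.bl X k j true, S.ym (j + 1) i * X.row (k + 1) (k + X.t0 - s) r i) ^ 2
      ≤ c.c6 ^ 2 * (9 / 8) ^ (s + 1)
        * (8 * c.ke ^ 2 * 2 ^ X.t0 * X.mc (k + X.t0 - s) * (9 / 16) ^ (s + 1))
  /-- low classes -/
  le : ∀ (j : ℤ) (γ : Bool) (s : ℕ), 1 ≤ s →
    ∑ i ∈ S.bl X k j γ with X.En (k + X.t0 - s) i ≤ X.thr k (k + X.t0 - s), X.En (k + X.t0 - s) i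
      ≤ c.ke ^ 2 * 2 ^ X.t0 * X.mc (k + X.t0 - s) * (9 / 16) ^ s
  ls : ∀ (j : ℤ) (s : ℕ), 1 ≤ s → ∑ p ∈ X.cl (k + X.t0 - s),
    (∑ i ∈ S.blk k j with X.En (k + X.t0 - s) i ≤ X.thr k (k + X.t0 - s), X.v i p) ^ 2
      ≤ c.ks ^ 2 * 2 ^ X.t0 * X.mc (k + X.t0 - s) * (16 / 25) ^ s
  en : ∀ (j : ℤ) (s : ℕ), 1 ≤ s → ∀ A A' : Finset ι, A ⊆ S.blk k (j - 1) → A' ⊆ S.blk k j →
    (∀ i ∈ A, X.thr k (k + X.t0 - s) < X.En (k + X.t0 - s) i) →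
    (∀ i ∈ A', X.thr k (k + X.t0 - s) < X.En (k + X.t0 - s) i) →
    ∑ p ∈ X.cl (k + X.t0 - s), (S.Q j p - ∑ i ∈ A, X.v i p + ∑ i ∈ A', X.v i p) ^ 2
      ≤ (c.cr * (6 - 5 * (4 / 5) ^ s)) ^ 2 * 2 ^ X.t0 * X.mc (k + X.t0 - s)

end

end Vale.Agent.Steinitz2
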