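import Vale.Agent.Lib.Steinitz2.TwrCall2

/-!
# P262 log-free: module TWR (three-way rounding with certificates)
-/

namespace Vale.Agent.Steinitz2

open Finset

theorem sq_add_le (a b : ℝ) : (a + b) ^ 2 ≤ 2 * a ^ 2 + 2 * b ^ 2 := by
  nlinarith [sq_nonneg (a - b)]

/-- one rounding call with four certified sets -/
theorem call : ∃ C : ℝ, 1 ≤ C ∧ ∀ K : ℝ, 0 ≤ K → ∃ T1 : ℝ, ∀ t0 : ℕ, T1 ≤ 2 ^ t0 →
    ∀ (ι Qt Λt : Type) [Fintype ι] [DecidableEq ι] [Fintype Λt] (d : ℕ) (v : ι → Fin d → ℝ)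
      (_ : ∀ i, ∑ j, v i j ^ 2 ≤ 1) (Hc : Finset (Fin d)) (s : Fin d → ℕ)
      (x : ι → ℝ) (_ : ∀ i, 0 ≤ x i ∧ x i ≤ 1) (ζ : Bool → ι → ℝ) (_ : ∀ e i, ζ e i ^ 2 ≤ 1)
      (_ : ∀ n : ℕ, ∑ i ∈ frac x, ∑ j ∈ Hc with s j = n, v i j ^ 2
        ≤ 8 * 2 ^ t0 * cn Hc s n * 2 ^ n)
      (F : Bool → Bool → Finset ι) (_ : ∀ e b, Even v Hc s K t0 (F e b))
      (Qs : Finset Qt) (sQ : Qt → ℕ) (_ : ∀ n : ℕ, (Qs.filter (fun q => sQ q = n)).card ≤ 4)
      (f : Qt → Λt → ι → ℝ) (Lb : Qt → ℝ)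
      (_ : ∀ q ∈ Qs, ∑ r, ∑ i ∈ frac x, f q r i ^ 2 ≤ Lb q)
      (_ : ∀ e b, ∀ q ∈ Qs, ∑ r, ∑ i ∈ F e b, f q r i ^ 2 ≤ Lb q),
    ∃ (ξ : ι → ℝ) (y : Bool → Bool → ι → ℝ), (∀ i, ξ i = 0 ∨ ξ i = 1) ∧
      (∀ i, (x i = 0 ∨ x i = 1) → ξ i = x i) ∧ (∀ e b i, |y e b i| ≤ 1 / 64) ∧
      (∀ e b, ∀ n : ℕ, ∑ j ∈ Hc with s j = n,
        (∑ i, (ξ i - x i) * (ζ e i * v i j) - ∑ i ∈ F e b, y e b i * v i j) ^ 2
          ≤ 720 * C * cn Hc s n * (400 / 441) ^ n) ∧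
      (∀ e, ∀ n : ℕ, ∑ j ∈ Hc with s j = n, ∑ l,
        (∑ i, (ξ i - x i) * (ζ e i * (v i j * v i l))) ^ 2
          ≤ 720 * C * 2 ^ t0 * cn Hc s n * (9 / 4) ^ n) ∧
      (∀ e b, ∀ n : ℕ, ∑ j ∈ Hc with s j = n, ∑ l, (∑ i ∈ F e b, y e b i * (v i j * v i l)) ^ 2
          ≤ 720 * C * 2 ^ t0 * cn Hc s n * (9 / 4) ^ n) ∧
      (∀ e, ∀ q ∈ Qs, ∑ r, (∑ i, (ξ i - x i) * (ζ e i * f q r i)) ^ 2
          ≤ 720 * C * (9 / 8) ^ (sQ q) * Lb q) ∧
      (∀ e b, ∀ q ∈ Qs, ∑ r, (∑ i ∈ F e b, y e b i * f q r i) ^ 2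
          ≤ 720 * C * (9 / 8) ^ (sQ q) * Lb q) := by
  obtain ⟨C, ε, hC, hε, H⟩ := call_raw
  refine ⟨C, hC, fun K hK => ⟨2 ^ 38 + 2 ^ 20 * (1 + √K) ^ 2 + 8 * (1 + √K) / ε, ?_⟩⟩
  intro t0 ht0 ι Qt Λt _ _ _ d v hv Hc s x hx ζ hζ hB F hF Qs sQ h4 f Lb b5 b6
  obtain ⟨T, hT⟩ : ∃ T : ℝ, T = 2 ^ t0 := ⟨_, rfl⟩
  rw [← hT] at ht0 hB
  obtain ⟨hT0, hT1, hT2, hT3, hT4⟩ := T_bounds hε ht0
  choose G θ a1 a2 a3 a4 a5 a6 using fun e b => set_cert v hv (F e b) Hc s K hK t0 (hF e b) T hT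
  have hC0 : 0 ≤ C := by linarith
  have hsT : 0 < √T := Real.sqrt_pos.2 hT0
  obtain ⟨ξ, g, c1, c2, c3, c4, c5, c6, c7, c8, c9, c10⟩ := H ι Qt Λt d v hv Hc s x hx ζ hζ K T hK
    ht0 hB F G θ a2 a3 a4 a6 Qs sQ h4 f Lb b5 (fun e b q hq =>
      (a5 e b Λt univ (f q)).trans (mul_le_mul_of_nonneg_left (b6 e b q hq) (by positivity)))
  obtain ⟨y, hy⟩ : ∃ y : Bool → Bool → ι → ℝ,
    y = fun e b i => if i ∈ F e b then ∑ l, θ e b i l * g e l else 0 := ⟨_, rfl⟩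
  have hy1 : ∀ e b, ∀ i ∈ F e b, y e b i = ∑ l, θ e b i l * g e l := by
    intro e b i hi
    rw [hy]
    simp [hi]
  have hsw : ∀ (e b : Bool) (φ : ι → ℝ), ∑ i ∈ F e b, y e b i * φ i =
      ∑ p, (∑ i ∈ F e b, φ i * θ e b i p) * g e p := by
    intro e b φ
    simp only [Finset.sum_mul]
    rw [Finset.sum_comm]
    apply Finset.sum_congr rfl
    intro i hi
    rw [hy1 e b i hi, Finset.sum_mul]
    apply Finset.sum_congr rfl
    intro p _
    ring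
  have hm0 : ∀ n, 0 ≤ cn Hc s n := fun n => cn_nonneg _ _ _
  have hLb0 : ∀ q ∈ Qs, 0 ≤ Lb q := fun q hq =>
    (Finset.sum_nonneg fun r _ => Finset.sum_nonneg fun i _ => sq_nonneg _).trans (b5 q hq)
  refine ⟨ξ, y, c1, c2, ?_, ?_, ?_, ?_, ?_, ?_⟩
  · intro e b i
    by_cases hi : i ∈ F e b
    · rw [hy1 e b i hi]
      exact c4 e b i hi
    · rw [hy]
      simp [hi]
  · intro e b n
    have e1 : ∀ j ∈ Hc.filter (fun j => s j = n),
        (∑ i, (ξ i - x i) * (ζ e i * v i j) - ∑ i ∈ F e b, y e b i * v i j) ^ 2 ≤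
        2 * (∑ i, (ξ i - x i) * (ζ e i * v i j) - g e j) ^ 2 +
          2 * (T * (∑ l, G e b j l * g e l) ^ 2) := by
      intro j hj
      have e2 : ∑ i ∈ F e b, y e b i * v i j = g e j - √T * ∑ l, G e b j l * g e l := by
        rw [← a1 e b (g e) (c3 e) j (Finset.mem_filter.1 hj).1]
        exact Finset.sum_congr rfl fun i hi => by rw [hy1 e b i hi]
      rw [e2]
      have e3 := sq_add_le (∑ i, (ξ i - x i) * (ζ e i * v i j) - g e j)
        (√T * ∑ l, G e b j l * g e l)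
      rw [mul_pow (√T), Real.sq_sqrt hT0.le] at e3
      refine le_trans (le_of_eq ?_) e3
      ring
    refine (Finset.sum_le_sum e1).trans ?_
    rw [Finset.sum_add_distrib, ← Finset.mul_sum, ← Finset.mul_sum, ← Finset.mul_sum]
    have e4 := c5 e n
    have e5 := mul_le_mul_of_nonneg_left (c6 e b n) hT0.le
    have e6 : T * (C * 2 ^ (16 + n / 6) * (cn Hc s n * (4 * (1 + √K) / T) ^ 2 * (9 / 16) ^ n)) ≤
        C * cn Hc s n * (400 / 441) ^ n := by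
      have p1 := two_pow_le n
      have p2 : ((9 : ℝ) / 8) ^ n * (9 / 16) ^ n ≤ (400 / 441) ^ n := by
        rw [← mul_pow]
        exact pow_le_pow_left₀ (by norm_num) (by norm_num) n
      calc T * (C * 2 ^ (16 + n / 6) * (cn Hc s n * (4 * (1 + √K) / T) ^ 2 * (9 / 16) ^ n)) =
            (T * (4 * (1 + √K) / T) ^ 2 * 2 ^ 16) *
              (C * cn Hc s n * (2 ^ (n / 6) * (9 / 16) ^ n)) := by
            rw [pow_add]; ring
        _ ≤ 1 * (C * cn Hc s n * ((9 / 8) ^ n * (9 / 16) ^ n)) := by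
            apply mul_le_mul hT2 _ _ zero_le_one
            · apply mul_le_mul_of_nonneg_left _ (mul_nonneg hC0 (hm0 n))
              exact mul_le_mul_of_nonneg_right p1 (by positivity)
            · exact mul_nonneg (mul_nonneg hC0 (hm0 n)) (by positivity)
        _ ≤ 1 * (C * cn Hc s n * (400 / 441) ^ n) := by
            apply mul_le_mul_of_nonneg_left _ zero_le_one
            exact mul_le_mul_of_nonneg_left p2 (mul_nonneg hC0 (hm0 n))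
        _ = _ := by ring
    have e7 : 0 ≤ C * cn Hc s n * (400 / 441) ^ n :=
      mul_nonneg (mul_nonneg hC0 (hm0 n)) (by positivity)
    have e8 : 720 * C * cn Hc s n * (400 / 441) ^ n = 720 * (C * cn Hc s n * (400 / 441) ^ n) := by
      ring
    have e9 : C * (2 * cn Hc s n) * (400 / 441) ^ n = 2 * (C * cn Hc s n * (400 / 441) ^ n) := by
      ring
    rw [e8]
    rw [e9] at e4
    linarith
  · intro e n
    refine (c9 e n).trans (le_of_eq ?_)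
    rw [← hT, div_eq_iff (by positivity)]
    have : ((9 : ℝ) / 4) ^ n * (8 / 9) ^ n = 2 ^ n := by
      rw [← mul_pow]; norm_num
    rw [← this]
    ring
  · intro e b n
    simp only [hsw]
    refine (c7 e b n).trans ?_
    rw [← hT]
    have p1 := two_pow_le n
    have p2 : ((9 : ℝ) / 8) ^ n * 2 ^ n = (9 / 4) ^ n := by
      rw [← mul_pow]; norm_num
    have p3 : 1 / √T * T = √T := by
      rw [one_div, inv_mul_eq_div, Real.div_sqrt]
    calc C * 2 ^ (16 + n / 6) * (1 / √T * (8 * T * cn Hc s n * 2 ^ n)) =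
          (2 ^ 19 * (1 / √T * T)) * (C * cn Hc s n * (2 ^ (n / 6) * 2 ^ n)) := by
          rw [pow_add]; ring
      _ ≤ (2 ^ 19 * √T) * (C * cn Hc s n * ((9 / 8) ^ n * 2 ^ n)) := by
          rw [p3]
          apply mul_le_mul_of_nonneg_left _ (by positivity)
          apply mul_le_mul_of_nonneg_left _ (mul_nonneg hC0 (hm0 n))
          exact mul_le_mul_of_nonneg_right p1 (by positivity)
      _ ≤ T * (C * cn Hc s n * (9 / 4) ^ n) := by
          rw [p2]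
          apply mul_le_mul_of_nonneg_right _ (mul_nonneg (mul_nonneg hC0 (hm0 n)) (by positivity))
          calc 2 ^ 19 * √T ≤ √T * √T := mul_le_mul_of_nonneg_right hT1 hsT.le
            _ = T := Real.mul_self_sqrt hT0.le
      _ ≤ 720 * (T * (C * cn Hc s n * (9 / 4) ^ n)) := by
          have : 0 ≤ T * (C * cn Hc s n * (9 / 4) ^ n) :=
            mul_nonneg hT0.le (mul_nonneg (mul_nonneg hC0 (hm0 n)) (by positivity))
          linarith
      _ = _ := by ring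
  · intro e q hq
    refine (c10 e q hq).trans ?_
    rw [div_le_iff₀ (by positivity)]
    have : ((9 : ℝ) / 8) ^ (sQ q) * (8 / 9) ^ (sQ q) = 1 := by
      rw [← mul_pow]; norm_num
    calc 90 * C * Lb q ≤ 720 * C * Lb q := by
          have := mul_nonneg hC0 (hLb0 q hq)
          linarith
      _ = 720 * C * Lb q * (((9 : ℝ) / 8) ^ (sQ q) * (8 / 9) ^ (sQ q)) := by rw [this, mul_one]
      _ = _ := by ring
  · intro e b q hq
    simp only [hsw]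
    refine (c8 e b q hq).trans ?_
    have p1 := two_pow_le (sQ q)
    have p4 : 1 / √T ≤ 1 / 2 ^ 16 := by
      apply one_div_le_one_div_of_le (by positivity)
      refine le_trans ?_ hT1
      norm_num
    calc C * 2 ^ (16 + sQ q / 6) * (1 / √T * Lb q) =
          (2 ^ 16 * (1 / √T)) * (C * Lb q * 2 ^ (sQ q / 6)) := by rw [pow_add]; ring
      _ ≤ 1 * (C * Lb q * (9 / 8) ^ (sQ q)) := by
          apply mul_le_mul _ _ _ zero_le_one
          · calc (2 : ℝ) ^ 16 * (1 / √T) ≤ 2 ^ 16 * (1 / 2 ^ 16) :=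
                mul_le_mul_of_nonneg_left p4 (by positivity)
              _ = 1 := by norm_num
          · exact mul_le_mul_of_nonneg_left p1 (mul_nonneg hC0 (hLb0 q hq))
          · exact mul_nonneg (mul_nonneg hC0 (hLb0 q hq)) (by positivity)
      _ ≤ 720 * (C * Lb q * (9 / 8) ^ (sQ q)) := by
          have : 0 ≤ C * Lb q * (9 / 8) ^ (sQ q) :=
            mul_nonneg (mul_nonneg hC0 (hLb0 q hq)) (by positivity)
          linarith
      _ = _ := by ring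

theorem sub_bound {α : Type*} (S : Finset α) (a b c : α → ℝ) (M : ℝ)
    (ha : ∑ j ∈ S, a j ^ 2 ≤ M) (hb : ∑ j ∈ S, b j ^ 2 ≤ M) (hc : ∀ j ∈ S, c j = a j - b j) :
    ∑ j ∈ S, c j ^ 2 ≤ 4 * M := by
  calc ∑ j ∈ S, c j ^ 2 ≤ ∑ j ∈ S, (2 * a j ^ 2 + 2 * b j ^ 2) := by
        apply Finset.sum_le_sum
        intro j hj
        rw [hc j hj]
        nlinarith [sq_nonneg (a j + b j)]
    _ = 2 * ∑ j ∈ S, a j ^ 2 + 2 * ∑ j ∈ S, b j ^ 2 := by
        rw [Finset.sum_add_distrib, Finset.mul_sum, Finset.mul_sum]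
    _ ≤ 4 * M := by linarith

theorem sub_bound2 {α β : Type*} [Fintype β] (S : Finset α) (a b c : α → β → ℝ) (M : ℝ)
    (ha : ∑ j ∈ S, ∑ l, a j l ^ 2 ≤ M) (hb : ∑ j ∈ S, ∑ l, b j l ^ 2 ≤ M)
    (hc : ∀ j ∈ S, ∀ l, c j l = a j l - b j l) :
    ∑ j ∈ S, ∑ l, c j l ^ 2 ≤ 4 * M := by
  rw [← Finset.sum_product'] at ha hb ⊢
  exact sub_bound _ (fun p : α × β => a p.1 p.2) (fun p => b p.1 p.2) (fun p => c p.1 p.2) M ha hb
    (fun p hp => hc p.1 (Finset.mem_product.1 hp).1 p.2)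

/-- MODULE TWR. Three-way rounding with certificates.
`B` is split into `L`, `R` and the rest; the error vectors of `L` and `R` are certified on the
sets `F1 b` resp. `F2 b` (b : Bool). -/
theorem three_way : ∃ C3 : ℝ, 1 ≤ C3 ∧ ∀ K : ℝ, 0 ≤ K → ∃ T1 : ℝ, ∀ t0 : ℕ, T1 ≤ 2 ^ t0 →
    ∀ (ι Qt Λt : Type) [Fintype ι] [DecidableEq ι] [Fintype Λt] (d : ℕ) (v : ι → Fin d → ℝ)
      (_ : ∀ i, ∑ j, v i j ^ 2 ≤ 1) (Hc : Finset (Fin d)) (s : Fin d → ℕ)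
      (B : Finset ι) (xL xR : ι → ℝ) (_ : ∀ i ∈ B, |xL i - 1 / 4| ≤ 1 / 8)
      (_ : ∀ i ∈ B, |xR i - 1 / 4| ≤ 1 / 8)
      (_ : ∀ n : ℕ, ∑ i ∈ B, ∑ j ∈ Hc with s j = n, v i j ^ 2 ≤ 8 * 2 ^ t0 * cn Hc s n * 2 ^ n)
      (F1 F2 : Bool → Finset ι) (_ : ∀ b, Even v Hc s K t0 (F1 b))
      (_ : ∀ b, Even v Hc s K t0 (F2 b))
      (Qs : Finset Qt) (sQ : Qt → ℕ) (_ : ∀ n : ℕ, (Qs.filter (fun q => sQ q = n)).card ≤ 4)
      (f : Qt → Λt → ι → ℝ) (Lb : Qt → ℝ) (_ : ∀ q ∈ Qs, 0 ≤ Lb q)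
      (_ : ∀ q ∈ Qs, ∑ r, ∑ i ∈ B, f q r i ^ 2 ≤ Lb q)
      (_ : ∀ b, ∀ q ∈ Qs, ∑ r, ∑ i ∈ F1 b, f q r i ^ 2 ≤ Lb q)
      (_ : ∀ b, ∀ q ∈ Qs, ∑ r, ∑ i ∈ F2 b, f q r i ^ 2 ≤ Lb q),
    ∃ (L R : Finset ι) (u1 u2 : Bool → ι → ℝ), L ⊆ B ∧ R ⊆ B ∧ Disjoint L R ∧
      (∀ b i, |u1 b i| ≤ 1 / 32) ∧ (∀ b i, |u2 b i| ≤ 1 / 32) ∧
      -- certificates
      (∀ b, ∀ n : ℕ, ∑ j ∈ Hc with s j = n,
        (∑ i ∈ L, v i j - ∑ i ∈ B, xL i * v i j - ∑ i ∈ F1 b, u1 b i * v i j) ^ 2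
          ≤ C3 * cn Hc s n * (400 / 441) ^ n) ∧
      (∀ b, ∀ n : ℕ, ∑ j ∈ Hc with s j = n,
        (∑ i ∈ R, v i j - ∑ i ∈ B, xR i * v i j - ∑ i ∈ F2 b, u2 b i * v i j) ^ 2
          ≤ C3 * cn Hc s n * (400 / 441) ^ n) ∧
      -- high rows
      (∀ n : ℕ, ∑ j ∈ Hc with s j = n, ∑ l,
        (∑ i ∈ L, v i j * v i l - ∑ i ∈ B, xL i * (v i j * v i l)) ^ 2
          ≤ C3 * 2 ^ t0 * cn Hc s n * (9 / 4) ^ n) ∧
      (∀ n : ℕ, ∑ j ∈ Hc with s j = n, ∑ l,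
        (∑ i ∈ R, v i j * v i l - ∑ i ∈ B, xR i * (v i j * v i l)) ^ 2
          ≤ C3 * 2 ^ t0 * cn Hc s n * (9 / 4) ^ n) ∧
      (∀ b, ∀ n : ℕ, ∑ j ∈ Hc with s j = n, ∑ l, (∑ i ∈ F1 b, u1 b i * (v i j * v i l)) ^ 2
          ≤ C3 * 2 ^ t0 * cn Hc s n * (9 / 4) ^ n) ∧
      (∀ b, ∀ n : ℕ, ∑ j ∈ Hc with s j = n, ∑ l, (∑ i ∈ F2 b, u2 b i * (v i j * v i l)) ^ 2
          ≤ C3 * 2 ^ t0 * cn Hc s n * (9 / 4) ^ n) ∧
      -- generic rows
      (∀ q ∈ Qs, ∑ r, (∑ i ∈ L, f q r i - ∑ i ∈ B, xL i * f q r i) ^ 2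
          ≤ C3 * (9 / 8) ^ (sQ q) * Lb q) ∧
      (∀ q ∈ Qs, ∑ r, (∑ i ∈ R, f q r i - ∑ i ∈ B, xR i * f q r i) ^ 2
          ≤ C3 * (9 / 8) ^ (sQ q) * Lb q) ∧
      (∀ b, ∀ q ∈ Qs, ∑ r, (∑ i ∈ F1 b, u1 b i * f q r i) ^ 2 ≤ C3 * (9 / 8) ^ (sQ q) * Lb q) ∧
      (∀ b, ∀ q ∈ Qs, ∑ r, (∑ i ∈ F2 b, u2 b i * f q r i) ^ 2
          ≤ C3 * (9 / 8) ^ (sQ q) * Lb q) := by
  obtain ⟨C, hC, H⟩ := call
  refine ⟨2880 * C, by linarith, fun K hK => ?_⟩
  obtain ⟨T1, HT⟩ := H K hK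
  refine ⟨T1, ?_⟩
  intro t0 ht0 ι Qt Λt _ _ _ d v hv Hc s B xL xR hxL hxR hB F1 F2 hF1 hF2 Qs sQ h4 f Lb hLb hLB
    hL1 hL2
  have hC0 : 0 ≤ C := by linarith
  have hm0 : ∀ n, 0 ≤ cn Hc s n := fun n => cn_nonneg _ _ _
  have hT0 : (0 : ℝ) < 2 ^ t0 := by positivity
  -- the starting points
  obtain ⟨z, hz⟩ : ∃ z : ι → ℝ, z = fun i => if i ∈ B then xR i / (1 - xL i) else 0 := ⟨_, rfl⟩
  have hzB : ∀ i ∈ B, z i = xR i / (1 - xL i) := fun i hi => by rw [hz]; simp [hi]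
  have hzo : ∀ i, i ∉ B → z i = 0 := fun i hi => by rw [hz]; simp [hi]
  have hz01 : ∀ i, 0 ≤ z i ∧ z i ≤ 1 := by
    intro i
    by_cases hi : i ∈ B
    · rw [hzB i hi]
      have a1 := abs_le.1 (hxL i hi)
      have a2 := abs_le.1 (hxR i hi)
      constructor
      · apply div_nonneg <;> linarith
      · rw [div_le_one (by linarith)]
        linarith
    · rw [hzo i hi]
      exact ⟨le_rfl, zero_le_one⟩
  have hzR : ∀ i ∈ B, z i * (1 - xL i) = xR i := by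
    intro i hi
    rw [hzB i hi]
    have a1 := abs_le.1 (hxL i hi)
    have : 1 - xL i ≠ 0 := by
      have : 0 < 1 - xL i := by linarith
      exact this.ne'
    field_simp
  obtain ⟨x1, hx1⟩ : ∃ x1 : ι → ℝ, x1 = fun i => if i ∈ B then xL i else 0 := ⟨_, rfl⟩
  have hx1B : ∀ i ∈ B, x1 i = xL i := fun i hi => by rw [hx1]; simp [hi]
  have hx1o : ∀ i, i ∉ B → x1 i = 0 := fun i hi => by rw [hx1]; simp [hi]
  have hx101 : ∀ i, 0 ≤ x1 i ∧ x1 i ≤ 1 := by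
    intro i
    by_cases hi : i ∈ B
    · rw [hx1B i hi]
      have a1 := abs_le.1 (hxL i hi)
      constructor <;> linarith
    · rw [hx1o i hi]
      exact ⟨le_rfl, zero_le_one⟩
  have hfr : ∀ x : ι → ℝ, (∀ i, i ∉ B → x i = 0) → frac x ⊆ B := by
    intro x hx i hi
    by_contra hc
    have := (Finset.mem_filter.1 hi).2
    rw [hx i hc] at this
    exact lt_irrefl _ this.1
  have hBx : ∀ x : ι → ℝ, (∀ i, i ∉ B → x i = 0) → ∀ n : ℕ,
      ∑ i ∈ frac x, ∑ j ∈ Hc with s j = n, v i j ^ 2 ≤ 8 * 2 ^ t0 * cn Hc s n * 2 ^ n := by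
    intro x hx n
    exact (Finset.sum_le_sum_of_subset_of_nonneg (hfr x hx)
      fun _ _ _ => Finset.sum_nonneg fun _ _ => sq_nonneg _).trans (hB n)
  have hLx : ∀ x : ι → ℝ, (∀ i, i ∉ B → x i = 0) → ∀ q ∈ Qs,
      ∑ r, ∑ i ∈ frac x, f q r i ^ 2 ≤ Lb q := by
    intro x hx q hq
    exact (Finset.sum_le_sum fun r _ => Finset.sum_le_sum_of_subset_of_nonneg (hfr x hx)
      fun _ _ _ => sq_nonneg _).trans (hLB q hq)
  obtain ⟨F, hF⟩ : ∃ F : Bool → Bool → Finset ι, F = fun e b => if e then F2 b else F1 b :=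
    ⟨_, rfl⟩
  have hFt : ∀ b, F true b = F2 b := fun b => by rw [hF]; rfl
  have hFf : ∀ b, F false b = F1 b := fun b => by rw [hF]; rfl
  have hFE : ∀ e b, Even v Hc s K t0 (F e b) := by
    intro e b
    cases e
    · rw [hFf]; exact hF1 b
    · rw [hFt]; exact hF2 b
  have hFL : ∀ e b, ∀ q ∈ Qs, ∑ r, ∑ i ∈ F e b, f q r i ^ 2 ≤ Lb q := by
    intro e b q hq
    cases e
    · rw [hFf]; exact hL1 b q hq
    · rw [hFt]; exact hL2 b q hq
  -- first call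
  obtain ⟨ξ1, y1, c1, c2, c3, c4, c5, c6, c7, c8⟩ := HT t0 ht0 ι Qt Λt d v hv Hc s x1 hx101
    (fun e i => if e then z i else 1) (by
      intro e i
      cases e
      · simp
      · simp only [if_true]
        have := hz01 i
        nlinarith) (hBx x1 hx1o) F hFE Qs sQ h4 f Lb (hLx x1 hx1o) hFL
  obtain ⟨L, hL⟩ : ∃ L : Finset ι, L = B.filter (fun i => ξ1 i = 1) := ⟨_, rfl⟩
  obtain ⟨x2, hx2⟩ : ∃ x2 : ι → ℝ, x2 = fun i => z i * (1 - ξ1 i) := ⟨_, rfl⟩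
  have hx2o : ∀ i, i ∉ B → x2 i = 0 := fun i hi => by rw [hx2]; simp [hzo i hi]
  have hx201 : ∀ i, 0 ≤ x2 i ∧ x2 i ≤ 1 := by
    intro i
    rw [hx2]
    have := hz01 i
    rcases c1 i with h | h
    · simp only [h, sub_zero, mul_one]; exact this
    · simp [h]
  obtain ⟨ξ2, y2, e1, e2, e3, e4, e5, e6, e7, e8⟩ := HT t0 ht0 ι Qt Λt d v hv Hc s x2 hx201
    (fun _ _ => 1) (by intro e i; norm_num) (hBx x2 hx2o) F hFE Qs sQ h4 f Lb (hLx x2 hx2o) hFL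
  obtain ⟨R, hR⟩ : ∃ R : Finset ι, R = B.filter (fun i => ξ2 i = 1) := ⟨_, rfl⟩
  -- the formulas
  have hξ1o : ∀ i, i ∉ B → ξ1 i = 0 := fun i hi => by rw [c2 i (Or.inl (hx1o i hi)), hx1o i hi]
  have hξ2o : ∀ i, i ∉ B → ξ2 i = 0 := fun i hi => by rw [e2 i (Or.inl (hx2o i hi)), hx2o i hi]
  have hLw : ∀ w : ι → ℝ, ∑ i ∈ L, w i - ∑ i ∈ B, xL i * w i = ∑ i, (ξ1 i - x1 i) * (1 * w i) := by
    intro w
    have t1 : ∑ i ∈ L, w i = ∑ i ∈ B, ξ1 i * w i := by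
      rw [hL, Finset.sum_filter]
      apply Finset.sum_congr rfl
      intro i _
      rcases c1 i with h | h <;> simp [h]
    rw [t1, ← Finset.sum_sub_distrib, ← Finset.sum_subset (Finset.subset_univ B)
      (fun i _ hi => by rw [hξ1o i hi, hx1o i hi]; ring)]
    apply Finset.sum_congr rfl
    intro i hi
    rw [hx1B i hi]
    ring
  have hRw : ∀ w : ι → ℝ, ∑ i ∈ R, w i - ∑ i ∈ B, xR i * w i =
      ∑ i, (ξ2 i - x2 i) * (1 * w i) - ∑ i, (ξ1 i - x1 i) * (z i * w i) := by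
    intro w
    have t1 : ∑ i ∈ R, w i = ∑ i ∈ B, ξ2 i * w i := by
      rw [hR, Finset.sum_filter]
      apply Finset.sum_congr rfl
      intro i _
      rcases e1 i with h | h <;> simp [h]
    rw [t1, ← Finset.sum_sub_distrib, ← Finset.sum_sub_distrib,
      ← Finset.sum_subset (Finset.subset_univ B)
        (fun i _ hi => by rw [hξ1o i hi, hx1o i hi, hξ2o i hi, hx2o i hi]; ring)]
    apply Finset.sum_congr rfl
    intro i hi
    rw [hx1B i hi, hx2]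
    have := hzR i hi
    linear_combination (w i) * this
  have hut : ∀ (b : Bool) (w : ι → ℝ), ∑ i ∈ F2 b, (y2 true b i - y1 true b i) * w i =
      ∑ i ∈ F2 b, y2 true b i * w i - ∑ i ∈ F2 b, y1 true b i * w i := by
    intro b w
    rw [← Finset.sum_sub_distrib]
    apply Finset.sum_congr rfl
    intro i _
    ring
  have hle : ∀ X : ℝ, 0 ≤ X → 720 * C * X ≤ 2880 * C * X := by
    intro X hX
    have := mul_nonneg hC0 hX
    linarith
  have c4f := c4 false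
  have c4t := c4 true
  have c5f := c5 false
  have c5t := c5 true
  have c6f := c6 false
  have c6t := c6 true
  have c7f := c7 false
  have c7t := c7 true
  have c8f := c8 false
  have c8t := c8 true
  have e4t := e4 true
  have e5t := e5 true
  have e6t := e6 true
  have e7t := e7 true
  have e8t := e8 true
  simp only [Bool.false_eq_true, if_false, if_true, hFf, hFt] at c4f c4t c5f c5t c6f c6t c7f c7t
  simp only [hFf] at c8f
  simp only [hFt] at c8t e4t e6t e8t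
  refine ⟨L, R, fun b => y1 false b, fun b i => y2 true b i - y1 true b i, ?_, ?_, ?_, ?_, ?_,
    ?_, ?_, ?_, ?_, ?_, ?_, ?_, ?_, ?_, ?_⟩
  · rw [hL]; exact Finset.filter_subset _ _
  · rw [hR]; exact Finset.filter_subset _ _
  · rw [Finset.disjoint_left]
    intro i hi1 hi2
    rw [hL] at hi1
    rw [hR] at hi2
    have t1 := (Finset.mem_filter.1 hi1).2
    have t2 := (Finset.mem_filter.1 hi2).2
    have t3 : x2 i = 0 := by rw [hx2]; simp [t1]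
    rw [e2 i (Or.inl t3), t3] at t2
    norm_num at t2
  · intro b i
    have := c3 false b i
    linarith
  · intro b i
    have t1 := c3 true b i
    have t2 := e3 true b i
    have t3 := abs_sub (y2 true b i) (y1 true b i)
    linarith
  · intro b n
    simp only [hLw]
    refine (c4f b n).trans ?_
    have := hle (cn Hc s n * (400 / 441) ^ n) (mul_nonneg (hm0 n) (by positivity))
    linarith
  · intro b n
    refine (sub_bound _ (fun j => ∑ i, (ξ2 i - x2 i) * (1 * v i j) -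
      ∑ i ∈ F2 b, y2 true b i * v i j) (fun j => ∑ i, (ξ1 i - x1 i) * (z i * v i j) -
      ∑ i ∈ F2 b, y1 true b i * v i j) _ _ (e4t b n) (c4t b n) ?_).trans (le_of_eq (by ring))
    intro j _
    simp only
    rw [hRw, hut]
    ring
  · intro n
    simp only [hLw]
    refine (c5f n).trans ?_
    have := hle (2 ^ t0 * cn Hc s n * (9 / 4) ^ n) (mul_nonneg (mul_nonneg hT0.le (hm0 n))
      (by positivity))
    linarith
  · intro n
    refine (sub_bound2 _ (fun j l => ∑ i, (ξ2 i - x2 i) * (1 * (v i j * v i l)))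
      (fun j l => ∑ i, (ξ1 i - x1 i) * (z i * (v i j * v i l))) _ _ (e5t n) (c5t n) ?_).trans
      (le_of_eq (by ring))
    intro j _ l
    rw [hRw]
  · intro b n
    refine (c6f b n).trans ?_
    have := hle (2 ^ t0 * cn Hc s n * (9 / 4) ^ n) (mul_nonneg (mul_nonneg hT0.le (hm0 n))
      (by positivity))
    linarith
  · intro b n
    refine (sub_bound2 _ (fun j l => ∑ i ∈ F2 b, y2 true b i * (v i j * v i l))
      (fun j l => ∑ i ∈ F2 b, y1 true b i * (v i j * v i l)) _ _ (e6t b n) (c6t b n) ?_).trans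
      (le_of_eq (by ring))
    intro j _ l
    simp only
    rw [hut]
  · intro q hq
    simp only [hLw]
    refine (c7f q hq).trans ?_
    have := hle ((9 / 8) ^ (sQ q) * Lb q) (mul_nonneg (by positivity) (hLb q hq))
    linarith
  · intro q hq
    refine (sub_bound _ (fun r => ∑ i, (ξ2 i - x2 i) * (1 * f q r i))
      (fun r => ∑ i, (ξ1 i - x1 i) * (z i * f q r i)) _ _ (e7t q hq) (c7t q hq) ?_).trans
      (le_of_eq (by ring))
    intro r _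
    rw [hRw]
  · intro b q hq
    refine (c8f b q hq).trans ?_
    have := hle ((9 / 8) ^ (sQ q) * Lb q) (mul_nonneg (by positivity) (hLb q hq))
    linarith
  · intro b q hq
    refine (sub_bound _ (fun r => ∑ i ∈ F2 b, y2 true b i * f q r i)
      (fun r => ∑ i ∈ F2 b, y1 true b i * f q r i) _ _ (e8t b q hq) (c8t b q hq) ?_).trans
      (le_of_eq (by ring))
    intro r _
    simp only
    rw [hut]

end Vale.Agent.Steinitz2
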