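import Mathlib
import Vale.Agent.Lib.Steinitz2.LDefs
import Vale.Agent.Lib.Steinitz2.Twr

/-!
# P262 log-free bound: module BLOCK (split of one block: the three-way rounding applied twice)
-/

namespace Vale.Agent.Steinitz2

open Finset

theorem sq_two_le {α : Type*} (S : Finset α) (f g h : α → ℝ) (X : ℝ)
    (hf : ∑ x ∈ S, f x ^ 2 ≤ X) (hg : ∑ x ∈ S, g x ^ 2 ≤ X) (hh : ∀ x ∈ S, h x = f x + g x) :
    ∑ x ∈ S, h x ^ 2 ≤ 4 * X := by
  have h1 : ∑ x ∈ S, h x ^ 2 ≤ 2 * ∑ x ∈ S, f x ^ 2 + 2 * ∑ x ∈ S, g x ^ 2 := by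
    rw [mul_sum, mul_sum, ← sum_add_distrib]
    apply sum_le_sum
    intro x hx
    rw [hh x hx]
    nlinarith [sq_nonneg (f x - g x)]
  linarith

theorem sq_two_le2 {α β : Type*} (S : Finset α) (T : Finset β) (f g h : α → β → ℝ) (X : ℝ)
    (hf : ∑ x ∈ S, ∑ y ∈ T, f x y ^ 2 ≤ X) (hg : ∑ x ∈ S, ∑ y ∈ T, g x y ^ 2 ≤ X)
    (hh : ∀ x ∈ S, ∀ y ∈ T, h x y = f x y + g x y) :
    ∑ x ∈ S, ∑ y ∈ T, h x y ^ 2 ≤ 4 * X := by
  rw [← sum_product'] at hf hg ⊢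
  exact sq_two_le (S ×ˢ T) (fun p => f p.1 p.2) (fun p => g p.1 p.2) (fun p => h p.1 p.2) X hf hg
    (fun p hp => hh p.1 (mem_product.mp hp).1 p.2 (mem_product.mp hp).2)

theorem cast_card_cn {D : Type*} (Hc : Finset D) (s : D → ℕ) (n : ℕ) :
    ((Hc.filter (fun p => s p = n)).card : ℝ) = cn Hc s n := rfl

/-- evenness from a Gram estimate -/
theorem even_mk {ι : Type*} {d : ℕ} (v : ι → Fin d → ℝ) (Hc : Finset (Fin d)) (s : Fin d → ℕ)
    (K : ℝ) (t0 : ℕ) (Y : Fin d → ℝ) (hY1 : ∀ j ∈ Hc, 2 * 2 ^ t0 * 2 ^ (s j) ≤ Y j)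
    (hY2 : ∀ j ∈ Hc, Y j ≤ 4 * 2 ^ t0 * 2 ^ (s j)) (c : ℝ) (hc1 : 1 / 8 ≤ c) (hc2 : c ≤ 1 / 2)
    (hK : K ≤ 2 ^ t0) (F : Finset ι)
    (hF : ∀ n : ℕ, ∑ j ∈ Hc with s j = n, ∑ l,
        (∑ i ∈ F, v i j * v i l - if j = l then c * Y j else 0) ^ 2
          ≤ K * 2 ^ t0 * cn Hc s n * (9 / 4) ^ n) : Even v Hc s K t0 F := by
  have hT : (0 : ℝ) < 2 ^ t0 := by positivity
  constructor
  · refine ⟨fun j => c * Y j, ?_, ?_⟩
    · intro j hj
      have h1 := hY1 j hj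
      have h2 : (0 : ℝ) < 2 ^ (s j) := by positivity
      have h3 : 0 ≤ Y j := le_trans (by positivity) h1
      have h4 : (1 / 8) * Y j ≤ c * Y j := mul_le_mul_of_nonneg_right hc1 h3
      show (2 : ℝ) ^ t0 * 2 ^ (s j) / 4 ≤ c * Y j
      linarith
    · intro n
      refine le_trans (sum_le_sum fun j _ => ?_) (hF n)
      exact sum_le_sum_of_subset_of_nonneg (subset_univ _) fun _ _ _ => sq_nonneg _
  · intro n
    have hn : (0 : ℝ) < 2 ^ n := by positivity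
    rw [sum_comm]
    have h1 : ∀ j ∈ Hc.filter (fun j => s j = n), ∑ i ∈ F, v i j ^ 2
        ≤ 3 * 2 ^ t0 * 2 ^ n + (∑ l, (∑ i ∈ F, v i j * v i l
          - if j = l then c * Y j else 0) ^ 2) / (4 * (2 ^ t0 * 2 ^ n)) := by
      intro j hj
      have hj2 := mem_filter.mp hj
      have e1 : ∑ i ∈ F, v i j ^ 2 = ∑ i ∈ F, v i j * v i j :=
        sum_congr rfl fun i _ => by ring
      have h2 : (∑ i ∈ F, v i j * v i j - c * Y j) ^ 2
          ≤ ∑ l, (∑ i ∈ F, v i j * v i l - if j = l then c * Y j else 0) ^ 2 := by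
        have h3 := single_le_sum (f := fun l => (∑ i ∈ F, v i j * v i l
          - if j = l then c * Y j else 0) ^ 2) (fun _ _ => sq_nonneg _) (mem_univ j)
        simpa using h3
      have h4 := hY2 j hj2.1
      have h5 := hY1 j hj2.1
      rw [hj2.2] at h4 h5
      have h6 : 0 ≤ Y j := le_trans (by positivity) h5
      have h7 : c * Y j ≤ 2 * 2 ^ t0 * 2 ^ n := by
        have := mul_le_mul_of_nonneg_right hc2 h6
        linarith
      rw [e1]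
      set A : ℝ := 2 ^ t0 * 2 ^ n with hA
      have hA0 : 0 < A := by positivity
      set z : ℝ := ∑ i ∈ F, v i j * v i j - c * Y j with hz
      have h8 : z ≤ A + z ^ 2 / (4 * A) := by
        have h9 : z ^ 2 / (4 * A) * (4 * A) = z ^ 2 := div_mul_cancel₀ _ (by positivity)
        nlinarith [sq_nonneg (z - 2 * A), h9]
      have h10 : z ^ 2 / (4 * A) ≤ (∑ l, (∑ i ∈ F, v i j * v i l
          - if j = l then c * Y j else 0) ^ 2) / (4 * A) :=
        div_le_div_of_nonneg_right h2 (by positivity)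
      have h11 : ∑ i ∈ F, v i j * v i j = z + c * Y j := by rw [hz]; ring
      rw [h11]
      have e2 : 3 * 2 ^ t0 * 2 ^ n = 3 * A := by rw [hA]; ring
      have e3 : 2 * 2 ^ t0 * 2 ^ n = 2 * A := by rw [hA]; ring
      rw [e2]
      rw [e3] at h7
      linarith
    refine (sum_le_sum h1).trans ?_
    rw [sum_add_distrib, sum_const, ← sum_div, nsmul_eq_mul, cast_card_cn]
    have h12 := hF n
    have hm := cn_nonneg Hc s n
    have h13 : (∑ j ∈ Hc with s j = n, ∑ l, (∑ i ∈ F, v i j * v i l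
          - if j = l then c * Y j else 0) ^ 2) / (4 * (2 ^ t0 * 2 ^ n))
        ≤ 2 ^ t0 * cn Hc s n * 2 ^ n := by
      rw [div_le_iff₀ (by positivity)]
      refine h12.trans ?_
      have h14 : ((9 : ℝ) / 4) ^ n ≤ 2 ^ n * 2 ^ n := by
        rw [← mul_pow]
        exact pow_le_pow_left₀ (by norm_num) (by norm_num) n
      calc K * 2 ^ t0 * cn Hc s n * (9 / 4) ^ n
          ≤ 2 ^ t0 * 2 ^ t0 * cn Hc s n * (9 / 4) ^ n := by gcongr
        _ ≤ 2 ^ t0 * 2 ^ t0 * cn Hc s n * (2 ^ n * 2 ^ n) := by gcongr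
        _ ≤ 4 * (2 ^ t0 * 2 ^ t0 * cn Hc s n * (2 ^ n * 2 ^ n)) := by
          have : 0 ≤ 2 ^ t0 * 2 ^ t0 * cn Hc s n * (2 ^ n * 2 ^ n) := by positivity
          linarith
        _ = _ := by ring
    have h15 : 0 ≤ 2 ^ t0 * cn Hc s n * 2 ^ n := by positivity
    nlinarith

/-- square of a sum of four terms -/
theorem sq_four_le2 {α β : Type*} (S : Finset α) (T : Finset β) (f1 f2 f3 f4 h : α → β → ℝ)
    (X1 X2 X3 X4 : ℝ) (h1 : ∑ x ∈ S, ∑ y ∈ T, f1 x y ^ 2 ≤ X1)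
    (h2 : ∑ x ∈ S, ∑ y ∈ T, f2 x y ^ 2 ≤ X2) (h3 : ∑ x ∈ S, ∑ y ∈ T, f3 x y ^ 2 ≤ X3)
    (h4 : ∑ x ∈ S, ∑ y ∈ T, f4 x y ^ 2 ≤ X4) (c2 c3 c4 : ℝ) (hc2 : c2 ^ 2 ≤ 1) (hc3 : c3 ^ 2 ≤ 1)
    (hc4 : c4 ^ 2 ≤ 1)
    (hh : ∀ x ∈ S, ∀ y ∈ T, h x y = f1 x y + c2 * f2 x y + c3 * f3 x y + c4 * f4 x y) :
    ∑ x ∈ S, ∑ y ∈ T, h x y ^ 2 ≤ 4 * (X1 + X2 + X3 + X4) := by
  rw [← sum_product'] at h1 h2 h3 h4 ⊢
  have h5 : ∑ p ∈ S ×ˢ T, h p.1 p.2 ^ 2 ≤ 4 * ∑ p ∈ S ×ˢ T, f1 p.1 p.2 ^ 2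
      + 4 * ∑ p ∈ S ×ˢ T, f2 p.1 p.2 ^ 2 + 4 * ∑ p ∈ S ×ˢ T, f3 p.1 p.2 ^ 2
      + 4 * ∑ p ∈ S ×ˢ T, f4 p.1 p.2 ^ 2 := by
    rw [mul_sum, mul_sum, mul_sum, mul_sum, ← sum_add_distrib, ← sum_add_distrib,
      ← sum_add_distrib]
    apply sum_le_sum
    intro p hp
    rw [hh p.1 (mem_product.mp hp).1 p.2 (mem_product.mp hp).2]
    have a2 : (c2 * f2 p.1 p.2) ^ 2 ≤ f2 p.1 p.2 ^ 2 := by
      rw [mul_pow]; nlinarith [sq_nonneg (f2 p.1 p.2)]
    have a3 : (c3 * f3 p.1 p.2) ^ 2 ≤ f3 p.1 p.2 ^ 2 := by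
      rw [mul_pow]; nlinarith [sq_nonneg (f3 p.1 p.2)]
    have a4 : (c4 * f4 p.1 p.2) ^ 2 ≤ f4 p.1 p.2 ^ 2 := by
      rw [mul_pow]; nlinarith [sq_nonneg (f4 p.1 p.2)]
    nlinarith [sq_nonneg (f1 p.1 p.2 - c2 * f2 p.1 p.2), sq_nonneg (f1 p.1 p.2 - c3 * f3 p.1 p.2),
      sq_nonneg (f1 p.1 p.2 - c4 * f4 p.1 p.2), sq_nonneg (c2 * f2 p.1 p.2 - c3 * f3 p.1 p.2),
      sq_nonneg (c2 * f2 p.1 p.2 - c4 * f4 p.1 p.2), sq_nonneg (c3 * f3 p.1 p.2 - c4 * f4 p.1 p.2)]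
  linarith

/-- MODULE BLOCK. -/
theorem block_step : ∃ C6 : ℝ, 1 ≤ C6 ∧ ∀ K : ℝ, 1 ≤ K → ∃ T1 : ℝ, ∀ t0 : ℕ, T1 ≤ 2 ^ t0 →
    ∀ (ι Qt Λt : Type) [Fintype ι] [DecidableEq ι] [Fintype Λt] (d : ℕ) (v : ι → Fin d → ℝ)
      (_ : ∀ i, ∑ j, v i j ^ 2 ≤ 1) (Hc : Finset (Fin d)) (s : Fin d → ℕ)
      (Y : Fin d → ℝ) (_ : ∀ j ∈ Hc, 2 * 2 ^ t0 * 2 ^ (s j) ≤ Y j)
      (_ : ∀ j ∈ Hc, Y j ≤ 4 * 2 ^ t0 * 2 ^ (s j))
      (Ba Bb : Finset ι)
      (_ : ∀ n : ℕ, ∑ j ∈ Hc with s j = n, ∑ l,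
        (∑ i ∈ Ba, v i j * v i l - if j = l then Y j / 2 else 0) ^ 2
          ≤ K * 2 ^ t0 * cn Hc s n * (9 / 4) ^ n)
      (_ : ∀ n : ℕ, ∑ j ∈ Hc with s j = n, ∑ l,
        (∑ i ∈ Bb, v i j * v i l - if j = l then Y j / 2 else 0) ^ 2
          ≤ K * 2 ^ t0 * cn Hc s n * (9 / 4) ^ n)
      (yl yr : ι → ℝ) (_ : ∀ i, |yl i| ≤ 1 / 32) (_ : ∀ i, |yr i| ≤ 1 / 32)
      (_ : ∀ n : ℕ, ∑ j ∈ Hc with s j = n, ∑ l, (∑ i ∈ Bb, yl i * (v i j * v i l)) ^ 2
          ≤ K * 2 ^ t0 * cn Hc s n * (9 / 4) ^ n)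
      (_ : ∀ n : ℕ, ∑ j ∈ Hc with s j = n, ∑ l, (∑ i ∈ Bb, yr i * (v i j * v i l)) ^ 2
          ≤ K * 2 ^ t0 * cn Hc s n * (9 / 4) ^ n)
      (Qs : Finset Qt) (sQ : Qt → ℕ) (_ : ∀ n : ℕ, (Qs.filter (fun q => sQ q = n)).card ≤ 4)
      (f : Qt → Λt → ι → ℝ) (Lb : Qt → ℝ) (_ : ∀ q ∈ Qs, 0 ≤ Lb q)
      (_ : ∀ q ∈ Qs, ∑ r, ∑ i ∈ Ba, f q r i ^ 2 ≤ Lb q)
      (_ : ∀ q ∈ Qs, ∑ r, ∑ i ∈ Bb, f q r i ^ 2 ≤ Lb q),
    ∃ S : Split ι, S.Good v Hc s C6 t0 Ba Bb yl yr Qs sQ f Lb := by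
  obtain ⟨C3, hC3, H3⟩ := three_way
  refine ⟨4 * C3, by linarith, ?_⟩
  intro K hK
  obtain ⟨T1, H4⟩ := H3 (100 * (C3 + K)) (by positivity)
  refine ⟨max T1 (100 * (C3 + K)), ?_⟩
  intro t0 hT0 ι Qt Λt _ _ _ d v hv Hc s Y hY1 hY2 Ba Bb hBa hBb yl yr hyl hyr hcl hcr Qs sQ hQs
    f Lb hLb hfa hfb
  have hT1 : T1 ≤ 2 ^ t0 := (le_max_left _ _).trans hT0
  have hT2 : 100 * (C3 + K) ≤ 2 ^ t0 := (le_max_right _ _).trans hT0
  have hKK : K ≤ 100 * (C3 + K) := by linarith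
  -- units
  have hU : ∀ n, 0 ≤ 2 ^ t0 * cn Hc s n * (9 / 4) ^ n := fun n => by
    have := cn_nonneg Hc s n
    positivity
  have mono : ∀ (F : Finset ι) (c : ℝ) (K' : ℝ), K' ≤ 100 * (C3 + K) →
      (∀ n : ℕ, ∑ j ∈ Hc with s j = n, ∑ l,
        (∑ i ∈ F, v i j * v i l - if j = l then c * Y j else 0) ^ 2
          ≤ K' * (2 ^ t0 * cn Hc s n * (9 / 4) ^ n)) →
      (∀ n : ℕ, ∑ j ∈ Hc with s j = n, ∑ l,
        (∑ i ∈ F, v i j * v i l - if j = l then c * Y j else 0) ^ 2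
          ≤ 100 * (C3 + K) * 2 ^ t0 * cn Hc s n * (9 / 4) ^ n) := by
    intro F c K' hK' h n
    refine (h n).trans ?_
    have := mul_le_mul_of_nonneg_right hK' (hU n)
    refine this.trans (le_of_eq (by ring))
  have hBa' : ∀ n : ℕ, ∑ j ∈ Hc with s j = n, ∑ l,
        (∑ i ∈ Ba, v i j * v i l - if j = l then (1 / 2) * Y j else 0) ^ 2
          ≤ K * (2 ^ t0 * cn Hc s n * (9 / 4) ^ n) := by
    intro n
    refine le_trans (le_of_eq ?_) ((hBa n).trans (le_of_eq (by ring)))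
    refine sum_congr rfl fun j _ => sum_congr rfl fun l _ => ?_
    congr 2
    split_ifs <;> ring
  have hBb' : ∀ n : ℕ, ∑ j ∈ Hc with s j = n, ∑ l,
        (∑ i ∈ Bb, v i j * v i l - if j = l then (1 / 2) * Y j else 0) ^ 2
          ≤ K * (2 ^ t0 * cn Hc s n * (9 / 4) ^ n) := by
    intro n
    refine le_trans (le_of_eq ?_) ((hBb n).trans (le_of_eq (by ring)))
    refine sum_congr rfl fun j _ => sum_congr rfl fun l _ => ?_
    congr 2
    split_ifs <;> ring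
  have evBa : Even v Hc s (100 * (C3 + K)) t0 Ba :=
    even_mk v Hc s _ t0 Y hY1 hY2 (1 / 2) (by norm_num) (by norm_num) hT2 Ba
      (mono Ba _ K hKK hBa')
  have evBb : Even v Hc s (100 * (C3 + K)) t0 Bb :=
    even_mk v Hc s _ t0 Y hY1 hY2 (1 / 2) (by norm_num) (by norm_num) hT2 Bb
      (mono Bb _ K hKK hBb')
  -- first call
  obtain ⟨Lb1, Rb1, u1, u2, hLs, hRs, hdis, hu1, hu2, cL, cR, eL, eR, gL, gR, rL, rR, qL, qR⟩ :=
    H4 t0 hT1 ι Qt Λt d v hv Hc s Bb (fun i => 1 / 4 - 3 / 4 * yl i - 1 / 4 * yr i)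
      (fun i => 1 / 4 + 1 / 4 * yl i + 3 / 4 * yr i)
      (by
        intro i _
        have h1 := abs_le.mp (hyl i)
        have h2 := abs_le.mp (hyr i)
        rw [abs_le]
        constructor <;> linarith [h1.1, h1.2, h2.1, h2.2])
      (by
        intro i _
        have h1 := abs_le.mp (hyl i)
        have h2 := abs_le.mp (hyr i)
        rw [abs_le]
        constructor <;> linarith [h1.1, h1.2, h2.1, h2.2])
      evBb.2 (fun _ => Ba) (fun _ => Ba) (fun _ => evBa) (fun _ => evBa) Qs sQ hQs f Lb hLb hfb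
      (fun _ => hfa) (fun _ => hfa)
  -- evenness of the pieces of `Bb`
  have hxL : ∀ j l, ∑ i ∈ Bb, (1 / 4 - 3 / 4 * yl i - 1 / 4 * yr i) * (v i j * v i l)
      = 1 / 4 * ∑ i ∈ Bb, v i j * v i l - 3 / 4 * ∑ i ∈ Bb, yl i * (v i j * v i l)
        - 1 / 4 * ∑ i ∈ Bb, yr i * (v i j * v i l) := by
    intro j l
    rw [mul_sum, mul_sum, mul_sum, ← sum_sub_distrib, ← sum_sub_distrib]
    exact sum_congr rfl fun i _ => by ring
  have hxR : ∀ j l, ∑ i ∈ Bb, (1 / 4 + 1 / 4 * yl i + 3 / 4 * yr i) * (v i j * v i l)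
      = 1 / 4 * ∑ i ∈ Bb, v i j * v i l + 1 / 4 * ∑ i ∈ Bb, yl i * (v i j * v i l)
        + 3 / 4 * ∑ i ∈ Bb, yr i * (v i j * v i l) := by
    intro j l
    rw [mul_sum, mul_sum, mul_sum, ← sum_add_distrib, ← sum_add_distrib]
    exact sum_congr rfl fun i _ => by ring
  have hLb1 : ∀ n : ℕ, ∑ j ∈ Hc with s j = n, ∑ l,
        (∑ i ∈ Lb1, v i j * v i l - if j = l then (1 / 8) * Y j else 0) ^ 2
          ≤ (4 * (C3 + 3 * K)) * (2 ^ t0 * cn Hc s n * (9 / 4) ^ n) := by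
    intro n
    refine (sq_four_le2 _ _
      (fun j l => ∑ i ∈ Lb1, v i j * v i l
        - ∑ i ∈ Bb, (1 / 4 - 3 / 4 * yl i - 1 / 4 * yr i) * (v i j * v i l))
      (fun j l => ∑ i ∈ Bb, v i j * v i l - if j = l then (1 / 2) * Y j else 0)
      (fun j l => ∑ i ∈ Bb, yl i * (v i j * v i l))
      (fun j l => ∑ i ∈ Bb, yr i * (v i j * v i l)) _ _ _ _ _ (eL n) (hBb' n) (hcl n) (hcr n)
      (1 / 4) (-(3 / 4)) (-(1 / 4)) (by norm_num) (by norm_num) (by norm_num) ?_).trans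
      (le_of_eq (by ring))
    intro j _ l _
    rw [hxL]
    split_ifs <;> ring
  have hRb1 : ∀ n : ℕ, ∑ j ∈ Hc with s j = n, ∑ l,
        (∑ i ∈ Rb1, v i j * v i l - if j = l then (1 / 8) * Y j else 0) ^ 2
          ≤ (4 * (C3 + 3 * K)) * (2 ^ t0 * cn Hc s n * (9 / 4) ^ n) := by
    intro n
    refine (sq_four_le2 _ _
      (fun j l => ∑ i ∈ Rb1, v i j * v i l
        - ∑ i ∈ Bb, (1 / 4 + 1 / 4 * yl i + 3 / 4 * yr i) * (v i j * v i l))
      (fun j l => ∑ i ∈ Bb, v i j * v i l - if j = l then (1 / 2) * Y j else 0)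
      (fun j l => ∑ i ∈ Bb, yl i * (v i j * v i l))
      (fun j l => ∑ i ∈ Bb, yr i * (v i j * v i l)) _ _ _ _ _ (eR n) (hBb' n) (hcl n) (hcr n)
      (1 / 4) (1 / 4) (3 / 4) (by norm_num) (by norm_num) (by norm_num) ?_).trans
      (le_of_eq (by ring))
    intro j _ l _
    rw [hxR]
    split_ifs <;> ring
  have hsubU : Lb1 ∪ Rb1 ⊆ Bb := union_subset hLs hRs
  have hmid : ∀ g : ι → ℝ, ∑ i ∈ Bb \ (Lb1 ∪ Rb1), g i
      = ∑ i ∈ Bb, g i - ∑ i ∈ Lb1, g i - ∑ i ∈ Rb1, g i := by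
    intro g
    have h1 := sum_sdiff (f := g) hsubU
    rw [sum_union hdis] at h1
    linarith
  have hCb1 : ∀ n : ℕ, ∑ j ∈ Hc with s j = n, ∑ l,
        (∑ i ∈ Bb \ (Lb1 ∪ Rb1), v i j * v i l - if j = l then (1 / 4) * Y j else 0) ^ 2
          ≤ (32 * C3 + 100 * K) * (2 ^ t0 * cn Hc s n * (9 / 4) ^ n) := by
    intro n
    refine (sq_four_le2 _ _
      (fun j l => ∑ i ∈ Bb, v i j * v i l - if j = l then (1 / 2) * Y j else 0)
      (fun j l => ∑ i ∈ Lb1, v i j * v i l - if j = l then (1 / 8) * Y j else 0)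
      (fun j l => ∑ i ∈ Rb1, v i j * v i l - if j = l then (1 / 8) * Y j else 0)
      (fun _ _ => 0) _ _ _ _ 0 (hBb' n) (hLb1 n) (hRb1 n) (by simp)
      (-1) (-1) 0 (by norm_num) (by norm_num) (by norm_num) ?_).trans
      (le_of_eq (by ring))
    intro j _ l _
    rw [hmid]
    split_ifs <;> ring
  have evLb1 : Even v Hc s (100 * (C3 + K)) t0 Lb1 :=
    even_mk v Hc s _ t0 Y hY1 hY2 (1 / 8) (by norm_num) (by norm_num) hT2 Lb1
      (mono Lb1 _ _ (by linarith) hLb1)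
  have evRb1 : Even v Hc s (100 * (C3 + K)) t0 Rb1 :=
    even_mk v Hc s _ t0 Y hY1 hY2 (1 / 8) (by norm_num) (by norm_num) hT2 Rb1
      (mono Rb1 _ _ (by linarith) hRb1)
  have evCb1 : Even v Hc s (100 * (C3 + K)) t0 (Bb \ (Lb1 ∪ Rb1)) :=
    even_mk v Hc s _ t0 Y hY1 hY2 (1 / 4) (by norm_num) (by norm_num) hT2 _
      (mono _ _ _ (by linarith) hCb1)
  have hsubf : ∀ F : Finset ι, F ⊆ Bb → ∀ q ∈ Qs, ∑ r, ∑ i ∈ F, f q r i ^ 2 ≤ Lb q := by
    intro F hF q hq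
    refine le_trans (sum_le_sum fun r _ => ?_) (hfb q hq)
    exact sum_le_sum_of_subset_of_nonneg hF fun _ _ _ => sq_nonneg _
  -- second call
  obtain ⟨La1, Ra1, w1, w2, hLs2, hRs2, hdis2, hw1, hw2, cL2, cR2, eL2, eR2, gL2, gR2, rL2, rR2,
    qL2, qR2⟩ :=
    H4 t0 hT1 ι Qt Λt d v hv Hc s Ba (fun i => 1 / 4 - u1 false i)
      (fun i => 1 / 4 - u2 false i)
      (by
        intro i _
        have h1 := abs_le.mp (hu1 false i)
        rw [abs_le]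
        constructor <;> linarith [h1.1, h1.2])
      (by
        intro i _
        have h1 := abs_le.mp (hu2 false i)
        rw [abs_le]
        constructor <;> linarith [h1.1, h1.2])
      evBa.2 (fun b => if b then Bb \ (Lb1 ∪ Rb1) else Lb1)
      (fun b => if b then Rb1 else Bb \ (Lb1 ∪ Rb1))
      (by intro b; cases b <;> simp [evLb1, evCb1])
      (by intro b; cases b <;> simp [evRb1, evCb1])
      Qs sQ hQs f Lb hLb hfa
      (by
        intro b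
        cases b
        · simpa using hsubf _ hLs
        · simpa using hsubf _ sdiff_subset)
      (by
        intro b
        cases b
        · simpa using hsubf _ sdiff_subset
        · simpa using hsubf _ hRs)
  have hsplit1 : ∀ (u : ι → ℝ) (g : ι → ℝ), ∑ i ∈ Ba, (1 / 4 - u i) * g i
      = 1 / 4 * ∑ i ∈ Ba, g i - ∑ i ∈ Ba, u i * g i := by
    intro u g
    rw [mul_sum, ← sum_sub_distrib]
    exact sum_congr rfl fun i _ => by ring
  have hcn : ∀ n, 0 ≤ C3 * cn Hc s n * (400 / 441) ^ n := fun n => by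
    have := cn_nonneg Hc s n
    positivity
  have hcU : ∀ n, 0 ≤ C3 * 2 ^ t0 * cn Hc s n * (9 / 4) ^ n := fun n => by
    have := cn_nonneg Hc s n
    positivity
  have hcQ : ∀ q ∈ Qs, 0 ≤ C3 * (9 / 8) ^ (sQ q) * Lb q := fun q hq => by
    have := hLb q hq
    positivity
  have up1 : ∀ {A : ℝ} (n : ℕ), A ≤ C3 * 2 ^ t0 * cn Hc s n * (9 / 4) ^ n →
      A ≤ 4 * C3 * 2 ^ t0 * cn Hc s n * (9 / 4) ^ n := by
    intro A n h
    have := hcU n
    nlinarith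
  have up2 : ∀ {A : ℝ} (q : Qt), q ∈ Qs → A ≤ C3 * (9 / 8) ^ (sQ q) * Lb q →
      A ≤ 4 * C3 * (9 / 8) ^ (sQ q) * Lb q := by
    intro A q hq h
    have := hcQ q hq
    nlinarith
  refine ⟨{ La := La1, Ra := Ra1, Lb := Lb1, Rb := Rb1, w1L := w1 false, w1C := w1 true,
            w2C := w2 false, w2R := w2 true }, ?_⟩
  constructor
  · exact hLs2
  · exact hRs2
  · exact hLs
  · exact hRs
  · exact hdis2
  · exact hdis
  · exact hw1 false
  · exact hw1 true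
  · exact hw2 false
  · exact hw2 true
  · intro n
    have a1 := cL2 false n
    have a2 := cL false n
    simp only [Bool.false_eq_true, if_false] at a1
    refine (sq_two_le _ _ _ _ _ a1 a2 ?_).trans (le_of_eq (by ring))
    intro j _
    rw [hsplit1 (u1 false) (fun i => v i j)]
    ring
  · intro n
    have a1 := cL2 true n
    have a2 := cL false n
    simp only [if_true] at a1
    refine (sq_two_le _ _ _ _ _ a1 a2 ?_).trans (le_of_eq (by ring))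
    intro j _
    rw [hsplit1 (u1 false) (fun i => v i j)]
    ring
  · intro n
    have a1 := cR2 false n
    have a2 := cR false n
    simp only [Bool.false_eq_true, if_false] at a1
    refine (sq_two_le _ _ _ _ _ a1 a2 ?_).trans (le_of_eq (by ring))
    intro j _
    rw [hsplit1 (u2 false) (fun i => v i j)]
    ring
  · intro n
    have a1 := cR2 true n
    have a2 := cR false n
    simp only [if_true] at a1
    refine (sq_two_le _ _ _ _ _ a1 a2 ?_).trans (le_of_eq (by ring))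
    intro j _
    rw [hsplit1 (u2 false) (fun i => v i j)]
    ring
  · intro n
    have a1 := eL2 n
    have a2 := gL false n
    refine (sq_two_le2 _ _ _ (fun j l => - ∑ i ∈ Ba, u1 false i * (v i j * v i l)) _ _ a1
      (by simpa using a2) ?_).trans (le_of_eq (by ring))
    intro j _ l _
    rw [hsplit1 (u1 false) (fun i => v i j * v i l)]
    ring
  · intro n
    have a1 := eR2 n
    have a2 := gR false n
    refine (sq_two_le2 _ _ _ (fun j l => - ∑ i ∈ Ba, u2 false i * (v i j * v i l)) _ _ a1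
      (by simpa using a2) ?_).trans (le_of_eq (by ring))
    intro j _ l _
    rw [hsplit1 (u2 false) (fun i => v i j * v i l)]
    ring
  · intro n
    exact up1 n (eL n)
  · intro n
    exact up1 n (eR n)
  · intro n
    have a1 := gL2 false n
    simp only [Bool.false_eq_true, if_false] at a1
    exact up1 n a1
  · intro n
    have a1 := gL2 true n
    simp only [if_true] at a1
    exact up1 n a1
  · intro n
    have a1 := gR2 false n
    simp only [Bool.false_eq_true, if_false] at a1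
    exact up1 n a1
  · intro n
    have a1 := gR2 true n
    simp only [if_true] at a1
    exact up1 n a1
  · intro q hq
    have a1 := rL2 q hq
    have a2 := qL false q hq
    refine (sq_two_le _ _ (fun r => - ∑ i ∈ Ba, u1 false i * f q r i) _ _ a1
      (by simpa using a2) ?_).trans (le_of_eq (by ring))
    intro r _
    rw [hsplit1 (u1 false) (fun i => f q r i)]
    ring
  · intro q hq
    have a1 := rR2 q hq
    have a2 := qR false q hq
    refine (sq_two_le _ _ (fun r => - ∑ i ∈ Ba, u2 false i * f q r i) _ _ a1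
      (by simpa using a2) ?_).trans (le_of_eq (by ring))
    intro r _
    rw [hsplit1 (u2 false) (fun i => f q r i)]
    ring
  · intro q hq
    exact up2 q hq (rL q hq)
  · intro q hq
    exact up2 q hq (rR q hq)
  · intro q hq
    have a1 := qL2 false q hq
    simp only [Bool.false_eq_true, if_false] at a1
    exact up2 q hq a1
  · intro q hq
    have a1 := qL2 true q hq
    simp only [if_true] at a1
    exact up2 q hq a1
  · intro q hq
    have a1 := qR2 false q hq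
    simp only [Bool.false_eq_true, if_false] at a1
    exact up2 q hq a1
  · intro q hq
    have a1 := qR2 true q hq
    simp only [if_true] at a1
    exact up2 q hq a1

end Vale.Agent.Steinitz2
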