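import Mathlib

/-!
# Minkowski's inequality for finite sums of squares
-/

namespace Vale.Agent.Steinitz2

open Finset

/-- the Euclidean length of `f` on `S` is at most `a` -/
def L2 {α : Type*} (S : Finset α) (f : α → ℝ) (a : ℝ) : Prop := 0 ≤ a ∧ ∑ x ∈ S, f x ^ 2 ≤ a ^ 2

namespace L2

variable {α : Type*} {S : Finset α} {f g h : α → ℝ} {a b c : ℝ}

theorem nonneg (hf : L2 S f a) : 0 ≤ a := hf.1

theorem le (hf : L2 S f a) : ∑ x ∈ S, f x ^ 2 ≤ a ^ 2 := hf.2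

theorem of_le {B : ℝ} (ha : 0 ≤ a) (h : ∑ x ∈ S, f x ^ 2 ≤ B) (hB : B ≤ a ^ 2) : L2 S f a :=
  ⟨ha, h.trans hB⟩

theorem of_sqrt {B : ℝ} (h : ∑ x ∈ S, f x ^ 2 ≤ B) : L2 S f (Real.sqrt B) := by
  refine ⟨Real.sqrt_nonneg _, ?_⟩
  rw [Real.sq_sqrt ((sum_nonneg fun _ _ => sq_nonneg _).trans h)]
  exact h

theorem mono (hf : L2 S f a) (hab : a ≤ b) : L2 S f b :=
  ⟨hf.1.trans hab, hf.2.trans (pow_le_pow_left₀ hf.1 hab 2)⟩

theorem congr (hf : L2 S f a) (h : ∀ x ∈ S, g x = f x) : L2 S g a := by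
  refine ⟨hf.1, ?_⟩
  rw [sum_congr rfl fun x hx => by rw [h x hx]]
  exact hf.2

theorem subset {T : Finset α} (hf : L2 S f a) (hT : T ⊆ S) : L2 T f a :=
  ⟨hf.1, (sum_le_sum_of_subset_of_nonneg hT fun _ _ _ => sq_nonneg _).trans hf.2⟩

theorem zero (ha : 0 ≤ a) : L2 S (fun _ => 0) a := ⟨ha, by simp; positivity⟩

theorem add (hf : L2 S f a) (hg : L2 S g b) : L2 S (fun x => f x + g x) (a + b) := by
  refine ⟨add_nonneg hf.1 hg.1, ?_⟩
  have h1 : (∑ x ∈ S, f x * g x) ^ 2 ≤ (a * b) ^ 2 := by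
    calc (∑ x ∈ S, f x * g x) ^ 2 ≤ (∑ x ∈ S, f x ^ 2) * ∑ x ∈ S, g x ^ 2 :=
          sum_mul_sq_le_sq_mul_sq S f g
      _ ≤ a ^ 2 * b ^ 2 := mul_le_mul hf.2 hg.2 (sum_nonneg fun _ _ => sq_nonneg _) (sq_nonneg _)
      _ = (a * b) ^ 2 := by ring
  have h2 : ∑ x ∈ S, f x * g x ≤ a * b := (abs_le_of_sq_le_sq' h1 (mul_nonneg hf.1 hg.1)).2
  have h3 : ∑ x ∈ S, (f x + g x) ^ 2
      = ∑ x ∈ S, f x ^ 2 + 2 * ∑ x ∈ S, f x * g x + ∑ x ∈ S, g x ^ 2 := by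
    rw [mul_sum, ← sum_add_distrib, ← sum_add_distrib]
    exact sum_congr rfl fun x _ => by ring
  rw [h3]
  nlinarith [hf.2, hg.2]

theorem smul (c : ℝ) (hf : L2 S f a) : L2 S (fun x => c * f x) (|c| * a) := by
  refine ⟨mul_nonneg (abs_nonneg _) hf.1, ?_⟩
  have h1 : ∑ x ∈ S, (c * f x) ^ 2 = c ^ 2 * ∑ x ∈ S, f x ^ 2 := by
    rw [mul_sum]
    exact sum_congr rfl fun x _ => by ring
  rw [h1, mul_pow, sq_abs]
  exact mul_le_mul_of_nonneg_left hf.2 (sq_nonneg _)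

theorem neg (hf : L2 S f a) : L2 S (fun x => - f x) a := by
  have := hf.smul (-1)
  simpa using this

theorem sub (hf : L2 S f a) (hg : L2 S g b) : L2 S (fun x => f x - g x) (a + b) :=
  (hf.add hg.neg).congr fun x _ => by ring

/-- one coordinate -/
theorem abs_le {x : α} (hf : L2 S f a) (hx : x ∈ S) : |f x| ≤ a := by
  have h1 : f x ^ 2 ≤ a ^ 2 :=
    (single_le_sum (f := fun x => f x ^ 2) (fun _ _ => sq_nonneg _) hx).trans hf.2
  exact abs_le_of_sq_le_sq h1 hf.1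

/-- a sum of vectors -/
theorem sum {β : Type*} (T : Finset β) (F : β → α → ℝ) (A : β → ℝ)
    (h : ∀ y ∈ T, L2 S (F y) (A y)) : L2 S (fun x => ∑ y ∈ T, F y x) (∑ y ∈ T, A y) := by
  classical
  induction T using Finset.induction_on with
  | empty => simpa using L2.zero (S := S) (a := 0) le_rfl
  | insert y T hy ih =>
    have h1 := ih fun z hz => h z (mem_insert_of_mem hz)
    have h2 := h y (mem_insert_self y T)
    rw [sum_insert hy]
    refine (h2.add h1).congr fun x _ => ?_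
    rw [sum_insert hy]

theorem prod {β : Type*} {T : Finset β} {F : α → β → ℝ} :
    L2 (S ×ˢ T) (fun x => F x.1 x.2) a ↔ 0 ≤ a ∧ ∑ x ∈ S, ∑ y ∈ T, F x y ^ 2 ≤ a ^ 2 := by
  unfold L2
  rw [sum_product]

end L2

end Vale.Agent.Steinitz2
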