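import Mathlib
import Vale.Agent.Lib.Steinitz2.Mink

/-!
# P262 log-free bound, module CERT: the ridge regression matrix
-/

namespace Vale.Agent.Steinitz2

open Finset

/-- the core: the inverse of `κ + X` on the coordinates `Hc` -/
theorem cert_core {ι : Type*} {d : ℕ} (v : ι → Fin d → ℝ)
    (F : Finset ι) (Hc : Finset (Fin d)) (κ : ℝ) (hκ : 0 < κ) :
    ∃ G : Fin d → Fin d → ℝ, (∀ j l, G j l = G l j) ∧ (∀ j l, j ∉ Hc → G j l = 0) ∧
      ∀ (x : Fin d → ℝ) (j : Fin d), j ∈ Hc →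
        κ * (∑ l, G j l * x l) + ∑ i ∈ F, v i j * ∑ l, v i l * ∑ p, G l p * x p = x j := by
  classical
  set w : ι → Fin d → ℝ := fun i j => if j ∈ Hc then v i j else 0 with hw
  set A : Matrix (Fin d) (Fin d) ℝ :=
    fun j l => (if j = l then κ else 0) + ∑ i ∈ F, w i j * w i l with hA
  have hAx : ∀ (x : Fin d → ℝ) (j : Fin d),
      (A.mulVec x) j = κ * x j + ∑ i ∈ F, w i j * ∑ l, w i l * x l := by
    intro x j
    simp only [Matrix.mulVec, dotProduct, hA, add_mul, sum_add_distrib, ite_mul, zero_mul,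
      sum_ite_eq, mem_univ, if_true]
    congr 1
    simp only [sum_mul, mul_sum]
    rw [sum_comm]
    exact sum_congr rfl fun i _ => sum_congr rfl fun l _ => by ring
  have hquad : ∀ x : Fin d → ℝ, κ * ∑ j, x j ^ 2 ≤ ∑ j, x j * (A.mulVec x) j := by
    intro x
    simp only [hAx, mul_add, sum_add_distrib]
    have h1 : ∑ j, x j * (κ * x j) = κ * ∑ j, x j ^ 2 := by
      rw [mul_sum]; exact sum_congr rfl fun j _ => by ring
    have h2 : ∑ j, x j * ∑ i ∈ F, w i j * ∑ l, w i l * x l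
        = ∑ i ∈ F, (∑ l, w i l * x l) ^ 2 := by
      simp only [mul_sum]
      rw [sum_comm]
      refine sum_congr rfl fun i _ => ?_
      rw [sq, sum_mul_sum]
      refine sum_congr rfl fun j _ => sum_congr rfl fun l _ => by ring
    rw [h1, h2]
    have h3 : 0 ≤ ∑ i ∈ F, (∑ l, w i l * x l) ^ 2 := sum_nonneg fun _ _ => sq_nonneg _
    linarith
  have hdet : A.det ≠ 0 := by
    intro h0
    obtain ⟨x, hx0, hx⟩ := Matrix.exists_mulVec_eq_zero_iff.2 h0
    have h1 := hquad x
    rw [hx] at h1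
    simp only [Pi.zero_apply, mul_zero, sum_const_zero] at h1
    have h2 : 0 ≤ ∑ j, x j ^ 2 := sum_nonneg fun _ _ => sq_nonneg _
    have h3 : ∑ j, x j ^ 2 = 0 := by nlinarith
    apply hx0
    funext j
    have h4 := (sum_eq_zero_iff_of_nonneg (fun _ _ => sq_nonneg _)).1 h3 j (mem_univ j)
    exact pow_eq_zero_iff two_ne_zero |>.1 h4
  have hu : IsUnit A.det := isUnit_iff_ne_zero.2 hdet
  have hAB : A * A⁻¹ = 1 := Matrix.mul_nonsing_inv A hu
  have hAs : A.transpose = A := by
    ext j l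
    change (if l = j then κ else 0) + ∑ i ∈ F, w i l * w i j
      = (if j = l then κ else 0) + ∑ i ∈ F, w i j * w i l
    have e1 : (if l = j then κ else 0) = (if j = l then κ else 0) := by simp only [eq_comm]
    have e2 : ∑ i ∈ F, w i l * w i j = ∑ i ∈ F, w i j * w i l :=
      sum_congr rfl fun i _ => by ring
    rw [e1, e2]
  have hBs : ∀ j l, A⁻¹ j l = A⁻¹ l j := by
    intro j l
    have h1 : (A⁻¹).transpose = A⁻¹ := by rw [Matrix.transpose_nonsing_inv, hAs]
    calc A⁻¹ j l = (A⁻¹).transpose l j := rfl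
      _ = A⁻¹ l j := by rw [h1]
  set G : Fin d → Fin d → ℝ := fun j l => if j ∈ Hc ∧ l ∈ Hc then A⁻¹ j l else 0 with hG
  have hmask : ∀ (x : Fin d → ℝ) (j : Fin d), ∑ l, G j l * x l
      = (A⁻¹.mulVec (fun l => if l ∈ Hc then x l else 0)) j := by
    intro x j
    by_cases hj : j ∈ Hc
    · simp only [Matrix.mulVec, dotProduct, hG, hj, true_and]
      refine sum_congr rfl fun l _ => ?_
      split_ifs <;> simp
    · have h1 : ∑ l, G j l * x l = 0 := by
        refine sum_eq_zero fun l _ => ?_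
        simp [hG, hj]
      rw [h1]
      set z := A⁻¹.mulVec (fun l => if l ∈ Hc then x l else 0) with hz
      have h2 : (A.mulVec z) j = 0 := by
        rw [hz, Matrix.mulVec_mulVec, hAB, Matrix.one_mulVec]
        simp [hj]
      rw [hAx] at h2
      have h3 : ∑ i ∈ F, w i j * ∑ l, w i l * z l = 0 := by
        refine sum_eq_zero fun i _ => ?_
        simp [hw, hj]
      rw [h3, add_zero] at h2
      rcases mul_eq_zero.1 h2 with h4 | h4
      · exact absurd h4 hκ.ne'
      · exact h4.symm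
  refine ⟨G, ?_, ?_, ?_⟩
  · intro j l
    simp only [hG]
    rw [hBs j l]
    by_cases h1 : j ∈ Hc <;> by_cases h2 : l ∈ Hc <;> simp [h1, h2]
  · intro j l hj
    simp [hG, hj]
  · intro x j hj
    set z := A⁻¹.mulVec (fun l => if l ∈ Hc then x l else 0) with hz
    have h2 : (A.mulVec z) j = x j := by
      rw [hz, Matrix.mulVec_mulVec, hAB, Matrix.one_mulVec]
      simp [hj]
    rw [hAx] at h2
    rw [← h2]
    simp only [hmask, ← hz]
    congr 1
    refine sum_congr rfl fun i _ => ?_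
    have h3 : w i j = v i j := by simp [hw, hj]
    rw [h3]
    congr 1
    refine sum_congr rfl fun l _ => ?_
    by_cases hl : l ∈ Hc
    · simp [hw, hl]
    · have h4 := hmask x l
      rw [← hz] at h4
      have h5 : ∑ p, G l p * x p = 0 := by
        refine sum_eq_zero fun p _ => ?_
        simp [hG, hl]
      rw [← h4, h5]
      simp

/-- MODULE CERT. Ridge regression matrix of a set `F` on the coordinates `Hc`. -/
theorem cert {ι : Type*} [DecidableEq ι] {d : ℕ} (v : ι → Fin d → ℝ)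
    (hv : ∀ i, ∑ j, v i j ^ 2 ≤ 1) (F : Finset ι) (Hc : Finset (Fin d)) (κ : ℝ) (hκ : 0 < κ) :
    ∃ G : Fin d → Fin d → ℝ, (∀ j l, G j l = G l j) ∧ (∀ j l, j ∉ Hc → G j l = 0) ∧
      (∀ g : Fin d → ℝ, (∀ j, j ∉ Hc → g j = 0) → ∀ j ∈ Hc,
        ∑ i ∈ F, (∑ l, (∑ p, G l p * v i p) * g l) * v i j = g j - κ * ∑ l, G j l * g l) ∧
      (∀ i, ∑ l, (∑ p, G l p * v i p) ^ 2 ≤ 1 / κ ^ 2) ∧
      (∀ (Λt : Type) (Λ : Finset Λt) (f : Λt → ι → ℝ),
        ∑ r ∈ Λ, ∑ l, (∑ i ∈ F, f r i * ∑ p, G l p * v i p) ^ 2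
          ≤ (1 / κ) * ∑ r ∈ Λ, ∑ i ∈ F, f r i ^ 2) ∧
      (∀ (S : Finset (Fin d)) (y : Fin d → ℝ) (μ Dv : ℝ), S ⊆ Hc → 0 < μ → (∀ j ∈ S, μ ≤ y j) →
        0 ≤ Dv →
        ∑ j ∈ S, ∑ l ∈ Hc, (∑ i ∈ F, v i j * v i l - if j = l then y j else 0) ^ 2 ≤ Dv ^ 2 →
        ∑ j ∈ S, ∑ l, G j l ^ 2 ≤ ((Real.sqrt S.card + Dv / κ) / μ) ^ 2) ∧
      (∀ S ⊆ Hc, ∑ i ∈ F, ∑ j ∈ S, (∑ p, G j p * v i p) ^ 2
        ≤ Real.sqrt S.card * Real.sqrt (∑ j ∈ S, ∑ l, G j l ^ 2)) := by
  classical
  obtain ⟨G, hGs, hG0, hG⟩ := cert_core v F Hc κ hκ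
  have hG0' : ∀ j l, l ∉ Hc → G j l = 0 := fun j l hl => by rw [hGs]; exact hG0 l j hl
  -- moving `G` from one side to the other
  have hsym : ∀ x z : Fin d → ℝ, ∑ l, x l * ∑ p, G l p * z p = ∑ l, (∑ p, G l p * x p) * z l := by
    intro x z
    simp only [mul_sum, sum_mul]
    rw [sum_comm]
    refine sum_congr rfl fun l _ => sum_congr rfl fun p _ => ?_
    rw [hGs p l]; ring
  -- energy identity for `y = G x`
  have hen : ∀ x : Fin d → ℝ, κ * ∑ l, (∑ p, G l p * x p) ^ 2
      + ∑ i ∈ F, (∑ l, v i l * ∑ p, G l p * x p) ^ 2 = ∑ l, x l * ∑ p, G l p * x p := by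
    intro x
    set y : Fin d → ℝ := fun l => ∑ p, G l p * x p with hy
    have hy0 : ∀ l, l ∉ Hc → y l = 0 := by
      intro l hl
      simp only [hy]
      exact sum_eq_zero fun p _ => by rw [hG0 l p hl, zero_mul]
    have h1 : ∀ l, x l * y l = (κ * y l + ∑ i ∈ F, v i l * ∑ m, v i m * y m) * y l := by
      intro l
      by_cases hl : l ∈ Hc
      · rw [← hG x l hl]
      · rw [hy0 l hl, mul_zero, mul_zero]
    have h2 : ∑ l, x l * y l = ∑ l, (κ * y l + ∑ i ∈ F, v i l * ∑ m, v i m * y m) * y l :=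
      sum_congr rfl fun l _ => h1 l
    change κ * ∑ l, y l ^ 2 + ∑ i ∈ F, (∑ l, v i l * y l) ^ 2 = ∑ l, x l * y l
    rw [h2]
    simp only [add_mul, sum_add_distrib]
    congr 1
    · rw [mul_sum]; exact sum_congr rfl fun l _ => by ring
    · simp only [sum_mul]
      rw [sum_comm]
      refine sum_congr rfl fun i _ => ?_
      rw [sq, sum_mul_sum]
      simp only [mul_sum, sum_mul]
      refine sum_congr rfl fun l _ => sum_congr rfl fun m _ => by ring
  -- operator norm of `G`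
  have hop : ∀ x : Fin d → ℝ, ∑ l, (∑ p, G l p * x p) ^ 2 ≤ (∑ l, x l ^ 2) / κ ^ 2 := by
    intro x
    have h1 := hen x
    have h2 : 0 ≤ ∑ i ∈ F, (∑ l, v i l * ∑ p, G l p * x p) ^ 2 :=
      sum_nonneg fun _ _ => sq_nonneg _
    have h3 := sum_mul_sq_le_sq_mul_sq (univ : Finset (Fin d)) x (fun l => ∑ p, G l p * x p)
    set Y := ∑ l, (∑ p, G l p * x p) ^ 2 with hY
    have hY0 : 0 ≤ Y := sum_nonneg fun _ _ => sq_nonneg _
    have hX0 : 0 ≤ ∑ l, x l ^ 2 := sum_nonneg fun _ _ => sq_nonneg _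
    have h4 : κ * Y ≤ ∑ l, x l * ∑ p, G l p * x p := by linarith
    have h5 : (κ * Y) ^ 2 ≤ (∑ l, x l ^ 2) * Y := by
      refine le_trans ?_ h3
      exact pow_le_pow_left₀ (by positivity) h4 2
    rw [le_div_iff₀ (by positivity)]
    rcases eq_or_lt_of_le hY0 with h6 | h6
    · rw [← h6]; simpa using hX0
    · have h7 : (Y * κ ^ 2) * Y ≤ (∑ l, x l ^ 2) * Y := by
        calc (Y * κ ^ 2) * Y = (κ * Y) ^ 2 := by ring
          _ ≤ _ := h5
      exact le_of_mul_le_mul_right h7 h6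
  refine ⟨G, hGs, hG0, ?_, ?_, ?_, ?_, ?_⟩
  · intro g hg j hj
    have h1 := hG g j hj
    have h2 : ∑ i ∈ F, (∑ l, (∑ p, G l p * v i p) * g l) * v i j
        = ∑ i ∈ F, v i j * ∑ l, v i l * ∑ p, G l p * g p := by
      refine sum_congr rfl fun i _ => ?_
      rw [hsym, mul_comm]
    rw [h2]
    linarith
  · intro i
    refine (hop (v i)).trans ?_
    exact div_le_div_of_nonneg_right (hv i) (by positivity)
  · intro Λt Λ f
    rw [mul_sum]
    refine sum_le_sum fun r _ => ?_
    set x : Fin d → ℝ := fun p => ∑ i ∈ F, f r i * v i p with hx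
    have h0 : ∀ l, ∑ i ∈ F, f r i * ∑ p, G l p * v i p = ∑ p, G l p * x p := by
      intro l
      simp only [hx, mul_sum]
      rw [sum_comm]
      exact sum_congr rfl fun p _ => sum_congr rfl fun i _ => by ring
    simp only [h0]
    have h1 := hen x
    have h2 : ∑ l, x l * ∑ p, G l p * x p
        = ∑ i ∈ F, f r i * ∑ l, v i l * ∑ p, G l p * x p := by
      have h3 : ∀ l, x l * ∑ p, G l p * x p
          = ∑ i ∈ F, f r i * (v i l * ∑ p, G l p * x p) := by
        intro l
        have h4 : x l = ∑ i ∈ F, f r i * v i l := rfl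
        rw [h4, sum_mul]
        exact sum_congr rfl fun i _ => by ring
      rw [sum_congr rfl fun l _ => h3 l, sum_comm]
      exact sum_congr rfl fun i _ => by rw [mul_sum]
    set Y := ∑ l, (∑ p, G l p * x p) ^ 2 with hY
    set t : ι → ℝ := fun i => ∑ l, v i l * ∑ p, G l p * x p with ht
    have h5 : κ * Y + ∑ i ∈ F, t i ^ 2 = ∑ i ∈ F, f r i * t i := by rw [← h2]; exact h1
    have h6 : ∑ i ∈ F, f r i * t i ≤ ∑ i ∈ F, f r i ^ 2 + ∑ i ∈ F, t i ^ 2 := by
      rw [← sum_add_distrib]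
      exact sum_le_sum fun i _ => by nlinarith [sq_nonneg (f r i - t i), sq_nonneg (f r i), sq_nonneg (t i)]
    have h7 : κ * Y ≤ ∑ i ∈ F, f r i ^ 2 := by linarith
    rw [one_div, inv_mul_eq_div, le_div_iff₀ hκ]
    linarith
  · intro S y μ Dv hS hμ hy hDv hD
    -- the deviation matrix
    set D : Fin d → Fin d → ℝ := fun j l => if l ∈ Hc then
      (∑ i ∈ F, v i j * v i l - if j = l then y j else 0) else 0 with hDdef
    have h1 : ∀ j ∈ S, ∀ l, (κ + y j) * G j l = (if j = l then 1 else 0) - ∑ p, G l p * D j p := by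
      intro j hj l
      have hjH := hS hj
      have h2 := hG (fun m => if m = l then 1 else 0) j hjH
      simp only [mul_ite, mul_one, mul_zero, sum_ite_eq', mem_univ, if_true] at h2
      have h3 : ∑ i ∈ F, v i j * ∑ m, v i m * G m l = y j * G j l + ∑ p, G l p * D j p := by
        have h4 : ∑ p, G l p * D j p
            = ∑ p, G l p * (∑ i ∈ F, v i j * v i p - if j = p then y j else 0) := by
          refine sum_congr rfl fun p _ => ?_
          by_cases hp : p ∈ Hc
          · simp only [hDdef, hp, if_true]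
          · rw [hG0' l p hp, zero_mul, zero_mul]
        rw [h4]
        simp only [mul_sub, sum_sub_distrib, mul_ite, mul_zero, sum_ite_eq, mem_univ, if_true]
        rw [hGs l j]
        have h5 : ∑ i ∈ F, v i j * ∑ m, v i m * G m l
            = ∑ p, G l p * ∑ i ∈ F, v i j * v i p := by
          simp only [mul_sum]
          rw [sum_comm]
          refine sum_congr rfl fun p _ => sum_congr rfl fun i _ => ?_
          rw [hGs l p]; ring
        rw [h5]; ring
      rw [h3] at h2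
      linarith
    have hE : L2 (S ×ˢ (univ : Finset (Fin d))) (fun x => if x.1 = x.2 then (1 : ℝ) else 0)
        (Real.sqrt S.card) := by
      refine (L2.prod (F := fun j l => if j = l then (1 : ℝ) else 0)).2
        ⟨Real.sqrt_nonneg _, ?_⟩
      rw [Real.sq_sqrt (Nat.cast_nonneg _)]
      simp
    have hDG : L2 (S ×ˢ (univ : Finset (Fin d))) (fun x => ∑ p, G x.2 p * D x.1 p) (Dv / κ) := by
      refine (L2.prod (F := fun j l => ∑ p, G l p * D j p)).2 ⟨by positivity, ?_⟩
      calc ∑ j ∈ S, ∑ l, (∑ p, G l p * D j p) ^ 2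
          ≤ ∑ j ∈ S, (∑ l, D j l ^ 2) / κ ^ 2 := sum_le_sum fun j _ => hop (D j)
        _ = (∑ j ∈ S, ∑ l, D j l ^ 2) / κ ^ 2 := by rw [sum_div]
        _ ≤ Dv ^ 2 / κ ^ 2 := by
            refine div_le_div_of_nonneg_right (le_trans (le_of_eq ?_) hD) (by positivity)
            refine sum_congr rfl fun j _ => ?_
            rw [← sum_filter_add_sum_filter_not univ (fun l => l ∈ Hc)]
            have h6 : ∑ l with l ∉ Hc, D j l ^ 2 = 0 := by
              refine sum_eq_zero fun l hl => ?_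
              simp only [mem_filter, mem_univ, true_and] at hl
              simp [hDdef, hl]
            rw [h6, add_zero]
            have h7 : (univ.filter (fun l => l ∈ Hc)) = Hc := by ext; simp
            rw [h7]
            refine sum_congr rfl fun l hl => ?_
            simp only [hDdef, hl, if_true]
        _ = (Dv / κ) ^ 2 := by rw [div_pow]
    have hH := (L2.prod (F := fun j l => (κ + y j) * G j l) (S := S)
      (T := (univ : Finset (Fin d)))).1 ((hE.sub hDG).congr fun x hx => by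
        rw [mem_product] at hx
        exact h1 x.1 hx.1 x.2)
    rw [div_pow, le_div_iff₀ (by positivity), sum_mul]
    refine le_trans (sum_le_sum fun j hj => ?_) hH.2
    rw [sum_mul]
    refine sum_le_sum fun l _ => ?_
    rw [mul_pow, mul_comm]
    refine mul_le_mul_of_nonneg_right ?_ (sq_nonneg _)
    exact pow_le_pow_left₀ hμ.le (by linarith [hy j hj]) 2
  · intro S hS
    rw [sum_comm]
    have h1 : ∀ j ∈ S, ∑ i ∈ F, (∑ p, G j p * v i p) ^ 2 ≤ Real.sqrt (∑ l, G j l ^ 2) := by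
      intro j hj
      have h2 := hen (fun m => if m = j then 1 else 0)
      simp only [mul_ite, mul_one, mul_zero, sum_ite_eq', mem_univ, if_true, ite_mul, one_mul,
        zero_mul] at h2
      have h3 : ∑ i ∈ F, (∑ p, G j p * v i p) ^ 2 = ∑ i ∈ F, (∑ l, v i l * G l j) ^ 2 := by
        refine sum_congr rfl fun i _ => ?_
        congr 1
        refine sum_congr rfl fun p _ => ?_
        rw [hGs j p]; ring
      have h4 : 0 ≤ κ * ∑ l, G l j ^ 2 := mul_nonneg hκ.le (sum_nonneg fun _ _ => sq_nonneg _)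
      have h5 : G j j ≤ Real.sqrt (∑ l, G j l ^ 2) := by
        apply Real.le_sqrt_of_sq_le
        exact single_le_sum (f := fun l => G j l ^ 2) (fun _ _ => sq_nonneg _) (mem_univ j)
      rw [h3]
      linarith
    refine (sum_le_sum h1).trans ?_
    have h6 := sum_mul_sq_le_sq_mul_sq S (fun _ => (1 : ℝ))
      (fun j => Real.sqrt (∑ l, G j l ^ 2))
    simp only [one_mul, one_pow, sum_const, nsmul_eq_mul, mul_one] at h6
    have h7 : ∀ j ∈ S, Real.sqrt (∑ l, G j l ^ 2) ^ 2 = ∑ l, G j l ^ 2 := fun j _ =>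
      Real.sq_sqrt (sum_nonneg fun _ _ => sq_nonneg _)
    rw [sum_congr rfl h7] at h6
    rw [← Real.sqrt_mul (Nat.cast_nonneg _)]
    exact Real.le_sqrt_of_sq_le h6

end Vale.Agent.Steinitz2
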