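import Vale.Agent.Lib.Steinitz2.Defs

/-!
# P262 log-free bound: modules EIG and EXCLUSION
-/

namespace Vale.Agent.Steinitz2

open Finset

/-- Parseval's identity in coordinates -/
theorem parseval_coord {D : Type*} [Fintype D] (B : OrthonormalBasis D ℝ (EuclideanSpace ℝ D))
    (x y : D → ℝ) :
    ∑ p, x p * y p = ∑ i, (∑ p, B i p * x p) * ∑ p, B i p * y p := by
  have h := B.sum_inner_mul_inner (WithLp.toLp 2 x) (WithLp.toLp 2 y)
  simp only [PiLp.inner_apply, RCLike.inner_apply, conj_trivial] at h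
  calc ∑ p, x p * y p = ∑ p, y p * x p := Finset.sum_congr rfl fun p _ => mul_comm _ _
    _ = _ := by
      rw [← h]
      apply Finset.sum_congr rfl
      intro i _
      congr 1
      exact Finset.sum_congr rfl fun p _ => mul_comm _ _

/-- MODULE EIG. Sorted eigenvectors of the Gram operator `∑ M_μ M_μ^T` (`b r` = r-th eigenvector,
`lam r` = r-th largest eigenvalue; `lam r = 0`, `b r = 0` for `r ≥ card D`). -/
theorem eig_exclusion {D Mt : Type*} [Fintype D] (Ms : Finset Mt) (M : Mt → D → ℝ) :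
    ∃ (b : ℕ → D → ℝ) (lam : ℕ → ℝ), Antitone lam ∧ (∀ n, 0 ≤ lam n) ∧
      (∀ K, ∑ j ∈ range K, lam j ≤ ∑ μ ∈ Ms, ∑ p, M μ p ^ 2) ∧
      ∀ (N : ℕ) (g : D → ℝ), (∀ r < N, ∑ p, b r p * g p = 0) →
        ∑ μ ∈ Ms, (∑ p, M μ p * g p) ^ 2 ≤ lam N * ∑ p, g p ^ 2 := by
  classical
  set A : Matrix D D ℝ := Matrix.of fun p q => ∑ μ ∈ Ms, M μ p * M μ q with hAdef
  have hA : A.IsHermitian := by
    ext p q
    simp only [hAdef, Matrix.conjTranspose_apply, Matrix.of_apply, star_trivial]
    exact Finset.sum_congr rfl fun μ _ => mul_comm _ _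
  have hAT : A.transpose = A := by
    have := hA
    rwa [Matrix.IsHermitian, Matrix.conjTranspose_eq_transpose_of_trivial] at this
  set d := Fintype.card D with hd
  let e : Fin d ≃ D := Fintype.equivOfCardEq (Fintype.card_fin _)
  have hev : ∀ j : Fin d, hA.eigenvalues (e j) = hA.eigenvalues₀ j := by
    intro j
    rw [Matrix.IsHermitian.eigenvalues]
    congr 1
    exact e.symm_apply_apply j
  set B := hA.eigenvectorBasis with hB
  -- quadratic form
  have hquad : ∀ g : D → ℝ, ∑ μ ∈ Ms, (∑ p, M μ p * g p) ^ 2 = ∑ p, g p * (A.mulVec g) p := by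
    intro g
    simp only [Matrix.mulVec, dotProduct, hAdef, Matrix.of_apply, Finset.mul_sum, Finset.sum_mul,
      sq]
    calc ∑ μ ∈ Ms, ∑ p, ∑ q, M μ q * g q * (M μ p * g p)
        = ∑ p, ∑ μ ∈ Ms, ∑ q, M μ q * g q * (M μ p * g p) := Finset.sum_comm
      _ = ∑ p, ∑ q, ∑ μ ∈ Ms, M μ q * g q * (M μ p * g p) := by
          apply Finset.sum_congr rfl
          intro p _
          exact Finset.sum_comm
      _ = _ := by
          apply Finset.sum_congr rfl
          intro p _
          apply Finset.sum_congr rfl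
          intro q _
          apply Finset.sum_congr rfl
          intro μ _
          ring
  have hsym : ∀ x y : D → ℝ, ∑ p, x p * (A.mulVec y) p = ∑ p, (A.mulVec x) p * y p := by
    intro x y
    have h1 : x ⬝ᵥ A.mulVec y = A.mulVec x ⬝ᵥ y := by
      rw [Matrix.dotProduct_mulVec, ← Matrix.mulVec_transpose, hAT]
    exact h1
  have hBev : ∀ i p, (A.mulVec (B i)) p = hA.eigenvalues i * B i p := by
    intro i p
    have := congrFun (hA.mulVec_eigenvectorBasis i) p
    simpa using this
  have hexp : ∀ g : D → ℝ, ∑ p, g p * (A.mulVec g) p =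
      ∑ j : Fin d, hA.eigenvalues₀ j * (∑ p, B (e j) p * g p) ^ 2 := by
    intro g
    rw [parseval_coord B, ← e.sum_comp]
    apply Finset.sum_congr rfl
    intro j _
    have h2 : ∑ p, B (e j) p * (A.mulVec g) p = hA.eigenvalues₀ j * ∑ p, B (e j) p * g p := by
      rw [hsym, Finset.mul_sum]
      apply Finset.sum_congr rfl
      intro p _
      rw [hBev, hev]
      ring
    rw [h2]
    ring
  have hpars : ∀ g : D → ℝ, ∑ j : Fin d, (∑ p, B (e j) p * g p) ^ 2 = ∑ p, g p ^ 2 := by
    intro g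
    have h1 := parseval_coord B g g
    calc ∑ j : Fin d, (∑ p, B (e j) p * g p) ^ 2 = ∑ i, (∑ p, B i p * g p) ^ 2 :=
          e.sum_comp (fun i => (∑ p, B i p * g p) ^ 2)
      _ = ∑ p, g p ^ 2 := by
          simp only [sq]
          exact h1.symm
  have hnn : ∀ j : Fin d, 0 ≤ hA.eigenvalues₀ j := by
    intro j
    have h1 : ∑ p, B (e j) p * (A.mulVec (B (e j))) p = hA.eigenvalues₀ j *
        ∑ p, B (e j) p ^ 2 := by
      rw [Finset.mul_sum]
      apply Finset.sum_congr rfl
      intro p _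
      rw [hBev, hev]
      ring
    have h2 : ∑ p, B (e j) p ^ 2 = 1 := by
      have h3 := B.orthonormal.1 (e j)
      have h4 : ‖B (e j)‖ ^ 2 = 1 := by rw [h3]; norm_num
      rw [EuclideanSpace.real_norm_sq_eq] at h4
      exact h4
    have h3 := hquad (B (e j))
    rw [h2, mul_one] at h1
    rw [← h1, ← h3]
    exact Finset.sum_nonneg fun μ _ => sq_nonneg _
  -- the trace
  have htr : ∑ j : Fin d, hA.eigenvalues₀ j = ∑ μ ∈ Ms, ∑ p, M μ p ^ 2 := by
    have h1 : A.trace = ∑ i, hA.eigenvalues i := by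
      have := hA.trace_eq_sum_eigenvalues
      simpa using this
    have h2 : A.trace = ∑ μ ∈ Ms, ∑ p, M μ p ^ 2 := by
      simp only [Matrix.trace, Matrix.diag, hAdef, Matrix.of_apply]
      rw [Finset.sum_comm]
      apply Finset.sum_congr rfl
      intro μ _
      apply Finset.sum_congr rfl
      intro p _
      ring
    rw [← h2, h1, ← e.sum_comp]
    exact Finset.sum_congr rfl fun j _ => (hev j).symm
  refine ⟨fun r => if h : r < d then fun p => B (e ⟨r, h⟩) p else fun _ => 0,
    fun r => if h : r < d then hA.eigenvalues₀ ⟨r, h⟩ else 0, ?_, ?_, ?_, ?_⟩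
  · intro r s hrs
    by_cases hs : s < d
    · have hr : r < d := lt_of_le_of_lt hrs hs
      simp only [hs, hr, dif_pos]
      exact hA.eigenvalues₀_antitone hrs
    · simp only [hs, dif_neg, not_false_eq_true]
      by_cases hr : r < d
      · simp only [hr, dif_pos]
        exact hnn _
      · simp only [hr, dif_neg, not_false_eq_true]
        exact le_rfl
  · intro n
    by_cases hn : n < d
    · simp only [hn, dif_pos]
      exact hnn _
    · simp only [hn, dif_neg, not_false_eq_true]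
      exact le_rfl
  · intro K
    rw [← htr, Finset.sum_fin_eq_sum_range]
    have h1 : ∑ j ∈ range K, (if h : j < d then hA.eigenvalues₀ ⟨j, h⟩ else 0) ≤
        ∑ j ∈ range (max K d), (if h : j < d then hA.eigenvalues₀ ⟨j, h⟩ else 0) := by
      apply Finset.sum_le_sum_of_subset_of_nonneg
      · exact Finset.range_mono (le_max_left _ _)
      · intro j _ _
        split_ifs
        · exact hnn _
        · exact le_rfl
    refine h1.trans (le_of_eq ?_)
    symm
    apply Finset.sum_subset (Finset.range_mono (le_max_right _ _))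
    intro j _ hj
    rw [Finset.mem_range] at hj
    rw [dif_neg hj]
  · intro N g hg
    rw [hquad, hexp, ← hpars g, Finset.mul_sum]
    apply Finset.sum_le_sum
    intro j _
    by_cases hjN : (j : ℕ) < N
    · have h1 := hg j hjN
      simp only [j.2, dif_pos] at h1
      have h2 : ∑ p, B (e j) p * g p = 0 := h1
      rw [h2]
      simp
    · have hjN' : N ≤ (j : ℕ) := not_lt.1 hjN
      have hN : N < d := lt_of_le_of_lt hjN' j.2
      have hl : (fun r => if h : r < d then hA.eigenvalues₀ ⟨r, h⟩ else 0) N =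
          hA.eigenvalues₀ ⟨N, hN⟩ := by
        simp only [hN, dif_pos]
      rw [hl]
      exact mul_le_mul_of_nonneg_right (hA.eigenvalues₀_antitone hjN') (sq_nonneg _)

/-- MODULE EXCLUSION. At most `N` linear conditions make the quadratic form `|∑ δ_i u_i|^2` at most
`(T/N) |δ|^2`. -/
theorem exclusion {ι D : Type*} [Fintype ι] [DecidableEq ι] (F : Finset ι) (P : Finset D)
    (u : ι → D → ℝ) (N : ℕ) (hN : 0 < N) (T : ℝ) (hT : ∑ i ∈ F, ∑ p ∈ P, u i p ^ 2 ≤ T) :
    ∃ φ : Fin N → ι → ℝ, ∀ δ : ι → ℝ, (∀ i, i ∉ F → δ i = 0) → (∀ r, ∑ i ∈ F, φ r i * δ i = 0) →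
      ∑ p ∈ P, (∑ i ∈ F, δ i * u i p) ^ 2 ≤ (T / N) * ∑ i ∈ F, δ i ^ 2 := by
  obtain ⟨b, lam, hanti, hnn, htr, hex⟩ := eig_exclusion P
    (fun (p : D) (i : ι) => if i ∈ F then u i p else 0)
  refine ⟨fun r i => b r i, fun δ hδ hφ => ?_⟩
  have hsum : ∀ f : ι → ℝ, ∑ i, f i * δ i = ∑ i ∈ F, f i * δ i := by
    intro f
    symm
    apply Finset.sum_subset (Finset.subset_univ F)
    intro i _ hi
    rw [hδ i hi, mul_zero]
  have h1 := hex N δ (fun r hr => by
    rw [hsum]
    exact hφ ⟨r, hr⟩)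
  have h2 : ∀ p, ∑ i, (if i ∈ F then u i p else 0) * δ i = ∑ i ∈ F, δ i * u i p := by
    intro p
    rw [hsum]
    apply Finset.sum_congr rfl
    intro i hi
    rw [if_pos hi, mul_comm]
  have h3 : ∑ i, δ i ^ 2 = ∑ i ∈ F, δ i ^ 2 := by
    symm
    apply Finset.sum_subset (Finset.subset_univ F)
    intro i _ hi
    rw [hδ i hi]
    simp
  simp only [h2] at h1
  rw [h3] at h1
  refine h1.trans (mul_le_mul_of_nonneg_right ?_ (Finset.sum_nonneg fun i _ => sq_nonneg _))
  have hN0 : (0 : ℝ) < N := by exact_mod_cast hN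
  rw [le_div_iff₀ hN0]
  have h4 : ∑ j ∈ range N, lam N ≤ ∑ j ∈ range N, lam j :=
    Finset.sum_le_sum fun j hj => hanti (Finset.mem_range.1 hj).le
  rw [Finset.sum_const, Finset.card_range, nsmul_eq_mul] at h4
  have h5 : ∑ p ∈ P, ∑ i, (if i ∈ F then u i p else 0) ^ 2 = ∑ i ∈ F, ∑ p ∈ P, u i p ^ 2 := by
    rw [Finset.sum_comm]
    symm
    apply Finset.sum_subset_zero_on_sdiff (Finset.subset_univ F)
    · intro i hi
      have : i ∉ F := (Finset.mem_sdiff.1 hi).2
      simp [this]
    · intro i hi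
      simp [hi]
  have h6 := htr N
  rw [h5] at h6
  linarith

end Vale.Agent.Steinitz2
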