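import Mathlib
import Vale.Agent.Lib.Steinitz2.LDefs

/-!
# P262 log-free bound: pieces of the blocks and the state at the next level
-/

namespace Vale.Agent.Steinitz2

open Finset

variable {ι : Type} {d : ℕ}

/-- the pieces of one block, by label (`false` is `α`, `true` is `β`), and the certificates -/
structure Piece (ι : Type) where
  L : Bool → Finset ι
  R : Bool → Finset ι
  w1L : ι → ℝ
  w1C : ι → ℝ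
  w2C : ι → ℝ
  w2R : ι → ℝ

/-- the fractions of the left piece -/
noncomputable def State.fL (S : State ι d) (j : ℤ) (γ : Bool) (i : ι) : ℝ :=
  if γ then 1 / 4 - 3 / 4 * S.yp j i - 1 / 4 * S.ym (j + 1) i else 1 / 4

/-- the fractions of the right piece -/
noncomputable def State.fR (S : State ι d) (j : ℤ) (γ : Bool) (i : ι) : ℝ :=
  if γ then 1 / 4 + 1 / 4 * S.yp j i + 3 / 4 * S.ym (j + 1) i else 1 / 4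

variable [Fintype ι] [DecidableEq ι]

/-- the middle piece -/
def State.mid (S : State ι d) (X : Ctx ι d) (k : ℕ) (j : ℤ) (P : Piece ι) (γ : Bool) : Finset ι :=
  S.bl X k j γ \ (P.L γ ∪ P.R γ)

/-- the properties of the pieces of the block `j` at level `k` -/
structure Piece.Good (P : Piece ι) (X : Ctx ι d) (c : Cst) (S : State ι d) (k : ℕ) (j : ℤ) :
    Prop where
  L_sub : ∀ γ, P.L γ ⊆ S.bl X k j γ
  R_sub : ∀ γ, P.R γ ⊆ S.bl X k j γ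
  disj : ∀ γ, Disjoint (P.L γ) (P.R γ)
  w1L_le : ∀ i, |P.w1L i| ≤ 1 / 32
  w1C_le : ∀ i, |P.w1C i| ≤ 1 / 32
  w2C_le : ∀ i, |P.w2C i| ≤ 1 / 32
  w2R_le : ∀ i, |P.w2R i| ≤ 1 / 32
  cert1L : ∀ n : ℕ, ∑ p ∈ X.cl ((k + 1 : ℕ) + X.t0 + n),
    ((∑ i ∈ P.L false, X.v i p + ∑ i ∈ P.L true, X.v i p)
      - ∑ i ∈ S.bl X k j false, S.fL j false i * X.v i p
      - ∑ i ∈ S.bl X k j true, S.fL j true i * X.v i p - ∑ i ∈ P.L true, P.w1L i * X.v i p) ^ 2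
      ≤ c.c6 ^ 2 * X.mc ((k + 1 : ℕ) + X.t0 + n) * (400 / 441) ^ n
  cert1C : ∀ n : ℕ, ∑ p ∈ X.cl ((k + 1 : ℕ) + X.t0 + n),
    ((∑ i ∈ P.L false, X.v i p + ∑ i ∈ P.L true, X.v i p)
      - ∑ i ∈ S.bl X k j false, S.fL j false i * X.v i p
      - ∑ i ∈ S.bl X k j true, S.fL j true i * X.v i p
      - ∑ i ∈ S.mid X k j P true, P.w1C i * X.v i p) ^ 2
      ≤ c.c6 ^ 2 * X.mc ((k + 1 : ℕ) + X.t0 + n) * (400 / 441) ^ n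
  cert2C : ∀ n : ℕ, ∑ p ∈ X.cl ((k + 1 : ℕ) + X.t0 + n),
    ((∑ i ∈ P.R false, X.v i p + ∑ i ∈ P.R true, X.v i p)
      - ∑ i ∈ S.bl X k j false, S.fR j false i * X.v i p
      - ∑ i ∈ S.bl X k j true, S.fR j true i * X.v i p
      - ∑ i ∈ S.mid X k j P true, P.w2C i * X.v i p) ^ 2
      ≤ c.c6 ^ 2 * X.mc ((k + 1 : ℕ) + X.t0 + n) * (400 / 441) ^ n
  cert2R : ∀ n : ℕ, ∑ p ∈ X.cl ((k + 1 : ℕ) + X.t0 + n),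
    ((∑ i ∈ P.R false, X.v i p + ∑ i ∈ P.R true, X.v i p)
      - ∑ i ∈ S.bl X k j false, S.fR j false i * X.v i p
      - ∑ i ∈ S.bl X k j true, S.fR j true i * X.v i p - ∑ i ∈ P.R true, P.w2R i * X.v i p) ^ 2
      ≤ c.c6 ^ 2 * X.mc ((k + 1 : ℕ) + X.t0 + n) * (400 / 441) ^ n
  evL : ∀ (γ : Bool) (n : ℕ), ∑ p ∈ X.cl ((k + 1 : ℕ) + X.t0 + n), ∑ l,
    (∑ i ∈ P.L γ, X.v i p * X.v i l
      - ∑ i ∈ S.bl X k j γ, S.fL j γ i * (X.v i p * X.v i l)) ^ 2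
      ≤ c.c6 ^ 2 * 2 ^ X.t0 * X.mc ((k + 1 : ℕ) + X.t0 + n) * (9 / 4) ^ n
  evR : ∀ (γ : Bool) (n : ℕ), ∑ p ∈ X.cl ((k + 1 : ℕ) + X.t0 + n), ∑ l,
    (∑ i ∈ P.R γ, X.v i p * X.v i l
      - ∑ i ∈ S.bl X k j γ, S.fR j γ i * (X.v i p * X.v i l)) ^ 2
      ≤ c.c6 ^ 2 * 2 ^ X.t0 * X.mc ((k + 1 : ℕ) + X.t0 + n) * (9 / 4) ^ n
  ct1L : ∀ n : ℕ, ∑ p ∈ X.cl ((k + 1 : ℕ) + X.t0 + n), ∑ l,
    (∑ i ∈ P.L true, P.w1L i * (X.v i p * X.v i l)) ^ 2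
      ≤ c.c6 ^ 2 * 2 ^ X.t0 * X.mc ((k + 1 : ℕ) + X.t0 + n) * (9 / 4) ^ n
  ct1C : ∀ n : ℕ, ∑ p ∈ X.cl ((k + 1 : ℕ) + X.t0 + n), ∑ l,
    (∑ i ∈ S.mid X k j P true, P.w1C i * (X.v i p * X.v i l)) ^ 2
      ≤ c.c6 ^ 2 * 2 ^ X.t0 * X.mc ((k + 1 : ℕ) + X.t0 + n) * (9 / 4) ^ n
  ct2C : ∀ n : ℕ, ∑ p ∈ X.cl ((k + 1 : ℕ) + X.t0 + n), ∑ l,
    (∑ i ∈ S.mid X k j P true, P.w2C i * (X.v i p * X.v i l)) ^ 2
      ≤ c.c6 ^ 2 * 2 ^ X.t0 * X.mc ((k + 1 : ℕ) + X.t0 + n) * (9 / 4) ^ n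
  ct2R : ∀ n : ℕ, ∑ p ∈ X.cl ((k + 1 : ℕ) + X.t0 + n), ∑ l,
    (∑ i ∈ P.R true, P.w2R i * (X.v i p * X.v i l)) ^ 2
      ≤ c.c6 ^ 2 * 2 ^ X.t0 * X.mc ((k + 1 : ℕ) + X.t0 + n) * (9 / 4) ^ n
  /-- rows of level `k + 1` for the pieces -/
  rwL : ∀ (γ : Bool) (s : ℕ), ∑ r, (∑ i ∈ P.L γ, X.row (k + 1) (k + X.t0 - s) r i
      - ∑ i ∈ S.bl X k j γ, S.fL j γ i * X.row (k + 1) (k + X.t0 - s) r i) ^ 2
      ≤ c.c6 ^ 2 * (9 / 8) ^ (s + 1)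
        * (8 * c.ke ^ 2 * 2 ^ X.t0 * X.mc (k + X.t0 - s) * (9 / 16) ^ (s + 1))
  rwR : ∀ (γ : Bool) (s : ℕ), ∑ r, (∑ i ∈ P.R γ, X.row (k + 1) (k + X.t0 - s) r i
      - ∑ i ∈ S.bl X k j γ, S.fR j γ i * X.row (k + 1) (k + X.t0 - s) r i) ^ 2
      ≤ c.c6 ^ 2 * (9 / 8) ^ (s + 1)
        * (8 * c.ke ^ 2 * 2 ^ X.t0 * X.mc (k + X.t0 - s) * (9 / 16) ^ (s + 1))
  /-- rows of level `k + 2` for the certificates -/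
  cr1L : ∀ s : ℕ, ∑ r,
    (∑ i ∈ P.L true, P.w1L i * X.row (k + 1 + 1) ((k + 1 : ℕ) + X.t0 - s) r i) ^ 2
      ≤ c.c6 ^ 2 * (9 / 8) ^ (s + 1)
        * (8 * c.ke ^ 2 * 2 ^ X.t0 * X.mc ((k + 1 : ℕ) + X.t0 - s) * (9 / 16) ^ (s + 1))
  cr1C : ∀ s : ℕ, ∑ r,
    (∑ i ∈ S.mid X k j P true, P.w1C i * X.row (k + 1 + 1) ((k + 1 : ℕ) + X.t0 - s) r i) ^ 2
      ≤ c.c6 ^ 2 * (9 / 8) ^ (s + 1)
        * (8 * c.ke ^ 2 * 2 ^ X.t0 * X.mc ((k + 1 : ℕ) + X.t0 - s) * (9 / 16) ^ (s + 1))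
  cr2C : ∀ s : ℕ, ∑ r,
    (∑ i ∈ S.mid X k j P true, P.w2C i * X.row (k + 1 + 1) ((k + 1 : ℕ) + X.t0 - s) r i) ^ 2
      ≤ c.c6 ^ 2 * (9 / 8) ^ (s + 1)
        * (8 * c.ke ^ 2 * 2 ^ X.t0 * X.mc ((k + 1 : ℕ) + X.t0 - s) * (9 / 16) ^ (s + 1))
  cr2R : ∀ s : ℕ, ∑ r,
    (∑ i ∈ P.R true, P.w2R i * X.row (k + 1 + 1) ((k + 1 : ℕ) + X.t0 - s) r i) ^ 2
      ≤ c.c6 ^ 2 * (9 / 8) ^ (s + 1)
        * (8 * c.ke ^ 2 * 2 ^ X.t0 * X.mc ((k + 1 : ℕ) + X.t0 - s) * (9 / 16) ^ (s + 1))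

/-- the side of an element in its block: `-1` in the left, `1` in the right piece -/
def chi (P : ℤ → Piece ι) (loc : ι → ℤ) (lab : ι → Bool) (i : ι) : ℤ :=
  if i ∈ (P (loc i)).L (lab i) then -1 else if i ∈ (P (loc i)).R (lab i) then 1 else 0

/-- the state at the next level -/
noncomputable def State.next (S : State ι d) (X : Ctx ι d) (k : ℕ) (P : ℤ → Piece ι) :
    State ι d where
  loc i := 2 * S.loc i + chi P S.loc X.lab i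
  Q j p := if j % 2 = 0
    then S.Q (j / 2) p + (∑ i ∈ (P (j / 2)).L false, X.v i p + ∑ i ∈ (P (j / 2)).L true, X.v i p)
    else S.Q (j / 2 + 1) p
      - (∑ i ∈ (P (j / 2)).R false, X.v i p + ∑ i ∈ (P (j / 2)).R true, X.v i p)
  yp j i := if j % 2 = 0
    then (if i ∈ S.mid X k (j / 2) (P (j / 2)) true then (P (j / 2)).w1C i else 0)
    else (if i ∈ (P (j / 2)).R true then - (P (j / 2)).w2R i else 0)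
  ym j i := if j % 2 = 0
    then (if i ∈ (P (j / 2)).L true then (P (j / 2)).w1L i else 0)
    else (if i ∈ S.mid X k (j / 2) (P (j / 2)) true then - (P (j / 2)).w2C i else 0)

end Vale.Agent.Steinitz2
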