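import Mathlib
import Vale.Agent.Lib.Steinitz2.LPiece

/-!
# P262 log-free bound: module ORDER (the final ordering)
-/

namespace Vale.Agent.Steinitz2

open Finset

/-- a prefix of a concatenation of lists -/
theorem take_flatten {α : Type*} (Ls : List (List α)) (n : ℕ) :
    ∃ (j t : ℕ), (Ls.flatten).take n = (Ls.take j).flatten ++ ((Ls[j]?).getD []).take t := by
  induction Ls generalizing n with
  | nil => exact ⟨0, 0, by simp⟩
  | cons a Ls ih =>
    rcases Nat.lt_or_ge n a.length with h | h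
    · refine ⟨0, n, ?_⟩
      simp only [List.flatten_cons, List.take_zero, List.flatten_nil, List.nil_append,
        List.getElem?_cons_zero, Option.getD_some]
      rw [List.take_append_of_le_length h.le]
    · obtain ⟨j, t, hj⟩ := ih (n - a.length)
      refine ⟨j + 1, t, ?_⟩
      rw [List.flatten_cons, List.take_append, List.take_of_length_le h, hj]
      simp [List.append_assoc]

variable {ι : Type} {d : ℕ} [Fintype ι] [DecidableEq ι]

theorem thr_tendsto (X : Ctx ι d) (q : ℤ) :
    Filter.Tendsto (fun k : ℕ => X.thr k q) Filter.atTop (nhds 0) := by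
  unfold Ctx.thr
  have h1 : ∀ k : ℕ, 2 * (2 : ℝ) ^ (q - (k : ℤ)) * X.mc q
      = (2 * (2 : ℝ) ^ q * X.mc q) * (1 / 2) ^ k := by
    intro k
    rw [zpow_sub₀ (by norm_num), zpow_natCast]
    rw [one_div, inv_pow]
    ring
  simp_rw [h1]
  rw [← mul_zero (2 * (2 : ℝ) ^ q * X.mc q)]
  exact (tendsto_pow_atTop_nhds_zero_of_lt_one (by norm_num) (by norm_num)).const_mul _

theorem exists_level (X : Ctx ι d) : ∃ k : ℕ, (∀ p, X.cls p < k + X.t0) ∧
    ∀ i p, X.En (X.cls p) i ≤ X.thr k (X.cls p) → X.En (X.cls p) i ≤ 0 := by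
  have h1 : ∀ p, ∀ᶠ k : ℕ in Filter.atTop, X.cls p < k + X.t0 := by
    intro p
    filter_upwards [Filter.eventually_gt_atTop ((X.cls p).toNat)] with k hk
    have := Int.self_le_toNat (X.cls p)
    omega
  have h2 : ∀ i p, ∀ᶠ k : ℕ in Filter.atTop,
      X.En (X.cls p) i ≤ X.thr k (X.cls p) → X.En (X.cls p) i ≤ 0 := by
    intro i p
    by_cases h : X.En (X.cls p) i ≤ 0
    · exact Filter.Eventually.of_forall fun _ _ => h
    · have h3 := (thr_tendsto X (X.cls p)).eventually (gt_mem_nhds (not_le.mp h))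
      filter_upwards [h3] with k hk hle
      exact absurd hle (not_le.mpr hk)
  have h3 : ∀ᶠ k : ℕ in Filter.atTop, (∀ p, X.cls p < k + X.t0) ∧
      ∀ i p, X.En (X.cls p) i ≤ X.thr k (X.cls p) → X.En (X.cls p) i ≤ 0 := by
    refine Filter.Eventually.and (Filter.eventually_all.mpr h1) ?_
    exact Filter.eventually_all.mpr fun i => Filter.eventually_all.mpr fun p => h2 i p
  exact h3.exists

theorem En_zero (X : Ctx ι d) (i : ι) (p : Fin d) (h : X.En (X.cls p) i ≤ 0) : X.v i p = 0 := by
  unfold Ctx.En at h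
  have h1 : X.v i p ^ 2 ≤ ∑ j ∈ X.cl (X.cls p), X.v i j ^ 2 :=
    single_le_sum (f := fun j => X.v i j ^ 2) (fun _ _ => sq_nonneg _) (by simp [Ctx.cl])
  have h2 : X.v i p ^ 2 ≤ 0 := h1.trans h
  exact pow_eq_zero_iff two_ne_zero |>.mp (le_antisymm h2 (sq_nonneg _))

theorem Q_sub (S : State ι d) (X : Ctx ι d) (c : Cst) (k : ℕ) (hS : S.Good X c k) (j : ℕ)
    (p : Fin d) : S.Q j p = S.Q 0 p + ∑ j' ∈ range j, ∑ i ∈ S.blk k j', X.v i p := by
  induction j with
  | zero => simp
  | succ j ih =>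
    rw [sum_range_succ, ← add_assoc, ← ih]
    have := hS.Q_succ j p
    push_cast
    exact this

/-- the bound for one position: boundary `j` plus a set of elements of block `j` -/
theorem pos_bound (X : Ctx ι d) (c : Cst) (K0 : ℝ) (hX : X.Good K0) (hc : c.Good X.t0)
    (k : ℕ) (S : State ι d) (hS : S.Good X c k) (hk : ∀ p, X.cls p < k + X.t0)
    (hk2 : ∀ i p, X.En (X.cls p) i ≤ X.thr k (X.cls p) → X.En (X.cls p) i ≤ 0) (j : ℤ)
    (A : Finset ι) (hA : A ⊆ S.blk k j) :
    ∑ p, (S.Q j p + ∑ i ∈ A, X.v i p) ^ 2 ≤ 36 * c.cr ^ 2 * 2 ^ X.t0 * d := by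
  have hcr : 0 ≤ c.cr := by
    have h1 := hc.c6_ge
    have h2 := hc.ke_ge
    have h3 := hc.ks_ge
    have h4 := hc.cr_ge
    have h5 : 0 ≤ c.ke := by linarith
    have h6 : 0 ≤ c.c6 * c.ke := by positivity
    nlinarith [sq_nonneg c.ke]
  have hcl : ∀ q ∈ univ.image X.cls, ∑ p ∈ univ with X.cls p = q,
      (S.Q j p + ∑ i ∈ A, X.v i p) ^ 2 ≤ 36 * c.cr ^ 2 * 2 ^ X.t0
        * ((univ.filter (fun p => X.cls p = q)).card : ℝ) := by
    intro q hq
    obtain ⟨p0, -, hp0⟩ := mem_image.mp hq
    have hlt := hk p0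
    rw [hp0] at hlt
    obtain ⟨s, hs1, hs⟩ : ∃ s : ℕ, 1 ≤ s ∧ (k : ℤ) + X.t0 - s = q := by
      refine ⟨((k : ℤ) + X.t0 - q).toNat, ?_, ?_⟩
      · omega
      · omega
    let Ah : Finset ι := A.filter (fun i => X.thr k q < X.En q i)
    have h1 := hS.en j s hs1 ∅ Ah (by simp) ((filter_subset _ _).trans hA) (by simp)
      (by intro i hi; rw [hs]; exact (mem_filter.mp hi).2)
    rw [hs] at h1
    have h2 : ∑ p ∈ univ with X.cls p = q, (S.Q j p + ∑ i ∈ A, X.v i p) ^ 2
        = ∑ p ∈ X.cl q, (S.Q j p - ∑ i ∈ (∅ : Finset ι), X.v i p + ∑ i ∈ Ah, X.v i p) ^ 2 := by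
      apply sum_congr rfl
      intro p hp
      have hpq : X.cls p = q := (mem_filter.mp hp).2
      have h3 : ∑ i ∈ Ah, X.v i p = ∑ i ∈ A, X.v i p := by
        apply sum_subset (filter_subset _ _)
        intro i hi hi2
        apply En_zero
        apply hk2
        rw [hpq]
        by_contra h4
        exact hi2 (mem_filter.mpr ⟨hi, not_le.mp h4⟩)
      rw [h3, sum_empty, sub_zero]
    rw [h2]
    refine h1.trans ?_
    have h4 : (c.cr * (6 - 5 * (4 / 5) ^ s)) ^ 2 ≤ 36 * c.cr ^ 2 := by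
      have h5 : (0 : ℝ) ≤ (4 / 5) ^ s := by positivity
      have h6 : ((4 : ℝ) / 5) ^ s ≤ 1 := pow_le_one₀ (by norm_num) (by norm_num)
      have h7 : (6 - 5 * ((4 : ℝ) / 5) ^ s) ^ 2 ≤ 36 := by nlinarith
      rw [mul_pow]
      nlinarith [sq_nonneg c.cr]
    have h5 : (0 : ℝ) ≤ 2 ^ X.t0 * X.mc q := by
      unfold Ctx.mc; positivity
    calc (c.cr * (6 - 5 * (4 / 5) ^ s)) ^ 2 * 2 ^ X.t0 * X.mc q
        = (c.cr * (6 - 5 * (4 / 5) ^ s)) ^ 2 * (2 ^ X.t0 * X.mc q) := by ring
      _ ≤ 36 * c.cr ^ 2 * (2 ^ X.t0 * X.mc q) := mul_le_mul_of_nonneg_right h4 h5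
      _ = _ := by unfold Ctx.mc Ctx.cl; ring
  rw [← sum_fiberwise_of_maps_to (fun p _ => mem_image_of_mem X.cls (mem_univ p))]
  refine (sum_le_sum hcl).trans ?_
  rw [← mul_sum]
  have h3 : ∑ q ∈ univ.image X.cls, ((univ.filter (fun p => X.cls p = q)).card : ℝ) = d := by
    have h4 := card_eq_sum_card_fiberwise (f := X.cls) (s := (univ : Finset (Fin d)))
      (t := univ.image X.cls) (fun p _ => by simp)
    rw [card_univ, Fintype.card_fin] at h4
    have h5 : (d : ℝ) = ((∑ q ∈ univ.image X.cls,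
      (univ.filter (fun p => X.cls p = q)).card : ℕ) : ℝ) := by exact_mod_cast h4
    rw [h5]
    push_cast
    rfl
  rw [h3]

theorem sum_map_flatten_toList (S : State ι d) (X : Ctx ι d) (k : ℕ) (p : Fin d) (j : ℕ) :
    ((((List.range j).map (fun j' : ℕ => (S.blk k j').toList)).flatten).map
      (fun i => X.v i p)).sum = ∑ j' ∈ range j, ∑ i ∈ S.blk k j', X.v i p := by
  induction j with
  | zero => simp
  | succ j ih =>
    rw [List.range_succ, List.map_append, List.flatten_append, List.map_append, List.sum_append,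
      ih, sum_range_succ]
    simp

/-- MODULE ORDER. -/
theorem order_of_states (X : Ctx ι d) (c : Cst) (K0 : ℝ) (hX : X.Good K0) (hc : c.Good X.t0)
    (h : ∀ k, ∃ S : State ι d, S.Good X c k) :
    ∃ L : List ι, L.Nodup ∧ (∀ i, i ∈ L) ∧ ∀ n : ℕ,
      ∑ p, (((L.take n).map (fun i => X.v i p)).sum) ^ 2
        ≤ (12 * c.cr * Real.sqrt (2 ^ X.t0) * Real.sqrt d) ^ 2 := by
  obtain ⟨k, hk, hk2⟩ := exists_level X
  obtain ⟨S, hS⟩ := h k
  let Ls : List (List ι) := (List.range (2 ^ k)).map (fun j : ℕ => (S.blk k j).toList)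
  have hpos : (0 : ℤ) < 2 ^ k := by positivity
  refine ⟨Ls.flatten, ?_, ?_, ?_⟩
  · rw [List.nodup_flatten]
    constructor
    · intro l hl
      obtain ⟨j, _, rfl⟩ := List.mem_map.mp hl
      exact nodup_toList _
    · rw [List.pairwise_map]
      apply List.Pairwise.imp_of_mem _ (List.nodup_range (n := 2 ^ k))
      intro a b ha hb hab
      rw [List.mem_range] at ha hb
      intro i hia hib
      rw [mem_toList] at hia hib
      simp only [State.blk, mem_filter, mem_univ, true_and] at hia hib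
      apply hab
      have h1 : (2 : ℤ) ^ k ∣ (b : ℤ) - a := by
        have := dvd_sub hia hib
        have e : S.loc i - (a : ℤ) - (S.loc i - (b : ℤ)) = (b : ℤ) - a := by ring
        rwa [e] at this
      have h2 : ((b : ℤ) - a) = 0 := by
        apply Int.eq_zero_of_abs_lt_dvd h1
        have ha' : (a : ℤ) < 2 ^ k := by exact_mod_cast ha
        have hb' : (b : ℤ) < 2 ^ k := by exact_mod_cast hb
        rw [abs_lt]
        constructor <;> omega
      omega
  · intro i
    rw [List.mem_flatten]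
    refine ⟨(S.blk k ((S.loc i % 2 ^ k).toNat : ℕ)).toList, ?_, ?_⟩
    · rw [List.mem_map]
      refine ⟨(S.loc i % 2 ^ k).toNat, ?_, rfl⟩
      rw [List.mem_range]
      have h1 := Int.emod_lt_of_pos (S.loc i) hpos
      have h2 := Int.emod_nonneg (S.loc i) hpos.ne'
      have h3 : (((S.loc i % 2 ^ k).toNat : ℕ) : ℤ) < 2 ^ k := by
        rw [Int.toNat_of_nonneg h2]; exact h1
      exact_mod_cast h3
    · rw [mem_toList]
      simp only [State.blk, mem_filter, mem_univ, true_and]
      rw [Int.toNat_of_nonneg (Int.emod_nonneg (S.loc i) hpos.ne')]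
      exact Int.dvd_self_sub_emod
  · intro n
    obtain ⟨j, t, hjt⟩ := take_flatten Ls n
    -- reduce to `j ≤ 2 ^ k`
    have key : ∃ (j : ℕ) (A : Finset ι), A ⊆ S.blk k j ∧
        ∀ p, ((Ls.flatten.take n).map (fun i => X.v i p)).sum
          = S.Q j p + ∑ i ∈ A, X.v i p - S.Q 0 p := by
      rcases Nat.lt_or_ge j (2 ^ k) with hj | hj
      · refine ⟨j, (((S.blk k j).toList).take t).toFinset, ?_, ?_⟩
        · intro i hi
          rw [List.mem_toFinset] at hi
          exact mem_toList.mp (List.mem_of_mem_take hi)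
        · intro p
          have e1 : Ls.take j = (List.range j).map (fun j' : ℕ => (S.blk k j').toList) := by
            simp only [Ls]
            rw [← List.map_take, List.take_range, min_eq_left hj.le]
          have e2 : (Ls[j]?).getD [] = (S.blk k j).toList := by
            simp only [Ls]
            rw [List.getElem?_map, List.getElem?_range hj]
            rfl
          rw [hjt, List.map_append, List.sum_append, e1, e2, sum_map_flatten_toList]
          rw [Q_sub S X c k hS j p]
          have e3 : ∑ i ∈ (((S.blk k j).toList).take t).toFinset, X.v i p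
              = ((((S.blk k j).toList).take t).map (fun i => X.v i p)).sum := by
            rw [List.sum_toFinset]
            exact (nodup_toList _).sublist (List.take_sublist _ _)
          rw [e3]
          ring
      · refine ⟨2 ^ k, ∅, by simp, ?_⟩
        intro p
        have e1 : Ls.take j = Ls := by
          apply List.take_of_length_le
          simpa [Ls] using hj
        have e2 : (Ls[j]?).getD [] = [] := by
          rw [List.getElem?_eq_none (by simpa [Ls] using hj)]
          rfl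
        rw [hjt, e1, e2, List.take_nil, List.append_nil, sum_map_flatten_toList]
        rw [Q_sub S X c k hS (2 ^ k) p]
        simp
    obtain ⟨j, A, hA, hsum⟩ := key
    have h1 := pos_bound X c K0 hX hc k S hS hk hk2 j A hA
    have h2 := pos_bound X c K0 hX hc k S hS hk hk2 0 ∅ (by simp)
    simp only [sum_empty, add_zero] at h2
    have h3 : ∑ p, (((Ls.flatten.take n).map (fun i => X.v i p)).sum) ^ 2
        ≤ 2 * ∑ p, (S.Q j p + ∑ i ∈ A, X.v i p) ^ 2 + 2 * ∑ p, (S.Q 0 p) ^ 2 := by
      rw [mul_sum, mul_sum, ← sum_add_distrib]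
      apply sum_le_sum
      intro p _
      rw [hsum p]
      nlinarith [sq_nonneg (S.Q j p + ∑ i ∈ A, X.v i p + S.Q 0 p)]
    refine h3.trans ?_
    have h4 : (12 * c.cr * Real.sqrt (2 ^ X.t0) * Real.sqrt d) ^ 2
        = 144 * c.cr ^ 2 * 2 ^ X.t0 * d := by
      rw [mul_pow, mul_pow, mul_pow, Real.sq_sqrt (by positivity), Real.sq_sqrt (by positivity)]
      ring
    rw [h4]
    linarith

end Vale.Agent.Steinitz2
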