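import Mathlib
import Vale.Agent.Lib.Steinitz2.LPiece

/-!
# P262 log-free bound: the state at level `0`
-/

namespace Vale.Agent.Steinitz2

open Finset

variable {ι : Type} {d : ℕ} [Fintype ι] [DecidableEq ι]

omit [Fintype ι] [DecidableEq ι] in
theorem zmc_nonneg (X : Ctx ι d) (q : ℤ) : 0 ≤ X.mc q := by
  unfold Ctx.mc; positivity

omit [Fintype ι] [DecidableEq ι] in
theorem zEn_nonneg (X : Ctx ι d) (q : ℤ) (i : ι) : 0 ≤ X.En q i := by
  unfold Ctx.En; positivity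

omit [DecidableEq ι] in
/-- the total energy of a class -/
theorem zsum_En {X : Ctx ι d} {K0 : ℝ} (hX : X.Good K0) (q : ℤ) :
    ∑ i, X.En q i ≤ 2 * (2 : ℝ) ^ q * X.mc q := by
  unfold Ctx.En
  rw [sum_comm]
  have h1 : ∀ p ∈ X.cl q, ∑ i, X.v i p ^ 2 ≤ 2 * (2 : ℝ) ^ q := by
    intro p hp
    have h2 := hX.gram p p
    rw [if_pos rfl] at h2
    have h3 : ∑ i, X.v i p ^ 2 = X.a p := by
      rw [← h2]
      exact sum_congr rfl fun i _ => by ring
    rw [h3]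
    have h4 := hX.lt_cls p
    have h5 : X.cls p = q := by
      simpa [Ctx.cl] using hp
    rw [h5, zpow_add₀ (by norm_num : (2 : ℝ) ≠ 0), zpow_one] at h4
    linarith
  calc ∑ p ∈ X.cl q, ∑ i, X.v i p ^ 2 ≤ ∑ _p ∈ X.cl q, 2 * (2 : ℝ) ^ q := sum_le_sum h1
    _ = 2 * (2 : ℝ) ^ q * X.mc q := by
      rw [sum_const, nsmul_eq_mul]; unfold Ctx.mc; ring

omit [DecidableEq ι] in
theorem zEn_le {X : Ctx ι d} {K0 : ℝ} (hX : X.Good K0) (q : ℤ) (i : ι) :
    X.En q i ≤ 2 * (2 : ℝ) ^ q * X.mc q :=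
  (single_le_sum (f := fun i => X.En q i) (fun i _ => zEn_nonneg X q i) (mem_univ i)).trans
    (zsum_En hX q)

omit [DecidableEq ι] in
/-- MODULE ZERO: the state at level `0`. -/
theorem state_zero (X : Ctx ι d) (c : Cst) (K0 : ℝ) (hX : X.Good K0) (hc : c.Good X.t0)
    (hK : K0 ≤ c.k1 ^ 2) : ∃ S : State ι d, S.Good X c 0 := by
  have hmc := zmc_nonneg X
  have hT : (0 : ℝ) < 2 ^ X.t0 := by positivity
  let S : State ι d := ⟨fun _ => 0, fun _ _ => 0, fun _ _ => 0, fun _ _ => 0⟩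
  have hblk : ∀ j, S.blk 0 j = univ := by
    intro j
    simp [State.blk]
  have hlight : ∀ (q : ℤ) (i : ι), X.En q i ≤ X.thr 0 q := by
    intro q i
    have := zEn_le hX q i
    unfold Ctx.thr
    simpa using this
  refine ⟨S, ?_⟩
  constructor
  · intro j p; rfl
  · intro j i; rfl
  · intro j i; rfl
  · intro j p
    rw [hblk]
    simp [S, hX.sum_zero p]
  · intro j i; simp [S]
  · intro j i; simp [S]
  · -- ev
    intro j γ n
    have h := hX.lab_even γ n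
    have hbl : S.bl X 0 j γ = univ.filter (fun i => X.lab i = γ) := by
      simp [State.bl]
    rw [hbl]
    simp only [Nat.cast_zero, zero_add, pow_zero, div_one]
    refine h.trans ?_
    have : 0 ≤ 2 ^ X.t0 * X.mc (X.t0 + n) * (9 / 4 : ℝ) ^ n := by
      have := hmc (X.t0 + n)
      positivity
    nlinarith
  · intro j n
    have := hmc ((0 : ℕ) + X.t0 + n)
    simp only [S, zero_mul, sum_const_zero]
    have h2 : (0 : ℝ) ≤ c.c6 ^ 2 * 2 ^ X.t0 * X.mc ((0 : ℕ) + X.t0 + n) * (9 / 4) ^ n := by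
      positivity
    simpa using h2
  · intro j n
    have := hmc ((0 : ℕ) + X.t0 + n)
    simp only [S, zero_mul, sum_const_zero]
    have h2 : (0 : ℝ) ≤ c.c6 ^ 2 * 2 ^ X.t0 * X.mc ((0 : ℕ) + X.t0 + n) * (9 / 4) ^ n := by
      positivity
    simpa using h2
  · intro j n
    have := hmc ((0 : ℕ) + X.t0 + n)
    have h2 : (0 : ℝ) ≤ (21 * c.c6) ^ 2 * X.mc ((0 : ℕ) + X.t0 + n) * (400 / 441) ^ n := by
      positivity
    simpa [S] using h2
  · intro j n
    have := hmc ((0 : ℕ) + X.t0 + n)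
    have h2 : (0 : ℝ) ≤ (21 * c.c6) ^ 2 * X.mc ((0 : ℕ) + X.t0 + n) * (400 / 441) ^ n := by
      positivity
    simpa [S] using h2
  · intro j s
    have := hmc ((0 : ℕ) + X.t0 - s)
    have h2 : (0 : ℝ) ≤ c.c6 ^ 2 * (9 / 8) ^ (s + 1)
        * (8 * c.ke ^ 2 * 2 ^ X.t0 * X.mc ((0 : ℕ) + X.t0 - s) * (9 / 16) ^ (s + 1)) := by
      positivity
    simpa [S] using h2
  · intro j s
    have := hmc ((0 : ℕ) + X.t0 - s)
    have h2 : (0 : ℝ) ≤ c.c6 ^ 2 * (9 / 8) ^ (s + 1)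
        * (8 * c.ke ^ 2 * 2 ^ X.t0 * X.mc ((0 : ℕ) + X.t0 - s) * (9 / 16) ^ (s + 1)) := by
      positivity
    simpa [S] using h2
  · -- le
    intro j γ s hs
    have h1 : ∑ i ∈ S.bl X 0 j γ with X.En ((0 : ℕ) + X.t0 - s) i ≤ X.thr 0 ((0 : ℕ) + X.t0 - s),
        X.En ((0 : ℕ) + X.t0 - s) i ≤ ∑ i, X.En ((0 : ℕ) + X.t0 - s) i :=
      sum_le_sum_of_subset_of_nonneg (subset_univ _) fun i _ _ => zEn_nonneg X _ i
    refine h1.trans ((zsum_En hX _).trans ?_)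
    have h2 : (2 : ℝ) ^ ((0 : ℕ) + (X.t0 : ℤ) - (s : ℤ)) = 2 ^ X.t0 * (1 / 2) ^ s := by
      rw [Nat.cast_zero, zero_add, zpow_sub₀ (by norm_num), zpow_natCast, zpow_natCast,
        one_div, inv_pow, div_eq_mul_inv]
    rw [h2]
    have h3 : (1 / 2 : ℝ) ^ s ≤ (9 / 16) ^ s := pow_le_pow_left₀ (by norm_num) (by norm_num) s
    have h4 : (2 : ℝ) ≤ c.ke ^ 2 := by
      have h5 := hc.ke_ge
      have h6 := hc.c6_ge
      nlinarith
    have h5 := hmc ((0 : ℕ) + X.t0 - s)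
    calc 2 * (2 ^ X.t0 * (1 / 2) ^ s) * X.mc ((0 : ℕ) + X.t0 - s)
        = 2 * (2 ^ X.t0 * X.mc ((0 : ℕ) + X.t0 - s)) * (1 / 2) ^ s := by ring
      _ ≤ c.ke ^ 2 * (2 ^ X.t0 * X.mc ((0 : ℕ) + X.t0 - s)) * (9 / 16) ^ s := by
        apply mul_le_mul _ h3 (by positivity) (by positivity)
        exact mul_le_mul_of_nonneg_right h4 (by positivity)
      _ = _ := by ring
  · -- ls
    intro j s hs
    rw [hblk]
    have h1 : (univ.filter fun i => X.En ((0 : ℕ) + X.t0 - s) i ≤ X.thr 0 ((0 : ℕ) + X.t0 - s))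
        = (univ : Finset ι) := by
      apply filter_true_of_mem
      intro i _
      exact hlight _ i
    rw [h1]
    have := hmc ((0 : ℕ) + X.t0 - s)
    have h2 : (0 : ℝ) ≤ c.ks ^ 2 * 2 ^ X.t0 * X.mc ((0 : ℕ) + X.t0 - s) * (16 / 25) ^ s := by
      positivity
    simpa [hX.sum_zero] using h2
  · -- en
    intro j s hs A A' _ _ hA hA'
    have h1 : A = ∅ := by
      rw [eq_empty_iff_forall_notMem]
      intro i hi
      exact absurd (hA i hi) (not_lt.2 (hlight _ i))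
    have h2 : A' = ∅ := by
      rw [eq_empty_iff_forall_notMem]
      intro i hi
      exact absurd (hA' i hi) (not_lt.2 (hlight _ i))
    rw [h1, h2]
    have := hmc ((0 : ℕ) + X.t0 - s)
    have h3 : (0 : ℝ) ≤ (c.cr * (6 - 5 * (4 / 5) ^ s)) ^ 2 * 2 ^ X.t0
        * X.mc ((0 : ℕ) + X.t0 - s) := by
      positivity
    simpa [S] using h3

end Vale.Agent.Steinitz2
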