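import Mathlib
import Vale.Agent.Lib.Steinitz2.LPiece
import Vale.Agent.Lib.Steinitz2.Zero
import Vale.Agent.Lib.Steinitz2.Order
import Vale.Agent.Lib.Steinitz.FinalAux

/-!
# P262 log-free bound: the final theorem, from the modules ROOT, PIECES and ASSEMBLE
-/

namespace Vale.Agent.Steinitz2

open Finset

section

variable {ι : Type} {d : ℕ} [Fintype ι] [DecidableEq ι]

theorem fPiece_congr {P : Piece ι} {X : Ctx ι d} {c : Cst} {S : State ι d} {k : ℕ} {j j' : ℤ}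
    (h1 : S.bl X k j' = S.bl X k j) (h2 : S.fL j' = S.fL j) (h3 : S.fR j' = S.fR j)
    (h : P.Good X c S k j) : P.Good X c S k j' := by
  cases h
  constructor <;> simp only [State.mid, h1, h2, h3] at * <;> assumption

omit [DecidableEq ι] in
theorem fshift {X : Ctx ι d} {c : Cst} {S : State ι d} {k : ℕ} (h : S.Good X c k) (j m : ℤ) :
    S.bl X k (j + 2 ^ k * m) = S.bl X k j ∧ S.fL (j + 2 ^ k * m) = S.fL j ∧
      S.fR (j + 2 ^ k * m) = S.fR j := by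
  have hyp : ∀ (j m : ℤ) i, S.yp (j + 2 ^ k * m) i = S.yp j i := by
    intro j m i
    induction m using Int.induction_on with
    | zero => simp
    | succ m ih =>
      rw [← ih, ← h.yp_per (j + 2 ^ k * m)]
      congr 1; ring
    | pred m ih =>
      rw [← ih, ← h.yp_per (j + 2 ^ k * (-m - 1))]
      congr 1; ring
  have hym : ∀ (j m : ℤ) i, S.ym (j + 2 ^ k * m) i = S.ym j i := by
    intro j m i
    induction m using Int.induction_on with
    | zero => simp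
    | succ m ih =>
      rw [← ih, ← h.ym_per (j + 2 ^ k * m)]
      congr 1; ring
    | pred m ih =>
      rw [← ih, ← h.ym_per (j + 2 ^ k * (-m - 1))]
      congr 1; ring
  have hym1 : ∀ i, S.ym (j + 2 ^ k * m + 1) i = S.ym (j + 1) i := by
    intro i
    rw [← hym (j + 1) m i]
    congr 1; ring
  refine ⟨?_, ?_, ?_⟩
  · funext γ
    unfold State.bl
    ext i
    rw [mem_filter, mem_filter]
    have : (2 : ℤ) ^ k ∣ S.loc i - (j + 2 ^ k * m) ↔ (2 : ℤ) ^ k ∣ S.loc i - j := by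
      have h1 : S.loc i - (j + 2 ^ k * m) = S.loc i - j - 2 ^ k * m := by ring
      rw [h1]
      exact dvd_sub_left (dvd_mul_right _ _)
    rw [this]
  · funext γ i
    unfold State.fL
    rw [hyp j m i, hym1 i]
  · funext γ i
    unfold State.fR
    rw [hyp j m i, hym1 i]

/-- the pieces of the blocks, chosen periodically -/
theorem fexists_pieces {X : Ctx ι d} {c : Cst} {S : State ι d} {k : ℕ} (h : S.Good X c k)
    (hP : ∀ j : ℤ, ∃ P : Piece ι, P.Good X c S k j) :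
    ∃ P : ℤ → Piece ι, (∀ j, P (j + 2 ^ k) = P j) ∧ ∀ j, (P j).Good X c S k j := by
  choose P0 hP0 using hP
  refine ⟨fun j => P0 (j % 2 ^ k), fun j => ?_, fun j => ?_⟩
  · simp only [Int.add_emod_right]
  · have h1 : j = j % 2 ^ k + 2 ^ k * (j / 2 ^ k) := (Int.emod_add_mul_ediv j _).symm
    obtain ⟨h2, h3, h4⟩ := fshift h (j % 2 ^ k) (j / 2 ^ k)
    rw [← h1] at h2 h3 h4
    exact fPiece_congr h2 h3 h4 (hP0 (j % 2 ^ k))

end

/-- the constants -/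
theorem fexists_cst (c6 K0 : ℝ) (h6 : 1 ≤ c6) :
    ∃ c : Cst, c.c6 = c6 ∧ K0 ≤ c.k1 ^ 2 ∧ 0 ≤ c.cr ∧
      ∀ t0 : ℕ, c.k1 ^ 2 ≤ 2 ^ t0 → c.Good t0 := by
  refine ⟨⟨c6, 20 * c6 + |K0| + 1, 200 * c6,
    5 * (200 * c6) ^ 2 + 60 * c6 * (200 * c6) + 100 * c6,
    (5 * (200 * c6) ^ 2 + 60 * c6 * (200 * c6) + 100 * c6) + 10 * (200 * c6) ^ 2
      + 20 * c6 * (200 * c6) + 30 * c6⟩, rfl, ?_, ?_, ?_⟩
  · have h1 := abs_nonneg K0
    have h2 := le_abs_self K0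
    simp only
    nlinarith
  · simp only
    positivity
  · intro t0 ht0
    exact ⟨h6, by simp only; linarith [abs_nonneg K0], le_rfl, le_rfl, le_rfl, ht0⟩

/-- MODULE FINAL, from the other modules. -/
theorem steinitz_sqrt_of
    (hnext : ∀ (ι : Type) [Fintype ι] [DecidableEq ι] (d : ℕ) (X : Ctx ι d) (c : Cst) (K0 : ℝ)
      (_ : X.Good K0) (_ : c.Good X.t0) (k : ℕ) (S : State ι d) (_ : S.Good X c k)
      (P : ℤ → Piece ι) (_ : ∀ j, P (j + 2 ^ k) = P j) (_ : ∀ j, (P j).Good X c S k j),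
      (S.next X k P).Good X c (k + 1))
    (hpieces : ∃ c6 : ℝ, 1 ≤ c6 ∧ ∀ c : Cst, c.c6 = c6 → ∃ T1 : ℝ,
      ∀ (ι : Type) [Fintype ι] [DecidableEq ι] (d : ℕ) (X : Ctx ι d) (K0 : ℝ) (_ : X.Good K0)
        (_ : c.Good X.t0) (_ : T1 ≤ 2 ^ X.t0) (k : ℕ) (S : State ι d) (_ : S.Good X c k) (j : ℤ),
        ∃ P : Piece ι, P.Good X c S k j)
    (hctx : ∃ K0 : ℝ, ∀ (t0 N d : ℕ) (v : Fin N → EuclideanSpace ℝ (Fin d)),
      Submodule.span ℝ (Set.range v) = ⊤ → (∀ i, ‖v i‖ ≤ 1) → ∑ i, v i = 0 →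
      ∃ (b : OrthonormalBasis (Fin d) ℝ (EuclideanSpace ℝ (Fin d))) (X : Ctx (Fin N) d),
        X.t0 = t0 ∧ X.Good K0 ∧ ∀ i j, X.v i j = inner ℝ (v i) (b j)) :
    ∃ C : ℝ, ∀ d : ℕ, 1 ≤ d → ∀ (N : ℕ) (v : Fin N → EuclideanSpace ℝ (Fin d)),
      (∀ i, ‖v i‖ ≤ 1) → ∑ i, v i = 0 →
      ∃ π : Equiv.Perm (Fin N), ∀ k : ℕ, k ≤ N →
        ‖∑ i : Fin N with i.val < k, v (π i)‖ ≤ C * Real.sqrt d := by
  obtain ⟨c6, hc6, hpieces⟩ := hpieces
  obtain ⟨K0, hctx⟩ := hctx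
  obtain ⟨c, hc1, hcK, hcr, hc⟩ := fexists_cst c6 K0 hc6
  obtain ⟨T1, hT1⟩ := hpieces c hc1
  obtain ⟨t0, ht0⟩ := pow_unbounded_of_one_lt (max (c.k1 ^ 2) T1) (by norm_num : (1 : ℝ) < 2)
  have ht1 : c.k1 ^ 2 ≤ 2 ^ t0 := (le_max_left _ _).trans ht0.le
  have ht2 : T1 ≤ 2 ^ t0 := (le_max_right _ _).trans ht0.le
  refine ⟨12 * c.cr * Real.sqrt (2 ^ t0) + 1, fun d hd N v hv hs => ?_⟩
  have H : ∀ (N : ℕ) (v : Fin N → EuclideanSpace ℝ (Fin d)),
      Submodule.span ℝ (Set.range v) = ⊤ → (∀ i, ‖v i‖ ≤ 1) → ∑ i, v i = 0 →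
      ∃ L : List (Fin N), L.Nodup ∧ (∀ i, i ∈ L) ∧
        ∀ n : ℕ, ‖((L.take n).map v).sum‖ ≤ 12 * c.cr * Real.sqrt (2 ^ t0) * Real.sqrt d := by
    intro N v hspan hv hs
    obtain ⟨b, X, hXt, hX, hXv⟩ := hctx t0 N d v hspan hv hs
    have hcG : c.Good X.t0 := hc _ (by rw [hXt]; exact ht1)
    have hall : ∀ k, ∃ S : State (Fin N) d, S.Good X c k := by
      intro k
      induction k with
      | zero => exact state_zero X c K0 hX hcG hcK
      | succ k ih =>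
        obtain ⟨S, hS⟩ := ih
        obtain ⟨P, hP1, hP2⟩ := fexists_pieces hS fun j =>
          hT1 (Fin N) d X K0 hX hcG (by rw [hXt]; exact ht2) k S hS j
        exact ⟨_, hnext (Fin N) d X c K0 hX hcG k S hS P hP1 hP2⟩
    obtain ⟨L, hL1, hL2, hL3⟩ := order_of_states X c K0 hX hcG hall
    refine ⟨L, hL1, hL2, fun n => ?_⟩
    have h1 : ‖((L.take n).map v).sum‖ ^ 2
        = ∑ p, (((L.take n).map (fun i => X.v i p)).sum) ^ 2 := by
      rw [← b.sum_sq_inner_left]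
      refine sum_congr rfl fun p _ => ?_
      congr 1
      simp only [hXv]
      generalize L.take n = L'
      induction L' with
      | nil => simp
      | cons a L' ih => simp [inner_add_left, ih]
    have h2 := hL3 n
    rw [← h1, hXt] at h2
    exact (abs_le_of_sq_le_sq' h2 (by positivity)).2
  obtain ⟨π, hπ⟩ := Steinitz.perm_of_spanning _ H N v hv hs
  refine ⟨π, fun k _ => (hπ k).trans (le_of_eq ?_)⟩
  ring

end Vale.Agent.Steinitz2
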