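import Mathlib
import Vale.Agent.Lib.Steinitz2.LPiece

/-!
# P262 log-free bound, module ASSEMBLE, part A: the structure of the next level
-/

namespace Vale.Agent.Steinitz2

open Finset

set_option linter.unusedSectionVars false

theorem per_of_dvd {α : Type*} (f : ℤ → α) (k : ℕ) (h : ∀ j, f (j + 2 ^ k) = f j) {a b : ℤ}
    (hab : (2 : ℤ) ^ k ∣ a - b) : f a = f b := by
  obtain ⟨c, hc⟩ := hab
  have key : ∀ (n : ℕ) (j : ℤ), f (j + 2 ^ k * n) = f j := by
    intro n
    induction n with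
    | zero => intro j; simp
    | succ n ih =>
      intro j
      have : j + 2 ^ k * ((n + 1 : ℕ) : ℤ) = (j + 2 ^ k * n) + 2 ^ k := by push_cast; ring
      rw [this, h, ih]
  rcases le_total 0 c with hc0 | hc0
  · obtain ⟨n, rfl⟩ := Int.eq_ofNat_of_zero_le hc0
    have : a = b + 2 ^ k * n := by linarith
    rw [this, key]
  · obtain ⟨n, hn⟩ := Int.eq_ofNat_of_zero_le (neg_nonneg.2 hc0)
    have : b = a + 2 ^ k * n := by
      have : c = -n := by omega
      rw [this] at hc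
      linarith
    rw [this, key]

section

variable {ι : Type} {d : ℕ} [Fintype ι]

theorem State.mem_bl {S : State ι d} {X : Ctx ι d} {k : ℕ} {j : ℤ} {γ : Bool} {i : ι} :
    i ∈ S.bl X k j γ ↔ (2 : ℤ) ^ k ∣ S.loc i - j ∧ X.lab i = γ := by
  simp [State.bl]

theorem State.mem_blk {S : State ι d} {k : ℕ} {j : ℤ} {i : ι} :
    i ∈ S.blk k j ↔ (2 : ℤ) ^ k ∣ S.loc i - j := by
  simp [State.blk]

theorem State.bl_per (S : State ι d) (X : Ctx ι d) (k : ℕ) (j : ℤ) (γ : Bool) :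
    S.bl X k (j + 2 ^ k) γ = S.bl X k j γ := by
  ext i
  rw [State.mem_bl, State.mem_bl]
  have : S.loc i - (j + 2 ^ k) = (S.loc i - j) - 2 ^ k := by ring
  rw [this, dvd_sub_self_right]

theorem State.bl_subset_blk (S : State ι d) (X : Ctx ι d) (k : ℕ) (j : ℤ) (γ : Bool) :
    S.bl X k j γ ⊆ S.blk k j := fun _ hi => State.mem_blk.2 (State.mem_bl.1 hi).1

theorem State.sum_blk {M : Type*} [AddCommMonoid M] (S : State ι d) (X : Ctx ι d) (k : ℕ) (j : ℤ)
    (F : ι → M) :
    ∑ i ∈ S.blk k j, F i = ∑ i ∈ S.bl X k j false, F i + ∑ i ∈ S.bl X k j true, F i := by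
  classical
  have h : S.blk k j = S.bl X k j false ∪ S.bl X k j true := by
    ext i
    rw [mem_union, State.mem_bl, State.mem_bl, State.mem_blk]
    cases X.lab i <;> simp
  rw [h, sum_union]
  rw [disjoint_left]
  intro i h1 h2
  have h3 := (State.mem_bl.1 h1).2
  have h4 := (State.mem_bl.1 h2).2
  rw [h3] at h4
  exact Bool.noConfusion h4

variable [DecidableEq ι]

theorem State.mem_mid {S : State ι d} {X : Ctx ι d} {k : ℕ} {j : ℤ} {P : Piece ι} {γ : Bool}
    {i : ι} : i ∈ S.mid X k j P γ ↔ i ∈ S.bl X k j γ ∧ i ∉ P.L γ ∧ i ∉ P.R γ := by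
  simp [State.mid]

section next

variable (S : State ι d) (X : Ctx ι d) (k : ℕ) (P : ℤ → Piece ι)

@[simp] theorem next_loc (i : ι) : (S.next X k P).loc i = 2 * S.loc i + chi P S.loc X.lab i := rfl

theorem next_Q_even (j : ℤ) (p : Fin d) : (S.next X k P).Q (2 * j) p
    = S.Q j p + (∑ i ∈ (P j).L false, X.v i p + ∑ i ∈ (P j).L true, X.v i p) := by
  have h1 : 2 * j % 2 = 0 := by omega
  have h2 : 2 * j / 2 = j := by omega
  simp only [State.next, h1, h2, if_true]

theorem next_Q_odd (j : ℤ) (p : Fin d) : (S.next X k P).Q (2 * j + 1) p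
    = S.Q (j + 1) p - (∑ i ∈ (P j).R false, X.v i p + ∑ i ∈ (P j).R true, X.v i p) := by
  have h1 : (2 * j + 1) % 2 = 1 := by omega
  have h2 : (2 * j + 1) / 2 = j := by omega
  simp only [State.next, h1, h2, one_ne_zero, if_false]

theorem next_yp_even (j : ℤ) (i : ι) : (S.next X k P).yp (2 * j) i
    = if i ∈ S.mid X k j (P j) true then (P j).w1C i else 0 := by
  have h1 : 2 * j % 2 = 0 := by omega
  have h2 : 2 * j / 2 = j := by omega
  simp only [State.next, h1, h2, if_true]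

theorem next_yp_odd (j : ℤ) (i : ι) : (S.next X k P).yp (2 * j + 1) i
    = if i ∈ (P j).R true then - (P j).w2R i else 0 := by
  have h1 : (2 * j + 1) % 2 = 1 := by omega
  have h2 : (2 * j + 1) / 2 = j := by omega
  simp only [State.next, h1, h2, one_ne_zero, if_false]

theorem next_ym_even (j : ℤ) (i : ι) : (S.next X k P).ym (2 * j) i
    = if i ∈ (P j).L true then (P j).w1L i else 0 := by
  have h1 : 2 * j % 2 = 0 := by omega
  have h2 : 2 * j / 2 = j := by omega
  simp only [State.next, h1, h2, if_true]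

theorem next_ym_odd (j : ℤ) (i : ι) : (S.next X k P).ym (2 * j + 1) i
    = if i ∈ S.mid X k j (P j) true then - (P j).w2C i else 0 := by
  have h1 : (2 * j + 1) % 2 = 1 := by omega
  have h2 : (2 * j + 1) / 2 = j := by omega
  simp only [State.next, h1, h2, one_ne_zero, if_false]

variable {S X k P} {c : Cst}
variable (hper : ∀ j, P (j + 2 ^ k) = P j) (hP : ∀ j, (P j).Good X c S k j)

omit [DecidableEq ι] in
include hper in
theorem P_eq {i : ι} {j : ℤ} {γ : Bool} (hi : i ∈ S.bl X k j γ) : P (S.loc i) = P j :=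
  per_of_dvd P k hper (State.mem_bl.1 hi).1

include hper hP

theorem chi_L {i : ι} {j : ℤ} {γ : Bool} (hi : i ∈ (P j).L γ) : chi P S.loc X.lab i = -1 := by
  have h1 := (hP j).L_sub γ hi
  have h2 := P_eq hper h1
  have h3 := (State.mem_bl.1 h1).2
  rw [chi, h2, h3, if_pos hi]

theorem chi_R {i : ι} {j : ℤ} {γ : Bool} (hi : i ∈ (P j).R γ) : chi P S.loc X.lab i = 1 := by
  have h1 := (hP j).R_sub γ hi
  have h2 := P_eq hper h1
  have h3 := (State.mem_bl.1 h1).2
  have h4 : i ∉ (P j).L γ := fun h => disjoint_left.1 ((hP j).disj γ) h hi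
  rw [chi, h2, h3, if_neg h4, if_pos hi]

omit hP in
theorem chi_mid {i : ι} {j : ℤ} {γ : Bool} (hi : i ∈ S.mid X k j (P j) γ) :
    chi P S.loc X.lab i = 0 := by
  have h := State.mem_mid.1 hi
  have h2 := P_eq hper h.1
  have h3 := (State.mem_bl.1 h.1).2
  rw [chi, h2, h3, if_neg h.2.1, if_neg h.2.2]

theorem mem_next_even {i : ι} {j : ℤ} {γ : Bool} :
    i ∈ (S.next X k P).bl X (k + 1) (2 * j) γ ↔ i ∈ S.mid X k j (P j) γ := by
  rw [State.mem_bl, next_loc]
  constructor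
  · rintro ⟨h1, h2⟩
    have hchi : chi P S.loc X.lab i = 0 := by
      have h3 : (2 : ℤ) ∣ 2 * S.loc i + chi P S.loc X.lab i - 2 * j :=
        (dvd_pow_self 2 (Nat.succ_ne_zero k)).trans h1
      have h4 : chi P S.loc X.lab i = -1 ∨ chi P S.loc X.lab i = 0 ∨ chi P S.loc X.lab i = 1 := by
        unfold chi; split_ifs <;> simp
      omega
    rw [hchi] at h1
    have h5 : (2 : ℤ) ^ k ∣ S.loc i - j := by
      have h6 : 2 * S.loc i + 0 - 2 * j = 2 * (S.loc i - j) := by ring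
      rw [h6, pow_succ'] at h1
      exact (mul_dvd_mul_iff_left two_ne_zero).1 h1
    have h6 : i ∈ S.bl X k j γ := State.mem_bl.2 ⟨h5, h2⟩
    refine State.mem_mid.2 ⟨h6, fun h => ?_, fun h => ?_⟩
    · rw [chi_L hper hP h] at hchi; omega
    · rw [chi_R hper hP h] at hchi; omega
  · intro h
    have hchi := chi_mid hper h
    have h1 := State.mem_bl.1 (State.mem_mid.1 h).1
    refine ⟨?_, h1.2⟩
    rw [hchi]
    have h6 : 2 * S.loc i + 0 - 2 * j = 2 * (S.loc i - j) := by ring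
    rw [h6, pow_succ']
    exact mul_dvd_mul_left 2 h1.1

theorem mem_next_odd {i : ι} {j : ℤ} {γ : Bool} :
    i ∈ (S.next X k P).bl X (k + 1) (2 * j + 1) γ ↔ i ∈ (P j).R γ ∨ i ∈ (P (j + 1)).L γ := by
  rw [State.mem_bl, next_loc]
  constructor
  · rintro ⟨h1, h2⟩
    have h3 : (2 : ℤ) ∣ 2 * S.loc i + chi P S.loc X.lab i - (2 * j + 1) :=
      (dvd_pow_self 2 (Nat.succ_ne_zero k)).trans h1
    have h4 : chi P S.loc X.lab i = -1 ∨ chi P S.loc X.lab i = 0 ∨ chi P S.loc X.lab i = 1 := by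
      unfold chi; split_ifs <;> simp
    have hchi : chi P S.loc X.lab i = -1 ∨ chi P S.loc X.lab i = 1 := by omega
    rcases hchi with hchi | hchi
    · right
      rw [hchi] at h1
      have h5 : (2 : ℤ) ^ k ∣ S.loc i - (j + 1) := by
        have h6 : 2 * S.loc i + -1 - (2 * j + 1) = 2 * (S.loc i - (j + 1)) := by ring
        rw [h6, pow_succ'] at h1
        exact (mul_dvd_mul_iff_left two_ne_zero).1 h1
      have h6 : i ∈ S.bl X k (j + 1) γ := State.mem_bl.2 ⟨h5, h2⟩
      have h7 := P_eq hper h6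
      by_contra hcon
      rw [chi, h7, h2, if_neg hcon] at hchi
      split_ifs at hchi
    · left
      rw [hchi] at h1
      have h5 : (2 : ℤ) ^ k ∣ S.loc i - j := by
        have h6 : 2 * S.loc i + 1 - (2 * j + 1) = 2 * (S.loc i - j) := by ring
        rw [h6, pow_succ'] at h1
        exact (mul_dvd_mul_iff_left two_ne_zero).1 h1
      have h6 : i ∈ S.bl X k j γ := State.mem_bl.2 ⟨h5, h2⟩
      have h7 := P_eq hper h6
      by_contra hcon
      rw [chi, h7, h2, if_neg hcon] at hchi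
      split_ifs at hchi
      omega
  · rintro (h | h)
    · have hchi := chi_R hper hP h
      have h1 := State.mem_bl.1 ((hP j).R_sub γ h)
      refine ⟨?_, h1.2⟩
      rw [hchi]
      have h6 : 2 * S.loc i + 1 - (2 * j + 1) = 2 * (S.loc i - j) := by ring
      rw [h6, pow_succ']
      exact mul_dvd_mul_left 2 h1.1
    · have hchi := chi_L hper hP h
      have h1 := State.mem_bl.1 ((hP (j + 1)).L_sub γ h)
      refine ⟨?_, h1.2⟩
      rw [hchi]
      have h6 : 2 * S.loc i + -1 - (2 * j + 1) = 2 * (S.loc i - (j + 1)) := by ring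
      rw [h6, pow_succ']
      exact mul_dvd_mul_left 2 h1.1

theorem bl_next_even (j : ℤ) (γ : Bool) :
    (S.next X k P).bl X (k + 1) (2 * j) γ = S.mid X k j (P j) γ := by
  ext i; exact mem_next_even hper hP

theorem bl_next_odd (j : ℤ) (γ : Bool) :
    (S.next X k P).bl X (k + 1) (2 * j + 1) γ = (P j).R γ ∪ (P (j + 1)).L γ := by
  ext i; rw [mem_next_odd hper hP, mem_union]

theorem disj_RL (j : ℤ) (γ : Bool) : Disjoint ((P j).R γ) ((P (j + 1)).L γ) := by
  rw [disjoint_left]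
  intro i h1 h2
  have h3 := chi_R hper hP h1
  have h4 := chi_L hper hP h2
  omega

omit hper in
theorem sum_mid {M : Type*} [AddCommGroup M] (j : ℤ) (γ : Bool) (F : ι → M) :
    ∑ i ∈ S.mid X k j (P j) γ, F i
      = ∑ i ∈ S.bl X k j γ, F i - ∑ i ∈ (P j).L γ, F i - ∑ i ∈ (P j).R γ, F i := by
  unfold State.mid
  rw [sub_sub, ← sum_union ((hP j).disj γ), eq_sub_iff_add_eq,
    sum_sdiff (union_subset ((hP j).L_sub γ) ((hP j).R_sub γ))]

theorem sum_next_even {M : Type*} [AddCommGroup M] (j : ℤ) (γ : Bool) (F : ι → M) :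
    ∑ i ∈ (S.next X k P).bl X (k + 1) (2 * j) γ, F i
      = ∑ i ∈ S.bl X k j γ, F i - ∑ i ∈ (P j).L γ, F i - ∑ i ∈ (P j).R γ, F i := by
  rw [bl_next_even hper hP, sum_mid hP]

theorem sum_next_odd {M : Type*} [AddCommGroup M] (j : ℤ) (γ : Bool) (F : ι → M) :
    ∑ i ∈ (S.next X k P).bl X (k + 1) (2 * j + 1) γ, F i
      = ∑ i ∈ (P j).R γ, F i + ∑ i ∈ (P (j + 1)).L γ, F i := by
  rw [bl_next_odd hper hP, sum_union (disj_RL hper hP j γ)]

/-- sums over the whole block, even case -/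
theorem sum_nextblk_even {M : Type*} [AddCommGroup M] (j : ℤ) (F : ι → M) :
    ∑ i ∈ (S.next X k P).blk (k + 1) (2 * j), F i
      = ∑ i ∈ S.blk k j, F i - (∑ i ∈ (P j).L false, F i + ∑ i ∈ (P j).L true, F i)
        - (∑ i ∈ (P j).R false, F i + ∑ i ∈ (P j).R true, F i) := by
  rw [State.sum_blk _ X, State.sum_blk _ X, sum_next_even hper hP, sum_next_even hper hP]
  abel

theorem sum_nextblk_odd {M : Type*} [AddCommGroup M] (j : ℤ) (F : ι → M) :
    ∑ i ∈ (S.next X k P).blk (k + 1) (2 * j + 1), F i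
      = (∑ i ∈ (P j).R false, F i + ∑ i ∈ (P j).R true, F i)
        + (∑ i ∈ (P (j + 1)).L false, F i + ∑ i ∈ (P (j + 1)).L true, F i) := by
  rw [State.sum_blk _ X, sum_next_odd hper hP, sum_next_odd hper hP]
  abel

theorem mem_nextblk_even {i : ι} {j : ℤ} :
    i ∈ (S.next X k P).blk (k + 1) (2 * j) ↔ i ∈ S.mid X k j (P j) (X.lab i) := by
  rw [← mem_next_even hper hP, State.mem_blk, State.mem_bl]
  simp

theorem mem_nextblk_odd {i : ι} {j : ℤ} :
    i ∈ (S.next X k P).blk (k + 1) (2 * j + 1) ↔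
      i ∈ (P j).R (X.lab i) ∨ i ∈ (P (j + 1)).L (X.lab i) := by
  rw [← mem_next_odd hper hP, State.mem_blk, State.mem_bl]
  simp

omit hper hP

theorem two_pow_succ_eq (k : ℕ) (j : ℤ) : 2 * j + 2 ^ (k + 1) = 2 * (j + 2 ^ k) := by ring

theorem two_pow_succ_eq' (k : ℕ) (j : ℤ) : 2 * j + 1 + 2 ^ (k + 1) = 2 * (j + 2 ^ k) + 1 := by ring

theorem mid_per (hper : ∀ j, P (j + 2 ^ k) = P j) (j : ℤ) (γ : Bool) :
    S.mid X k (j + 2 ^ k) (P j) γ = S.mid X k j (P j) γ := by
  unfold State.mid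
  rw [State.bl_per]

theorem next_Q_per (hS : S.Good X c k) (hper : ∀ j, P (j + 2 ^ k) = P j) (j : ℤ) (p : Fin d) :
    (S.next X k P).Q (j + 2 ^ (k + 1)) p = (S.next X k P).Q j p := by
  obtain ⟨m, rfl | rfl⟩ := Int.even_or_odd' j
  · rw [two_pow_succ_eq, next_Q_even, next_Q_even, hS.Q_per, hper]
  · rw [two_pow_succ_eq', next_Q_odd, next_Q_odd, hper]
    have : m + 2 ^ k + 1 = m + 1 + 2 ^ k := by ring
    rw [this, hS.Q_per]

theorem next_yp_per (hper : ∀ j, P (j + 2 ^ k) = P j) (j : ℤ) (i : ι) :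
    (S.next X k P).yp (j + 2 ^ (k + 1)) i = (S.next X k P).yp j i := by
  obtain ⟨m, rfl | rfl⟩ := Int.even_or_odd' j
  · rw [two_pow_succ_eq, next_yp_even, next_yp_even, hper, mid_per hper]
  · rw [two_pow_succ_eq', next_yp_odd, next_yp_odd, hper]

theorem next_ym_per (hper : ∀ j, P (j + 2 ^ k) = P j) (j : ℤ) (i : ι) :
    (S.next X k P).ym (j + 2 ^ (k + 1)) i = (S.next X k P).ym j i := by
  obtain ⟨m, rfl | rfl⟩ := Int.even_or_odd' j
  · rw [two_pow_succ_eq, next_ym_even, next_ym_even, hper]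
  · rw [two_pow_succ_eq', next_ym_odd, next_ym_odd, hper, mid_per hper]

theorem next_Q_succ (hS : S.Good X c k) (hper : ∀ j, P (j + 2 ^ k) = P j)
    (hP : ∀ j, (P j).Good X c S k j) (j : ℤ) (p : Fin d) :
    (S.next X k P).Q (j + 1) p = (S.next X k P).Q j p
      + ∑ i ∈ (S.next X k P).blk (k + 1) j, X.v i p := by
  obtain ⟨m, rfl | rfl⟩ := Int.even_or_odd' j
  · rw [next_Q_odd, next_Q_even, sum_nextblk_even hper hP, hS.Q_succ]
    ring
  · have : 2 * m + 1 + 1 = 2 * (m + 1) := by ring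
    rw [this, next_Q_odd, next_Q_even, sum_nextblk_odd hper hP]
    ring

theorem next_yp_le (hP : ∀ j, (P j).Good X c S k j) (j : ℤ) (i : ι) :
    |(S.next X k P).yp j i| ≤ 1 / 32 := by
  obtain ⟨m, rfl | rfl⟩ := Int.even_or_odd' j
  · rw [next_yp_even]
    split_ifs
    · exact (hP m).w1C_le i
    · norm_num
  · rw [next_yp_odd]
    split_ifs
    · rw [abs_neg]; exact (hP m).w2R_le i
    · norm_num

theorem next_ym_le (hP : ∀ j, (P j).Good X c S k j) (j : ℤ) (i : ι) :
    |(S.next X k P).ym j i| ≤ 1 / 32 := by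
  obtain ⟨m, rfl | rfl⟩ := Int.even_or_odd' j
  · rw [next_ym_even]
    split_ifs
    · exact (hP m).w1L_le i
    · norm_num
  · rw [next_ym_odd]
    split_ifs
    · rw [abs_neg]; exact (hP m).w2C_le i
    · norm_num

end next

end

end Vale.Agent.Steinitz2
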