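import Vale.Agent.Lib.Steinitz2.LPiece
import Vale.Agent.Lib.Steinitz2.Mink

/-!
# P262 log-free bound, module TRANS: the transition class
-/

namespace Vale.Agent.Steinitz2

open Finset

variable {ι : Type} {d : ℕ}

theorem Ctx.mc_nonneg (X : Ctx ι d) (q : ℤ) : 0 ≤ X.mc q := Nat.cast_nonneg _

theorem Ctx.mc_zero_or (X : Ctx ι d) (q : ℤ) : X.cl q = ∅ ∨ 1 ≤ X.mc q := by
  rcases (X.cl q).eq_empty_or_nonempty with h | h
  · exact Or.inl h
  · right
    unfold Ctx.mc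
    exact_mod_cast Finset.card_pos.2 h

theorem Ctx.En_nonneg (X : Ctx ι d) (q : ℤ) (i : ι) : 0 ≤ X.En q i :=
  sum_nonneg fun _ _ => sq_nonneg _

section

variable [Fintype ι]

theorem Ctx.Good.En_le_one {X : Ctx ι d} {K0 : ℝ} (hX : X.Good K0) (q : ℤ) (i : ι) :
    X.En q i ≤ 1 :=
  (sum_le_sum_of_subset_of_nonneg (subset_univ _) fun _ _ _ => sq_nonneg _).trans (hX.norm_le i)

end

theorem Cst.Good.T_ge {c : Cst} {t0 : ℕ} (hc : c.Good t0) : (400 : ℝ) ≤ 2 ^ t0 := by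
  have h1 := hc.c6_ge
  have h2 := hc.k1_ge
  have h3 := hc.t0_ge
  nlinarith

/-- thresholds at the transition -/
theorem Ctx.thr_eq (X : Ctx ι d) (k n : ℕ) :
    X.thr k (k + X.t0 + n) = 2 * 2 ^ X.t0 * 2 ^ n * X.mc (k + X.t0 + n) := by
  unfold Ctx.thr
  have h : ((k : ℤ) + X.t0 + n) - k = ((X.t0 + n : ℕ) : ℤ) := by push_cast; ring
  rw [h, zpow_natCast, pow_add]
  ring

theorem Ctx.thr_succ_eq (X : Ctx ι d) (k n : ℕ) :
    X.thr (k + 1) (k + X.t0 + n) = 2 ^ X.t0 * 2 ^ n * X.mc (k + X.t0 + n) := by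
  unfold Ctx.thr
  have h : ((k : ℤ) + X.t0 + n) - (k + 1 : ℕ) = ((X.t0 + n : ℕ) : ℤ) - 1 := by push_cast; ring
  rw [h, zpow_sub₀ (by norm_num), zpow_natCast, pow_add, zpow_one]
  ring

variable [Fintype ι]

/-- trace bound for the classes with offset `n` -/
theorem State.Good.trace {S : State ι d} {X : Ctx ι d} {c : Cst} {k : ℕ} {K0 : ℝ}
    (hX : X.Good K0) (hc : c.Good X.t0) (h : S.Good X c k) (j : ℤ) (γ : Bool) (n : ℕ) :
    ∑ i ∈ S.bl X k j γ, X.En (k + X.t0 + n) i ≤ 2 * 2 ^ X.t0 * X.mc (k + X.t0 + n) * 2 ^ n := by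
  set q : ℤ := (k : ℤ) + X.t0 + n with hq
  set T : ℝ := 2 ^ X.t0 with hT
  have hT1 : (400 : ℝ) ≤ T := hc.T_ge
  have hm := X.mc_nonneg q
  set D : Fin d → ℝ := fun p => ∑ i ∈ S.bl X k j γ, X.v i p * X.v i p - X.a p / 2 ^ k / 2 with hD
  have h1 : ∑ p ∈ X.cl q, D p ^ 2 ≤ c.k1 ^ 2 * T * X.mc q * (9 / 4) ^ n := by
    refine le_trans (sum_le_sum fun p _ => ?_) (h.ev j γ n)
    have h2 := single_le_sum (f := fun l => (∑ i ∈ S.bl X k j γ, X.v i p * X.v i l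
      - if p = l then X.a p / 2 ^ k / 2 else 0) ^ 2) (fun _ _ => sq_nonneg _) (mem_univ p)
    simpa [hD] using h2
  have h2 : (∑ p ∈ X.cl q, D p) ^ 2 ≤ (X.mc q * T * (3 / 2) ^ n) ^ 2 := by
    have h3 : (∑ p ∈ X.cl q, D p) ^ 2 ≤ X.mc q * ∑ p ∈ X.cl q, D p ^ 2 :=
      sq_sum_le_card_mul_sum_sq
    have h4 : X.mc q * ∑ p ∈ X.cl q, D p ^ 2
        ≤ X.mc q * (c.k1 ^ 2 * T * X.mc q * (9 / 4) ^ n) := mul_le_mul_of_nonneg_left h1 hm
    have h5 : c.k1 ^ 2 * T ≤ T * T := mul_le_mul_of_nonneg_right hc.t0_ge (by positivity)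
    have h6 : (X.mc q * T * (3 / 2) ^ n) ^ 2 = X.mc q * X.mc q * (T * T) * (9 / 4) ^ n := by
      have : ((3 / 2 : ℝ) ^ n) ^ 2 = (9 / 4) ^ n := by
        rw [← pow_mul, mul_comm n 2, pow_mul]; norm_num
      rw [mul_pow, this]; ring
    rw [h6]
    refine h3.trans (h4.trans ?_)
    have h7 : X.mc q * (c.k1 ^ 2 * T * X.mc q * (9 / 4) ^ n)
        = (X.mc q * X.mc q * (9 / 4) ^ n) * (c.k1 ^ 2 * T) := by ring
    have h8 : X.mc q * X.mc q * (T * T) * (9 / 4) ^ n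
        = (X.mc q * X.mc q * (9 / 4) ^ n) * (T * T) := by ring
    rw [h7, h8]
    exact mul_le_mul_of_nonneg_left h5 (by positivity)
  have h3 : ∑ p ∈ X.cl q, D p ≤ X.mc q * T * (3 / 2) ^ n :=
    (abs_le_of_sq_le_sq' h2 (by positivity)).2
  have h4 : ∑ p ∈ X.cl q, X.a p / 2 ^ k / 2 ≤ X.mc q * (T * 2 ^ n) := by
    have h5 : ∀ p ∈ X.cl q, X.a p / 2 ^ k / 2 ≤ T * 2 ^ n := by
      intro p hp
      have hp' : X.cls p = q := (mem_filter.1 hp).2
      have h6 := (hX.lt_cls p).le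
      rw [hp'] at h6
      have h7 : (2 : ℝ) ^ (q + 1) = 2 ^ k * (T * 2 ^ n) * 2 := by
        have : q + 1 = ((k + X.t0 + n + 1 : ℕ) : ℤ) := by rw [hq]; push_cast; ring
        rw [this, zpow_natCast, pow_add, pow_add, pow_add, hT]
        ring
      rw [div_div, div_le_iff₀ (by positivity)]
      linarith
    calc ∑ p ∈ X.cl q, X.a p / 2 ^ k / 2 ≤ ∑ _p ∈ X.cl q, T * 2 ^ n := sum_le_sum h5
      _ = X.mc q * (T * 2 ^ n) := by rw [sum_const, nsmul_eq_mul]; rfl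
  have h5 : ∑ i ∈ S.bl X k j γ, X.En q i
      = ∑ p ∈ X.cl q, D p + ∑ p ∈ X.cl q, X.a p / 2 ^ k / 2 := by
    rw [← sum_add_distrib]
    unfold Ctx.En
    rw [sum_comm]
    refine sum_congr rfl fun p _ => ?_
    rw [hD]
    simp only [sub_add_cancel]
    exact sum_congr rfl fun i _ => by ring
  rw [h5]
  have h6 : ((3 : ℝ) / 2) ^ n ≤ 2 ^ n := pow_le_pow_left₀ (by norm_num) (by norm_num) n
  have h7 : X.mc q * T * (3 / 2) ^ n ≤ X.mc q * T * 2 ^ n :=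
    mul_le_mul_of_nonneg_left h6 (by positivity)
  linarith

private theorem sub_zero_cast (k t : ℕ) : (k : ℤ) + t - ((0 : ℕ) : ℤ) = k + t + ((0 : ℕ) : ℤ) := by
  simp

theorem State.Good.le0 {S : State ι d} {X : Ctx ι d} {c : Cst} {k : ℕ} {K0 : ℝ}
    (hX : X.Good K0) (hc : c.Good X.t0) (h : S.Good X c k) (j : ℤ) (γ : Bool) (s : ℕ) :
    ∑ i ∈ S.bl X k j γ with X.En (k + X.t0 - s) i ≤ X.thr k (k + X.t0 - s), X.En (k + X.t0 - s) i
      ≤ c.ke ^ 2 * 2 ^ X.t0 * X.mc (k + X.t0 - s) * (9 / 16) ^ s := by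
  rcases Nat.eq_zero_or_pos s with rfl | hs
  · rw [sub_zero_cast]
    have h1 := h.trace hX hc j γ 0
    have h2 : ∑ i ∈ S.bl X k j γ with X.En (k + X.t0 + (0 : ℕ)) i ≤ X.thr k (k + X.t0 + (0 : ℕ)),
        X.En (k + X.t0 + (0 : ℕ)) i ≤ ∑ i ∈ S.bl X k j γ, X.En (k + X.t0 + (0 : ℕ)) i :=
      sum_le_sum_of_subset_of_nonneg (filter_subset _ _) fun i _ _ => X.En_nonneg _ i
    refine h2.trans (h1.trans ?_)
    have hm := X.mc_nonneg (k + X.t0 + (0 : ℕ))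
    have hke : 2 ≤ c.ke ^ 2 := by
      have e1 := hc.c6_ge
      have e2 := hc.ke_ge
      nlinarith
    have : 0 ≤ (2 : ℝ) ^ X.t0 * X.mc (k + X.t0 + (0 : ℕ)) := by positivity
    rw [pow_zero, pow_zero, mul_one, mul_one, mul_assoc, mul_assoc]
    exact mul_le_mul_of_nonneg_right hke this
  · exact h.le j γ s hs

/-- at the transition class all elements are light, also at the next level -/
theorem Ctx.Good.light {X : Ctx ι d} {c : Cst} {K0 : ℝ} (hX : X.Good K0) (hc : c.Good X.t0)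
    (k : ℕ) (hm : 1 ≤ X.mc (k + X.t0 + (0 : ℕ))) (i : ι) :
    X.En (k + X.t0 + (0 : ℕ)) i ≤ X.thr (k + 1) (k + X.t0 + (0 : ℕ)) ∧
      X.En (k + X.t0 + (0 : ℕ)) i ≤ X.thr k (k + X.t0 + (0 : ℕ)) := by
  have h1 := hX.En_le_one (k + X.t0 + (0 : ℕ)) i
  have hT := hc.T_ge
  have h2 : (1 : ℝ) ≤ 2 ^ X.t0 * X.mc (k + X.t0 + (0 : ℕ)) := by
    nlinarith
  rw [X.thr_eq, X.thr_succ_eq, pow_zero]
  constructor
  · linarith
  · linarith

/-- size of the boundary vectors in the transition class -/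
theorem State.Good.Q_trans {S : State ι d} {X : Ctx ι d} {c : Cst} {k : ℕ} {K0 : ℝ}
    (hX : X.Good K0) (hc : c.Good X.t0) (h : S.Good X c k) (j : ℤ)
    (hm : 1 ≤ X.mc (k + X.t0 + (0 : ℕ))) :
    L2 (X.cl (k + X.t0 + (0 : ℕ))) (fun p => S.Q j p)
      ((21 * c.c6 + 3 * c.c6 * c.ke) * Real.sqrt (2 ^ X.t0 * X.mc (k + X.t0 + (0 : ℕ)))) ∧
    L2 (X.cl (k + X.t0 + (0 : ℕ))) (fun p => S.Q (j + 1) p)
      ((21 * c.c6 + 3 * c.c6 * c.ke) * Real.sqrt (2 ^ X.t0 * X.mc (k + X.t0 + (0 : ℕ)))) := by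
  set q : ℤ := (k : ℤ) + X.t0 + (0 : ℕ) with hq
  set T : ℝ := 2 ^ X.t0 with hT
  have hT1 : (400 : ℝ) ≤ T := hc.T_ge
  have hm0 := X.mc_nonneg q
  have hc6 := hc.c6_ge
  have hke := hc.ke_ge
  have hke0 : 0 ≤ c.ke := by linarith
  have hsq : Real.sqrt (T * X.mc q) ^ 2 = T * X.mc q := Real.sq_sqrt (by positivity)
  have hs0 : 0 ≤ Real.sqrt (T * X.mc q) := Real.sqrt_nonneg _
  have e81 : (c.c6 ^ 2 * (9 / 8) ^ (0 + 1) * (8 * c.ke ^ 2 * T * X.mc q * (9 / 16) ^ (0 + 1)))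
      ≤ (3 * c.c6 * c.ke * Real.sqrt (T * X.mc q)) ^ 2 := by
    rw [mul_pow, hsq]
    have : 0 ≤ c.c6 ^ 2 * c.ke ^ 2 * (T * X.mc q) := by positivity
    nlinarith
  have e21 : (21 * c.c6) ^ 2 * X.mc q * (400 / 441) ^ 0
      ≤ (21 * c.c6 * Real.sqrt (T * X.mc q)) ^ 2 := by
    have e : (21 * c.c6 * Real.sqrt (T * X.mc q)) ^ 2 = (21 * c.c6) ^ 2 * (T * X.mc q) := by
      rw [mul_pow, hsq]
    have e' : X.mc q ≤ T * X.mc q := by nlinarith
    have e'' := mul_le_mul_of_nonneg_left e' (sq_nonneg (21 * c.c6))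
    rw [e, pow_zero, mul_one]
    exact e''
  have rowsome : ∀ (p : Fin d), p ∈ X.cl q → ∀ i, X.row (k + 1) q (some p) i = X.v i p := by
    intro p hp i
    unfold Ctx.row
    simp only
    rw [if_pos ⟨(mem_filter.1 hp).2, (hX.light hc k hm i).1⟩]
  constructor
  · have a1 : L2 (X.cl q) (fun p => S.Q j p - ∑ i ∈ S.bl X k j true, S.yp j i * X.v i p)
        (21 * c.c6 * Real.sqrt (T * X.mc q)) :=
      L2.of_le (by positivity) (h.hip j 0) e21
    have a2 : L2 (X.cl q) (fun p => ∑ i ∈ S.bl X k j true, S.yp j i * X.v i p)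
        (3 * c.c6 * c.ke * Real.sqrt (T * X.mc q)) := by
      refine L2.of_le (by positivity) ?_ e81
      have hr := h.rwp j 0
      rw [sub_zero_cast] at hr
      refine le_trans ?_ hr
      rw [Fintype.sum_option]
      refine le_trans ?_ (le_add_of_nonneg_left (sq_nonneg _))
      calc ∑ p ∈ X.cl q, (∑ i ∈ S.bl X k j true, S.yp j i * X.v i p) ^ 2
          = ∑ p ∈ X.cl q, (∑ i ∈ S.bl X k j true, S.yp j i * X.row (k + 1) q (some p) i) ^ 2 := by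
            refine sum_congr rfl fun p hp => ?_
            congr 1
            exact sum_congr rfl fun i _ => by rw [rowsome p hp i]
        _ ≤ _ := sum_le_sum_of_subset_of_nonneg (subset_univ _) fun _ _ _ => sq_nonneg _
    refine ((a1.add a2).congr fun p _ => ?_).mono (le_of_eq (by ring))
    ring
  · have a1 : L2 (X.cl q) (fun p => S.Q (j + 1) p
        - ∑ i ∈ S.bl X k j true, S.ym (j + 1) i * X.v i p)
        (21 * c.c6 * Real.sqrt (T * X.mc q)) :=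
      L2.of_le (by positivity) (h.him j 0) e21
    have a2 : L2 (X.cl q) (fun p => ∑ i ∈ S.bl X k j true, S.ym (j + 1) i * X.v i p)
        (3 * c.c6 * c.ke * Real.sqrt (T * X.mc q)) := by
      refine L2.of_le (by positivity) ?_ e81
      have hr := h.rwm j 0
      rw [sub_zero_cast] at hr
      refine le_trans ?_ hr
      rw [Fintype.sum_option]
      refine le_trans ?_ (le_add_of_nonneg_left (sq_nonneg _))
      calc ∑ p ∈ X.cl q, (∑ i ∈ S.bl X k j true, S.ym (j + 1) i * X.v i p) ^ 2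
          = ∑ p ∈ X.cl q,
            (∑ i ∈ S.bl X k j true, S.ym (j + 1) i * X.row (k + 1) q (some p) i) ^ 2 := by
            refine sum_congr rfl fun p hp => ?_
            congr 1
            exact sum_congr rfl fun i _ => by rw [rowsome p hp i]
        _ ≤ _ := sum_le_sum_of_subset_of_nonneg (subset_univ _) fun _ _ _ => sq_nonneg _
    refine ((a1.add a2).congr fun p _ => ?_).mono (le_of_eq (by ring))
    ring

theorem State.Good.ls0 {S : State ι d} {X : Ctx ι d} {c : Cst} {k : ℕ} {K0 : ℝ}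
    (hX : X.Good K0) (hc : c.Good X.t0) (h : S.Good X c k) (j : ℤ) (s : ℕ) :
    ∑ p ∈ X.cl (k + X.t0 - s),
      (∑ i ∈ S.blk k j with X.En (k + X.t0 - s) i ≤ X.thr k (k + X.t0 - s), X.v i p) ^ 2
      ≤ c.ks ^ 2 * 2 ^ X.t0 * X.mc (k + X.t0 - s) * (16 / 25) ^ s := by
  rcases Nat.eq_zero_or_pos s with rfl | hs
  · rw [sub_zero_cast]
    set q : ℤ := (k : ℤ) + X.t0 + (0 : ℕ) with hq
    have hm0 := X.mc_nonneg q
    rcases X.mc_zero_or q with he | hm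
    · rw [he, sum_empty]
      positivity
    obtain ⟨a1, a2⟩ := h.Q_trans hX hc j hm
    have a3 := (a2.sub a1).congr (g := fun p => ∑ i ∈ S.blk k j with X.En q i ≤ X.thr k q, X.v i p)
      (fun p _ => by
        rw [h.Q_succ j p, filter_true_of_mem fun i _ => (hX.light hc k hm i).2]
        ring)
    refine a3.le.trans ?_
    have hc6 := hc.c6_ge
    have hke := hc.ke_ge
    have hks := hc.ks_ge
    have hke0 : 0 ≤ c.ke := by linarith
    have e1 : (21 * c.c6 + 3 * c.c6 * c.ke) * Real.sqrt (2 ^ X.t0 * X.mc q)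
        + (21 * c.c6 + 3 * c.c6 * c.ke) * Real.sqrt (2 ^ X.t0 * X.mc q)
        = (42 * c.c6 + 6 * c.c6 * c.ke) * Real.sqrt (2 ^ X.t0 * X.mc q) := by ring
    have e2 : 42 * c.c6 + 6 * c.c6 * c.ke ≤ c.ks := by
      have : 0 ≤ c.c6 * c.ke := by positivity
      nlinarith [sq_nonneg c.ke]
    rw [e1, mul_pow, Real.sq_sqrt (by positivity), pow_zero, mul_one, ← mul_assoc]
    have e3 : (42 * c.c6 + 6 * c.c6 * c.ke) ^ 2 ≤ c.ks ^ 2 :=
      pow_le_pow_left₀ (by positivity) e2 2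
    have e4 : 0 ≤ (2 : ℝ) ^ X.t0 * X.mc q := by positivity
    have := mul_le_mul_of_nonneg_right e3 e4
    linarith
  · exact h.ls j s hs

theorem State.Good.en0 {S : State ι d} {X : Ctx ι d} {c : Cst} {k : ℕ} {K0 : ℝ}
    (hX : X.Good K0) (hc : c.Good X.t0) (h : S.Good X c k) (j : ℤ) (s : ℕ)
    (A A' : Finset ι) (hA : A ⊆ S.blk k (j - 1)) (hA' : A' ⊆ S.blk k j)
    (hh : ∀ i ∈ A, X.thr k (k + X.t0 - s) < X.En (k + X.t0 - s) i)
    (hh' : ∀ i ∈ A', X.thr k (k + X.t0 - s) < X.En (k + X.t0 - s) i) :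
    ∑ p ∈ X.cl (k + X.t0 - s), (S.Q j p - ∑ i ∈ A, X.v i p + ∑ i ∈ A', X.v i p) ^ 2
      ≤ (c.cr * (6 - 5 * (4 / 5) ^ s)) ^ 2 * 2 ^ X.t0 * X.mc (k + X.t0 - s) := by
  rcases Nat.eq_zero_or_pos s with rfl | hs
  · rw [sub_zero_cast] at hh hh' ⊢
    set q : ℤ := (k : ℤ) + X.t0 + (0 : ℕ) with hq
    have hm0 := X.mc_nonneg q
    rcases X.mc_zero_or q with he | hm
    · rw [he, sum_empty]
      positivity
    have hAe : A = ∅ := by
      rw [Finset.eq_empty_iff_forall_notMem]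
      intro i hi
      exact absurd (hX.light hc k hm i).2 (not_le.2 (hh i hi))
    have hAe' : A' = ∅ := by
      rw [Finset.eq_empty_iff_forall_notMem]
      intro i hi
      exact absurd (hX.light hc k hm i).2 (not_le.2 (hh' i hi))
    obtain ⟨a1, -⟩ := h.Q_trans hX hc j hm
    have a3 := a1.congr (g := fun p => S.Q j p - ∑ i ∈ A, X.v i p + ∑ i ∈ A', X.v i p)
      (fun p _ => by rw [hAe, hAe', sum_empty]; ring)
    refine a3.le.trans ?_
    have hc6 := hc.c6_ge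
    have hke := hc.ke_ge
    have hks := hc.ks_ge
    have hcr := hc.cr_ge
    have hke0 : 0 ≤ c.ke := by linarith
    have e0 : 0 ≤ c.c6 * c.ke := by positivity
    have e2 : 21 * c.c6 + 3 * c.c6 * c.ke ≤ c.cr := by
      nlinarith [sq_nonneg c.ke]
    have e5 : c.cr * (6 - 5 * (4 / 5) ^ 0) = c.cr := by norm_num
    rw [e5, mul_pow, Real.sq_sqrt (by positivity), ← mul_assoc]
    have e3 : (21 * c.c6 + 3 * c.c6 * c.ke) ^ 2 ≤ c.cr ^ 2 :=
      pow_le_pow_left₀ (by positivity) e2 2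
    have e4 : 0 ≤ (2 : ℝ) ^ X.t0 * X.mc q := by positivity
    have := mul_le_mul_of_nonneg_right e3 e4
    linarith
  · exact h.en j s hs A A' hA hA' hh hh'

end Vale.Agent.Steinitz2
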