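import Mathlib
import Vale.Agent.Lib.Steinitz2.NextA
import Vale.Agent.Lib.Steinitz2.Mink
import Vale.Agent.Lib.Steinitz2.Trans

/-!
# P262 log-free bound, module ASSEMBLE, part B: linear combinations and the high classes
-/

namespace Vale.Agent.Steinitz2

open Finset

set_option linter.unusedSectionVars false

theorem sqA (A μ r : ℝ) (n : ℕ) (hμ : 0 ≤ μ) :
    (A * Real.sqrt μ * r ^ n) ^ 2 = A ^ 2 * μ * (r ^ 2) ^ n := by
  rw [mul_pow, mul_pow, Real.sq_sqrt hμ, ← pow_mul, mul_comm n 2, pow_mul]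

section

variable {ι : Type} {d : ℕ} [Fintype ι] [DecidableEq ι]
variable {S : State ι d} {X : Ctx ι d} {k : ℕ} {P : ℤ → Piece ι} {c : Cst}

section lin

variable {β : Type*} {Sx : Finset β} {F : β → ι → ℝ} {A e : ℝ}

omit [DecidableEq ι] in
theorem fL_lin {j : ℤ} (hp : L2 Sx (fun x => ∑ i ∈ S.bl X k j true, S.yp j i * F x i) A)
    (hm : L2 Sx (fun x => ∑ i ∈ S.bl X k j true, S.ym (j + 1) i * F x i) A) (γ : Bool) :
    L2 Sx (fun x => ∑ i ∈ S.bl X k j γ, S.fL j γ i * F x i - 1 / 4 * ∑ i ∈ S.bl X k j γ, F x i)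
      A := by
  cases γ with
  | false =>
    refine (L2.zero hp.nonneg).congr fun x _ => ?_
    simp only [State.fL, Bool.false_eq_true, if_false]
    rw [← mul_sum]; ring
  | true =>
    have h := (hp.smul (-(3 / 4))).add (hm.smul (-(1 / 4)))
    have h2 : |(-(3 / 4) : ℝ)| * A + |(-(1 / 4) : ℝ)| * A = A := by
      rw [abs_neg, abs_neg, abs_of_pos (by norm_num), abs_of_pos (by norm_num)]; ring
    rw [h2] at h
    refine h.congr fun x _ => ?_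
    simp only [State.fL, if_true]
    rw [mul_sum, mul_sum, mul_sum, ← sum_sub_distrib, ← sum_add_distrib]
    exact sum_congr rfl fun i _ => by ring

omit [DecidableEq ι] in
theorem fR_lin {j : ℤ} (hp : L2 Sx (fun x => ∑ i ∈ S.bl X k j true, S.yp j i * F x i) A)
    (hm : L2 Sx (fun x => ∑ i ∈ S.bl X k j true, S.ym (j + 1) i * F x i) A) (γ : Bool) :
    L2 Sx (fun x => ∑ i ∈ S.bl X k j γ, S.fR j γ i * F x i - 1 / 4 * ∑ i ∈ S.bl X k j γ, F x i)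
      A := by
  cases γ with
  | false =>
    refine (L2.zero hp.nonneg).congr fun x _ => ?_
    simp only [State.fR, Bool.false_eq_true, if_false]
    rw [← mul_sum]; ring
  | true =>
    have h := (hp.smul (1 / 4)).add (hm.smul (3 / 4))
    have h2 : |(1 / 4 : ℝ)| * A + |(3 / 4 : ℝ)| * A = A := by
      rw [abs_of_pos (by norm_num), abs_of_pos (by norm_num)]; ring
    rw [h2] at h
    refine h.congr fun x _ => ?_
    simp only [State.fR, if_true]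
    rw [mul_sum, mul_sum, mul_sum, ← sum_sub_distrib, ← sum_add_distrib]
    exact sum_congr rfl fun i _ => by ring

omit [DecidableEq ι] in
theorem fLR_lin {j : ℤ} (hp : L2 Sx (fun x => ∑ i ∈ S.bl X k j true, S.yp j i * F x i) A)
    (hm : L2 Sx (fun x => ∑ i ∈ S.bl X k j true, S.ym (j + 1) i * F x i) A) (γ : Bool) :
    L2 Sx (fun x => ∑ i ∈ S.bl X k j γ, S.fL j γ i * F x i + ∑ i ∈ S.bl X k j γ, S.fR j γ i * F x i
      - 1 / 2 * ∑ i ∈ S.bl X k j γ, F x i) A := by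
  cases γ with
  | false =>
    refine (L2.zero hp.nonneg).congr fun x _ => ?_
    simp only [State.fR, State.fL, Bool.false_eq_true, if_false]
    rw [← mul_sum]; ring
  | true =>
    have h := (hp.smul (-(1 / 2))).add (hm.smul (1 / 2))
    have h2 : |(-(1 / 2) : ℝ)| * A + |(1 / 2 : ℝ)| * A = A := by
      rw [abs_neg, abs_of_pos (by norm_num)]; ring
    rw [h2] at h
    refine h.congr fun x _ => ?_
    simp only [State.fR, State.fL, if_true]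
    rw [mul_sum, mul_sum, mul_sum, ← sum_add_distrib, ← sum_add_distrib, ← sum_sub_distrib]
    exact sum_congr rfl fun i _ => by ring

variable (hper : ∀ j, P (j + 2 ^ k) = P j) (hP : ∀ j, (P j).Good X c S k j)

/-- the left piece -/
theorem L_lin {j : ℤ} {γ : Bool}
    (hp : L2 Sx (fun x => ∑ i ∈ S.bl X k j true, S.yp j i * F x i) A)
    (hm : L2 Sx (fun x => ∑ i ∈ S.bl X k j true, S.ym (j + 1) i * F x i) A)
    (hL : L2 Sx (fun x => ∑ i ∈ (P j).L γ, F x i - ∑ i ∈ S.bl X k j γ, S.fL j γ i * F x i) e) :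
    L2 Sx (fun x => ∑ i ∈ (P j).L γ, F x i - 1 / 4 * ∑ i ∈ S.bl X k j γ, F x i) (A + e) :=
  ((fL_lin hp hm γ).add hL).congr fun x _ => by ring

theorem R_lin {j : ℤ} {γ : Bool}
    (hp : L2 Sx (fun x => ∑ i ∈ S.bl X k j true, S.yp j i * F x i) A)
    (hm : L2 Sx (fun x => ∑ i ∈ S.bl X k j true, S.ym (j + 1) i * F x i) A)
    (hR : L2 Sx (fun x => ∑ i ∈ (P j).R γ, F x i - ∑ i ∈ S.bl X k j γ, S.fR j γ i * F x i) e) :
    L2 Sx (fun x => ∑ i ∈ (P j).R γ, F x i - 1 / 4 * ∑ i ∈ S.bl X k j γ, F x i) (A + e) :=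
  ((fR_lin hp hm γ).add hR).congr fun x _ => by ring

include hper hP

theorem C_lin {j : ℤ} {γ : Bool}
    (hp : L2 Sx (fun x => ∑ i ∈ S.bl X k j true, S.yp j i * F x i) A)
    (hm : L2 Sx (fun x => ∑ i ∈ S.bl X k j true, S.ym (j + 1) i * F x i) A)
    (hL : L2 Sx (fun x => ∑ i ∈ (P j).L γ, F x i - ∑ i ∈ S.bl X k j γ, S.fL j γ i * F x i) e)
    (hR : L2 Sx (fun x => ∑ i ∈ (P j).R γ, F x i - ∑ i ∈ S.bl X k j γ, S.fR j γ i * F x i) e) :
    L2 Sx (fun x => ∑ i ∈ (S.next X k P).bl X (k + 1) (2 * j) γ, F x i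
      - 1 / 2 * ∑ i ∈ S.bl X k j γ, F x i) (A + 2 * e) := by
  have h := ((fLR_lin hp hm γ).neg.sub hL).sub hR
  have h2 : A + e + e = A + 2 * e := by ring
  rw [h2] at h
  refine h.congr fun x _ => ?_
  rw [sum_next_even hper hP]
  ring

theorem D_lin {j : ℤ} {γ : Bool}
    (hp : L2 Sx (fun x => ∑ i ∈ S.bl X k j true, S.yp j i * F x i) A)
    (hm : L2 Sx (fun x => ∑ i ∈ S.bl X k j true, S.ym (j + 1) i * F x i) A)
    (hp' : L2 Sx (fun x => ∑ i ∈ S.bl X k (j + 1) true, S.yp (j + 1) i * F x i) A)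
    (hm' : L2 Sx (fun x => ∑ i ∈ S.bl X k (j + 1) true, S.ym (j + 1 + 1) i * F x i) A)
    (hR : L2 Sx (fun x => ∑ i ∈ (P j).R γ, F x i - ∑ i ∈ S.bl X k j γ, S.fR j γ i * F x i) e)
    (hL : L2 Sx (fun x => ∑ i ∈ (P (j + 1)).L γ, F x i
      - ∑ i ∈ S.bl X k (j + 1) γ, S.fL (j + 1) γ i * F x i) e) :
    L2 Sx (fun x => ∑ i ∈ (S.next X k P).bl X (k + 1) (2 * j + 1) γ, F x i
      - (1 / 4 * ∑ i ∈ S.bl X k j γ, F x i + 1 / 4 * ∑ i ∈ S.bl X k (j + 1) γ, F x i))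
      (2 * A + 2 * e) := by
  have h := (R_lin hp hm hR).add (L_lin hp' hm' hL)
  have h2 : A + e + (A + e) = 2 * A + 2 * e := by ring
  rw [h2] at h
  refine h.congr fun x _ => ?_
  rw [sum_next_odd hper hP]
  ring

end lin

section cert

variable (hper : ∀ j, P (j + 2 ^ k) = P j) (hP : ∀ j, (P j).Good X c S k j)
include hper hP

theorem sum_yp_even (j : ℤ) (F : ι → ℝ) :
    ∑ i ∈ (S.next X k P).bl X (k + 1) (2 * j) true, (S.next X k P).yp (2 * j) i * F i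
      = ∑ i ∈ S.mid X k j (P j) true, (P j).w1C i * F i := by
  rw [bl_next_even hper hP]
  refine sum_congr rfl fun i hi => ?_
  rw [next_yp_even, if_pos hi]

theorem sum_yp_odd (j : ℤ) (F : ι → ℝ) :
    ∑ i ∈ (S.next X k P).bl X (k + 1) (2 * j + 1) true, (S.next X k P).yp (2 * j + 1) i * F i
      = - ∑ i ∈ (P j).R true, (P j).w2R i * F i := by
  rw [bl_next_odd hper hP, sum_union (disj_RL hper hP j true)]
  have h1 : ∑ i ∈ (P (j + 1)).L true, (S.next X k P).yp (2 * j + 1) i * F i = 0 := by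
    refine sum_eq_zero fun i hi => ?_
    rw [next_yp_odd, if_neg (disjoint_right.1 (disj_RL hper hP j true) hi), zero_mul]
  rw [h1, add_zero, ← sum_neg_distrib]
  refine sum_congr rfl fun i hi => ?_
  rw [next_yp_odd, if_pos hi]
  ring

theorem sum_ym_even (j : ℤ) (F : ι → ℝ) :
    ∑ i ∈ (S.next X k P).bl X (k + 1) (2 * j) true, (S.next X k P).ym (2 * j + 1) i * F i
      = - ∑ i ∈ S.mid X k j (P j) true, (P j).w2C i * F i := by
  rw [bl_next_even hper hP, ← sum_neg_distrib]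
  refine sum_congr rfl fun i hi => ?_
  rw [next_ym_odd, if_pos hi]
  ring

theorem sum_ym_odd (j : ℤ) (F : ι → ℝ) :
    ∑ i ∈ (S.next X k P).bl X (k + 1) (2 * j + 1) true, (S.next X k P).ym (2 * j + 1 + 1) i * F i
      = ∑ i ∈ (P (j + 1)).L true, (P (j + 1)).w1L i * F i := by
  have h0 : 2 * j + 1 + 1 = 2 * (j + 1) := by ring
  rw [h0, bl_next_odd hper hP, sum_union (disj_RL hper hP j true)]
  have h1 : ∑ i ∈ (P j).R true, (S.next X k P).ym (2 * (j + 1)) i * F i = 0 := by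
    refine sum_eq_zero fun i hi => ?_
    rw [next_ym_even, if_neg (disjoint_left.1 (disj_RL hper hP j true) hi), zero_mul]
  rw [h1, zero_add]
  refine sum_congr rfl fun i hi => ?_
  rw [next_ym_even, if_pos hi]

theorem next_ctp (j : ℤ) (n : ℕ) : ∑ p ∈ X.cl ((k + 1 : ℕ) + X.t0 + n), ∑ l,
    (∑ i ∈ (S.next X k P).bl X (k + 1) j true,
      (S.next X k P).yp j i * (X.v i p * X.v i l)) ^ 2
      ≤ c.c6 ^ 2 * 2 ^ X.t0 * X.mc ((k + 1 : ℕ) + X.t0 + n) * (9 / 4) ^ n := by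
  obtain ⟨m, rfl | rfl⟩ := Int.even_or_odd' j
  · have h := (hP m).ct1C n
    refine le_of_eq_of_le (sum_congr rfl fun p _ => sum_congr rfl fun l _ => ?_) h
    rw [sum_yp_even hper hP]
  · have h := (hP m).ct2R n
    refine le_of_eq_of_le (sum_congr rfl fun p _ => sum_congr rfl fun l _ => ?_) h
    rw [sum_yp_odd hper hP, neg_sq]

theorem next_ctm (j : ℤ) (n : ℕ) : ∑ p ∈ X.cl ((k + 1 : ℕ) + X.t0 + n), ∑ l,
    (∑ i ∈ (S.next X k P).bl X (k + 1) j true,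
      (S.next X k P).ym (j + 1) i * (X.v i p * X.v i l)) ^ 2
      ≤ c.c6 ^ 2 * 2 ^ X.t0 * X.mc ((k + 1 : ℕ) + X.t0 + n) * (9 / 4) ^ n := by
  obtain ⟨m, rfl | rfl⟩ := Int.even_or_odd' j
  · have h := (hP m).ct2C n
    refine le_of_eq_of_le (sum_congr rfl fun p _ => sum_congr rfl fun l _ => ?_) h
    rw [sum_ym_even hper hP, neg_sq]
  · have h := (hP (m + 1)).ct1L n
    refine le_of_eq_of_le (sum_congr rfl fun p _ => sum_congr rfl fun l _ => ?_) h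
    rw [sum_ym_odd hper hP]

theorem next_rwp (j : ℤ) (s : ℕ) : ∑ r,
    (∑ i ∈ (S.next X k P).bl X (k + 1) j true,
      (S.next X k P).yp j i * X.row (k + 1 + 1) ((k + 1 : ℕ) + X.t0 - s) r i) ^ 2
      ≤ c.c6 ^ 2 * (9 / 8) ^ (s + 1)
        * (8 * c.ke ^ 2 * 2 ^ X.t0 * X.mc ((k + 1 : ℕ) + X.t0 - s) * (9 / 16) ^ (s + 1)) := by
  obtain ⟨m, rfl | rfl⟩ := Int.even_or_odd' j
  · have h := (hP m).cr1C s
    refine le_of_eq_of_le (sum_congr rfl fun r _ => ?_) h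
    rw [sum_yp_even hper hP]
  · have h := (hP m).cr2R s
    refine le_of_eq_of_le (sum_congr rfl fun r _ => ?_) h
    rw [sum_yp_odd hper hP, neg_sq]

theorem next_rwm (j : ℤ) (s : ℕ) : ∑ r,
    (∑ i ∈ (S.next X k P).bl X (k + 1) j true,
      (S.next X k P).ym (j + 1) i * X.row (k + 1 + 1) ((k + 1 : ℕ) + X.t0 - s) r i) ^ 2
      ≤ c.c6 ^ 2 * (9 / 8) ^ (s + 1)
        * (8 * c.ke ^ 2 * 2 ^ X.t0 * X.mc ((k + 1 : ℕ) + X.t0 - s) * (9 / 16) ^ (s + 1)) := by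
  obtain ⟨m, rfl | rfl⟩ := Int.even_or_odd' j
  · have h := (hP m).cr2C s
    refine le_of_eq_of_le (sum_congr rfl fun r _ => ?_) h
    rw [sum_ym_even hper hP, neg_sq]
  · have h := (hP (m + 1)).cr1L s
    refine le_of_eq_of_le (sum_congr rfl fun r _ => ?_) h
    rw [sum_ym_odd hper hP]

end cert

/-! ### the high classes at level `k`, seen from level `k + 1` -/

theorem cast_high (k t0 n : ℕ) : ((k + 1 : ℕ) : ℤ) + t0 + n = (k : ℤ) + t0 + (n + 1 : ℕ) := by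
  push_cast; ring

section high

variable (hc : c.Good X.t0) (hS : S.Good X c k)
include hc hS

theorem hip_L2 (j : ℤ) (n : ℕ) : L2 (X.cl ((k + 1 : ℕ) + X.t0 + n))
    (fun p => S.Q j p - ∑ i ∈ S.bl X k j true, S.yp j i * X.v i p)
    (20 * c.c6 * Real.sqrt (X.mc ((k + 1 : ℕ) + X.t0 + n)) * (20 / 21) ^ n) := by
  have h0 := hc.c6_ge
  have hm := X.mc_nonneg ((k + 1 : ℕ) + X.t0 + n)
  refine ⟨by positivity, ?_⟩
  have h := hS.hip j (n + 1)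
  rw [← cast_high] at h
  refine h.trans (le_of_eq ?_)
  rw [sqA _ _ _ _ hm]
  have e1 : ((20 / 21 : ℝ) ^ 2) = 400 / 441 := by norm_num
  rw [e1, pow_succ]
  ring

theorem him_L2 (j : ℤ) (n : ℕ) : L2 (X.cl ((k + 1 : ℕ) + X.t0 + n))
    (fun p => S.Q (j + 1) p - ∑ i ∈ S.bl X k j true, S.ym (j + 1) i * X.v i p)
    (20 * c.c6 * Real.sqrt (X.mc ((k + 1 : ℕ) + X.t0 + n)) * (20 / 21) ^ n) := by
  have h0 := hc.c6_ge
  have hm := X.mc_nonneg ((k + 1 : ℕ) + X.t0 + n)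
  refine ⟨by positivity, ?_⟩
  have h := hS.him j (n + 1)
  rw [← cast_high] at h
  refine h.trans (le_of_eq ?_)
  rw [sqA _ _ _ _ hm]
  have e1 : ((20 / 21 : ℝ) ^ 2) = 400 / 441 := by norm_num
  rw [e1, pow_succ]
  ring

theorem ev_L2 (j : ℤ) (γ : Bool) (n : ℕ) :
    L2 (X.cl ((k + 1 : ℕ) + X.t0 + n) ×ˢ (univ : Finset (Fin d)))
    (fun x => ∑ i ∈ S.bl X k j γ, X.v i x.1 * X.v i x.2
      - if x.1 = x.2 then X.a x.1 / 2 ^ k / 2 else 0)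
    (3 / 2 * c.k1 * Real.sqrt (2 ^ X.t0 * X.mc ((k + 1 : ℕ) + X.t0 + n)) * (3 / 2) ^ n) := by
  have h0 := hc.c6_ge
  have h1 := hc.k1_ge
  have hk : 0 ≤ c.k1 := by linarith
  have hm := X.mc_nonneg ((k + 1 : ℕ) + X.t0 + n)
  refine (L2.prod (F := fun p l => ∑ i ∈ S.bl X k j γ, X.v i p * X.v i l
      - if p = l then X.a p / 2 ^ k / 2 else 0)).2 ⟨by positivity, ?_⟩
  have h := hS.ev j γ (n + 1)
  rw [← cast_high] at h
  refine h.trans (le_of_eq ?_)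
  rw [sqA _ _ _ _ (by positivity)]
  have e1 : ((3 / 2 : ℝ) ^ 2) = 9 / 4 := by norm_num
  rw [e1, pow_succ]
  ring

theorem ctp_L2 (j : ℤ) (n : ℕ) :
    L2 (X.cl ((k + 1 : ℕ) + X.t0 + n) ×ˢ (univ : Finset (Fin d)))
    (fun x => ∑ i ∈ S.bl X k j true, S.yp j i * (X.v i x.1 * X.v i x.2))
    (3 / 2 * c.c6 * Real.sqrt (2 ^ X.t0 * X.mc ((k + 1 : ℕ) + X.t0 + n)) * (3 / 2) ^ n) := by
  have h0 := hc.c6_ge
  have hm := X.mc_nonneg ((k + 1 : ℕ) + X.t0 + n)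
  refine (L2.prod (F := fun p l => ∑ i ∈ S.bl X k j true, S.yp j i * (X.v i p * X.v i l))).2
    ⟨by positivity, ?_⟩
  have h := hS.ctp j (n + 1)
  rw [← cast_high] at h
  refine h.trans (le_of_eq ?_)
  rw [sqA _ _ _ _ (by positivity)]
  have e1 : ((3 / 2 : ℝ) ^ 2) = 9 / 4 := by norm_num
  rw [e1, pow_succ]
  ring

theorem ctm_L2 (j : ℤ) (n : ℕ) :
    L2 (X.cl ((k + 1 : ℕ) + X.t0 + n) ×ˢ (univ : Finset (Fin d)))
    (fun x => ∑ i ∈ S.bl X k j true, S.ym (j + 1) i * (X.v i x.1 * X.v i x.2))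
    (3 / 2 * c.c6 * Real.sqrt (2 ^ X.t0 * X.mc ((k + 1 : ℕ) + X.t0 + n)) * (3 / 2) ^ n) := by
  have h0 := hc.c6_ge
  have hm := X.mc_nonneg ((k + 1 : ℕ) + X.t0 + n)
  refine (L2.prod (F := fun p l => ∑ i ∈ S.bl X k j true, S.ym (j + 1) i * (X.v i p * X.v i l))).2
    ⟨by positivity, ?_⟩
  have h := hS.ctm j (n + 1)
  rw [← cast_high] at h
  refine h.trans (le_of_eq ?_)
  rw [sqA _ _ _ _ (by positivity)]
  have e1 : ((3 / 2 : ℝ) ^ 2) = 9 / 4 := by norm_num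
  rw [e1, pow_succ]
  ring

omit hS in
theorem evL_L2 {P : Piece ι} {j : ℤ} (hP : P.Good X c S k j) (γ : Bool) (n : ℕ) :
    L2 (X.cl ((k + 1 : ℕ) + X.t0 + n) ×ˢ (univ : Finset (Fin d)))
    (fun x => ∑ i ∈ P.L γ, X.v i x.1 * X.v i x.2
      - ∑ i ∈ S.bl X k j γ, S.fL j γ i * (X.v i x.1 * X.v i x.2))
    (c.c6 * Real.sqrt (2 ^ X.t0 * X.mc ((k + 1 : ℕ) + X.t0 + n)) * (3 / 2) ^ n) := by
  have h0 := hc.c6_ge
  have hm := X.mc_nonneg ((k + 1 : ℕ) + X.t0 + n)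
  refine (L2.prod (F := fun p l => ∑ i ∈ P.L γ, X.v i p * X.v i l
      - ∑ i ∈ S.bl X k j γ, S.fL j γ i * (X.v i p * X.v i l))).2 ⟨by positivity, ?_⟩
  refine (hP.evL γ n).trans (le_of_eq ?_)
  rw [sqA _ _ _ _ (by positivity)]
  have e1 : ((3 / 2 : ℝ) ^ 2) = 9 / 4 := by norm_num
  rw [e1]
  ring

omit hS in
theorem evR_L2 {P : Piece ι} {j : ℤ} (hP : P.Good X c S k j) (γ : Bool) (n : ℕ) :
    L2 (X.cl ((k + 1 : ℕ) + X.t0 + n) ×ˢ (univ : Finset (Fin d)))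
    (fun x => ∑ i ∈ P.R γ, X.v i x.1 * X.v i x.2
      - ∑ i ∈ S.bl X k j γ, S.fR j γ i * (X.v i x.1 * X.v i x.2))
    (c.c6 * Real.sqrt (2 ^ X.t0 * X.mc ((k + 1 : ℕ) + X.t0 + n)) * (3 / 2) ^ n) := by
  have h0 := hc.c6_ge
  have hm := X.mc_nonneg ((k + 1 : ℕ) + X.t0 + n)
  refine (L2.prod (F := fun p l => ∑ i ∈ P.R γ, X.v i p * X.v i l
      - ∑ i ∈ S.bl X k j γ, S.fR j γ i * (X.v i p * X.v i l))).2 ⟨by positivity, ?_⟩
  refine (hP.evR γ n).trans (le_of_eq ?_)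
  rw [sqA _ _ _ _ (by positivity)]
  have e1 : ((3 / 2 : ℝ) ^ 2) = 9 / 4 := by norm_num
  rw [e1]
  ring

theorem next_ev (hper : ∀ j, P (j + 2 ^ k) = P j) (hP : ∀ j, (P j).Good X c S k j)
    (j : ℤ) (γ : Bool) (n : ℕ) : ∑ p ∈ X.cl ((k + 1 : ℕ) + X.t0 + n), ∑ l,
    (∑ i ∈ (S.next X k P).bl X (k + 1) j γ, X.v i p * X.v i l
      - if p = l then X.a p / 2 ^ (k + 1) / 2 else 0) ^ 2
      ≤ c.k1 ^ 2 * 2 ^ X.t0 * X.mc ((k + 1 : ℕ) + X.t0 + n) * (9 / 4) ^ n := by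
  have h0 := hc.c6_ge
  have h1 := hc.k1_ge
  have hk : 0 ≤ c.k1 := by linarith
  have hm := X.mc_nonneg ((k + 1 : ℕ) + X.t0 + n)
  have hfin : c.k1 ^ 2 * 2 ^ X.t0 * X.mc ((k + 1 : ℕ) + X.t0 + n) * (9 / 4) ^ n
      = (c.k1 * Real.sqrt (2 ^ X.t0 * X.mc ((k + 1 : ℕ) + X.t0 + n)) * (3 / 2) ^ n) ^ 2 := by
    rw [sqA _ _ _ _ (by positivity)]
    have e1 : ((3 / 2 : ℝ) ^ 2) = 9 / 4 := by norm_num
    rw [e1]
    ring
  rw [hfin]
  set u : ℝ := Real.sqrt (2 ^ X.t0 * X.mc ((k + 1 : ℕ) + X.t0 + n)) * (3 / 2) ^ n with hu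
  have hu0 : 0 ≤ u := by positivity
  suffices h : L2 (X.cl ((k + 1 : ℕ) + X.t0 + n) ×ˢ (univ : Finset (Fin d)))
      (fun x => ∑ i ∈ (S.next X k P).bl X (k + 1) j γ, X.v i x.1 * X.v i x.2
        - if x.1 = x.2 then X.a x.1 / 2 ^ (k + 1) / 2 else 0)
      (c.k1 * Real.sqrt (2 ^ X.t0 * X.mc ((k + 1 : ℕ) + X.t0 + n)) * (3 / 2) ^ n) from
    ((L2.prod (F := fun p l => ∑ i ∈ (S.next X k P).bl X (k + 1) j γ, X.v i p * X.v i l
        - if p = l then X.a p / 2 ^ (k + 1) / 2 else 0)).1 h).2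
  obtain ⟨m, rfl | rfl⟩ := Int.even_or_odd' j
  · have hC := C_lin (F := fun (x : Fin d × Fin d) i => X.v i x.1 * X.v i x.2) (γ := γ) hper hP
      (ctp_L2 hc hS m n) (ctm_L2 hc hS m n) (evL_L2 hc (hP m) γ n) (evR_L2 hc (hP m) γ n)
    have hB := (ev_L2 hc hS m γ n).smul (1 / 2)
    refine ((hC.add hB).congr fun x _ => ?_).mono ?_
    · rw [pow_succ]
      split_ifs <;> ring
    · rw [abs_of_pos (by norm_num : (0 : ℝ) < 1 / 2)]
      have e1 : 3 / 2 * c.c6 * Real.sqrt (2 ^ X.t0 * X.mc ((k + 1 : ℕ) + X.t0 + n)) * (3 / 2) ^ n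
          + 2 * (c.c6 * Real.sqrt (2 ^ X.t0 * X.mc ((k + 1 : ℕ) + X.t0 + n)) * (3 / 2) ^ n)
          + 1 / 2 * (3 / 2 * c.k1 * Real.sqrt (2 ^ X.t0 * X.mc ((k + 1 : ℕ) + X.t0 + n))
            * (3 / 2) ^ n) = (7 / 2 * c.c6 + 3 / 4 * c.k1) * u := by rw [hu]; ring
      have e2 : c.k1 * Real.sqrt (2 ^ X.t0 * X.mc ((k + 1 : ℕ) + X.t0 + n)) * (3 / 2) ^ n
          = c.k1 * u := by rw [hu]; ring
      rw [e1, e2]
      exact mul_le_mul_of_nonneg_right (by linarith) hu0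
  · have hD := D_lin (F := fun (x : Fin d × Fin d) i => X.v i x.1 * X.v i x.2) (γ := γ) hper hP
      (ctp_L2 hc hS m n) (ctm_L2 hc hS m n) (ctp_L2 hc hS (m + 1) n) (ctm_L2 hc hS (m + 1) n)
      (evR_L2 hc (hP m) γ n) (evL_L2 hc (hP (m + 1)) γ n)
    have hB := ((ev_L2 hc hS m γ n).smul (1 / 4)).add ((ev_L2 hc hS (m + 1) γ n).smul (1 / 4))
    refine ((hD.add hB).congr fun x _ => ?_).mono ?_
    · rw [pow_succ]
      split_ifs <;> ring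
    · rw [abs_of_pos (by norm_num : (0 : ℝ) < 1 / 4)]
      have e1 : 2 * (3 / 2 * c.c6 * Real.sqrt (2 ^ X.t0 * X.mc ((k + 1 : ℕ) + X.t0 + n))
            * (3 / 2) ^ n)
          + 2 * (c.c6 * Real.sqrt (2 ^ X.t0 * X.mc ((k + 1 : ℕ) + X.t0 + n)) * (3 / 2) ^ n)
          + (1 / 4 * (3 / 2 * c.k1 * Real.sqrt (2 ^ X.t0 * X.mc ((k + 1 : ℕ) + X.t0 + n))
            * (3 / 2) ^ n)
          + 1 / 4 * (3 / 2 * c.k1 * Real.sqrt (2 ^ X.t0 * X.mc ((k + 1 : ℕ) + X.t0 + n))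
            * (3 / 2) ^ n)) = (5 * c.c6 + 3 / 4 * c.k1) * u := by rw [hu]; ring
      have e2 : c.k1 * Real.sqrt (2 ^ X.t0 * X.mc ((k + 1 : ℕ) + X.t0 + n)) * (3 / 2) ^ n
          = c.k1 * u := by rw [hu]; ring
      rw [e1, e2]
      exact mul_le_mul_of_nonneg_right (by linarith) hu0

omit hS in
theorem cert_c6 {q : ℤ} {n : ℕ} {f : Fin d → ℝ}
    (h : ∑ p ∈ X.cl q, f p ^ 2 ≤ c.c6 ^ 2 * X.mc q * (400 / 441) ^ n) :
    L2 (X.cl q) f (c.c6 * Real.sqrt (X.mc q) * (20 / 21) ^ n) := by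
  have h0 := hc.c6_ge
  have hm := X.mc_nonneg q
  refine ⟨by positivity, h.trans (le_of_eq ?_)⟩
  rw [sqA _ _ _ _ hm]
  have e1 : ((20 / 21 : ℝ) ^ 2) = 400 / 441 := by norm_num
  rw [e1]

/-- the position of the left new boundary -/
theorem N1_eq (j : ℤ) (p : Fin d) (A B : ℝ) :
    S.Q j p + A - B
      = (3 / 4 * (S.Q j p - ∑ i ∈ S.bl X k j true, S.yp j i * X.v i p)
        + 1 / 4 * (S.Q (j + 1) p - ∑ i ∈ S.bl X k j true, S.ym (j + 1) i * X.v i p))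
        + (A - ∑ i ∈ S.bl X k j false, S.fL j false i * X.v i p
          - ∑ i ∈ S.bl X k j true, S.fL j true i * X.v i p - B) := by
  have h1 := hS.Q_succ j p
  rw [State.sum_blk S X] at h1
  have h2 : ∑ i ∈ S.bl X k j false, S.fL j false i * X.v i p
      = 1 / 4 * ∑ i ∈ S.bl X k j false, X.v i p := by
    simp only [State.fL, Bool.false_eq_true, if_false]
    rw [← mul_sum]
  have h3 : ∑ i ∈ S.bl X k j true, S.fL j true i * X.v i p
      = 1 / 4 * ∑ i ∈ S.bl X k j true, X.v i p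
        - 3 / 4 * ∑ i ∈ S.bl X k j true, S.yp j i * X.v i p
        - 1 / 4 * ∑ i ∈ S.bl X k j true, S.ym (j + 1) i * X.v i p := by
    simp only [State.fL, if_true]
    rw [mul_sum, mul_sum, mul_sum, ← sum_sub_distrib, ← sum_sub_distrib]
    exact sum_congr rfl fun i _ => by ring
  rw [h2, h3, h1]
  ring

theorem N2_eq (j : ℤ) (p : Fin d) (A B : ℝ) :
    S.Q (j + 1) p - A + B
      = (1 / 4 * (S.Q j p - ∑ i ∈ S.bl X k j true, S.yp j i * X.v i p)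
        + 3 / 4 * (S.Q (j + 1) p - ∑ i ∈ S.bl X k j true, S.ym (j + 1) i * X.v i p))
        - (A - ∑ i ∈ S.bl X k j false, S.fR j false i * X.v i p
          - ∑ i ∈ S.bl X k j true, S.fR j true i * X.v i p - B) := by
  have h1 := hS.Q_succ j p
  rw [State.sum_blk S X] at h1
  have h2 : ∑ i ∈ S.bl X k j false, S.fR j false i * X.v i p
      = 1 / 4 * ∑ i ∈ S.bl X k j false, X.v i p := by
    simp only [State.fR, Bool.false_eq_true, if_false]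
    rw [← mul_sum]
  have h3 : ∑ i ∈ S.bl X k j true, S.fR j true i * X.v i p
      = 1 / 4 * ∑ i ∈ S.bl X k j true, X.v i p
        + 1 / 4 * ∑ i ∈ S.bl X k j true, S.yp j i * X.v i p
        + 3 / 4 * ∑ i ∈ S.bl X k j true, S.ym (j + 1) i * X.v i p := by
    simp only [State.fR, if_true]
    rw [mul_sum, mul_sum, mul_sum, ← sum_add_distrib, ← sum_add_distrib]
    exact sum_congr rfl fun i _ => by ring
  rw [h2, h3, h1]
  ring

/-- a bound for both new boundaries -/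
theorem N1_L2 (j : ℤ) (n : ℕ) {A B : Fin d → ℝ}
    (h : ∑ p ∈ X.cl ((k + 1 : ℕ) + X.t0 + n),
      (A p - ∑ i ∈ S.bl X k j false, S.fL j false i * X.v i p
          - ∑ i ∈ S.bl X k j true, S.fL j true i * X.v i p - B p) ^ 2
      ≤ c.c6 ^ 2 * X.mc ((k + 1 : ℕ) + X.t0 + n) * (400 / 441) ^ n) :
    ∑ p ∈ X.cl ((k + 1 : ℕ) + X.t0 + n), (S.Q j p + A p - B p) ^ 2
      ≤ (21 * c.c6) ^ 2 * X.mc ((k + 1 : ℕ) + X.t0 + n) * (400 / 441) ^ n := by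
  have hm := X.mc_nonneg ((k + 1 : ℕ) + X.t0 + n)
  have h1 := ((hip_L2 hc hS j n).smul (3 / 4)).add ((him_L2 hc hS j n).smul (1 / 4))
  have h2 := h1.add (cert_c6 hc h)
  have h3 := h2.congr fun p _ => N1_eq hc hS j p (A p) (B p)
  refine h3.le.trans (le_of_eq ?_)
  rw [abs_of_pos (by norm_num : (0 : ℝ) < 3 / 4), abs_of_pos (by norm_num : (0 : ℝ) < 1 / 4)]
  have e0 : (3 / 4 * (20 * c.c6 * Real.sqrt (X.mc ((k + 1 : ℕ) + X.t0 + n)) * (20 / 21) ^ n)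
      + 1 / 4 * (20 * c.c6 * Real.sqrt (X.mc ((k + 1 : ℕ) + X.t0 + n)) * (20 / 21) ^ n)
      + c.c6 * Real.sqrt (X.mc ((k + 1 : ℕ) + X.t0 + n)) * (20 / 21) ^ n)
      = 21 * c.c6 * Real.sqrt (X.mc ((k + 1 : ℕ) + X.t0 + n)) * (20 / 21) ^ n := by ring
  rw [e0, sqA _ _ _ _ hm]
  have e1 : ((20 / 21 : ℝ) ^ 2) = 400 / 441 := by norm_num
  rw [e1]

theorem N2_L2 (j : ℤ) (n : ℕ) {A B : Fin d → ℝ}
    (h : ∑ p ∈ X.cl ((k + 1 : ℕ) + X.t0 + n),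
      (A p - ∑ i ∈ S.bl X k j false, S.fR j false i * X.v i p
          - ∑ i ∈ S.bl X k j true, S.fR j true i * X.v i p - B p) ^ 2
      ≤ c.c6 ^ 2 * X.mc ((k + 1 : ℕ) + X.t0 + n) * (400 / 441) ^ n) :
    ∑ p ∈ X.cl ((k + 1 : ℕ) + X.t0 + n), (S.Q (j + 1) p - A p + B p) ^ 2
      ≤ (21 * c.c6) ^ 2 * X.mc ((k + 1 : ℕ) + X.t0 + n) * (400 / 441) ^ n := by
  have hm := X.mc_nonneg ((k + 1 : ℕ) + X.t0 + n)
  have h1 := ((hip_L2 hc hS j n).smul (1 / 4)).add ((him_L2 hc hS j n).smul (3 / 4))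
  have h2 := h1.sub (cert_c6 hc h)
  have h3 := h2.congr fun p _ => N2_eq hc hS j p (A p) (B p)
  refine h3.le.trans (le_of_eq ?_)
  rw [abs_of_pos (by norm_num : (0 : ℝ) < 3 / 4), abs_of_pos (by norm_num : (0 : ℝ) < 1 / 4)]
  have e0 : (1 / 4 * (20 * c.c6 * Real.sqrt (X.mc ((k + 1 : ℕ) + X.t0 + n)) * (20 / 21) ^ n)
      + 3 / 4 * (20 * c.c6 * Real.sqrt (X.mc ((k + 1 : ℕ) + X.t0 + n)) * (20 / 21) ^ n)
      + c.c6 * Real.sqrt (X.mc ((k + 1 : ℕ) + X.t0 + n)) * (20 / 21) ^ n)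
      = 21 * c.c6 * Real.sqrt (X.mc ((k + 1 : ℕ) + X.t0 + n)) * (20 / 21) ^ n := by ring
  rw [e0, sqA _ _ _ _ hm]
  have e1 : ((20 / 21 : ℝ) ^ 2) = 400 / 441 := by norm_num
  rw [e1]

theorem next_hip (hper : ∀ j, P (j + 2 ^ k) = P j) (hP : ∀ j, (P j).Good X c S k j)
    (j : ℤ) (n : ℕ) : ∑ p ∈ X.cl ((k + 1 : ℕ) + X.t0 + n),
    ((S.next X k P).Q j p - ∑ i ∈ (S.next X k P).bl X (k + 1) j true,
      (S.next X k P).yp j i * X.v i p) ^ 2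
      ≤ (21 * c.c6) ^ 2 * X.mc ((k + 1 : ℕ) + X.t0 + n) * (400 / 441) ^ n := by
  obtain ⟨m, rfl | rfl⟩ := Int.even_or_odd' j
  · refine le_of_eq_of_le (sum_congr rfl fun p _ => ?_) (N1_L2 hc hS m n ((hP m).cert1C n))
    rw [sum_yp_even hper hP, next_Q_even]
  · refine le_of_eq_of_le (sum_congr rfl fun p _ => ?_) (N2_L2 hc hS m n ((hP m).cert2R n))
    rw [sum_yp_odd hper hP, next_Q_odd]
    ring

theorem next_him (hper : ∀ j, P (j + 2 ^ k) = P j) (hP : ∀ j, (P j).Good X c S k j)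
    (j : ℤ) (n : ℕ) : ∑ p ∈ X.cl ((k + 1 : ℕ) + X.t0 + n),
    ((S.next X k P).Q (j + 1) p - ∑ i ∈ (S.next X k P).bl X (k + 1) j true,
      (S.next X k P).ym (j + 1) i * X.v i p) ^ 2
      ≤ (21 * c.c6) ^ 2 * X.mc ((k + 1 : ℕ) + X.t0 + n) * (400 / 441) ^ n := by
  obtain ⟨m, rfl | rfl⟩ := Int.even_or_odd' j
  · refine le_of_eq_of_le (sum_congr rfl fun p _ => ?_) (N2_L2 hc hS m n ((hP m).cert2C n))
    rw [sum_ym_even hper hP, next_Q_odd]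
    ring
  · refine le_of_eq_of_le (sum_congr rfl fun p _ => ?_)
      (N1_L2 hc hS (m + 1) n ((hP (m + 1)).cert1L n))
    rw [sum_ym_odd hper hP]
    have h0 : 2 * m + 1 + 1 = 2 * (m + 1) := by ring
    rw [h0, next_Q_even]

end high

end

end Vale.Agent.Steinitz2
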