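import Mathlib
import Vale.Agent.Lib.Steinitz2.NextB

/-!
# P262 log-free bound, module ASSEMBLE, part C: the low classes
-/

namespace Vale.Agent.Steinitz2

open Finset

set_option linter.unusedSectionVars false

theorem cast_low (k t0 s : ℕ) :
    ((k + 1 : ℕ) : ℤ) + t0 - (s + 1 : ℕ) = (k : ℤ) + t0 - s := by
  push_cast; ring

section

variable {ι : Type} {d : ℕ} [Fintype ι] [DecidableEq ι]
variable {S : State ι d} {X : Ctx ι d} {k : ℕ} {P : ℤ → Piece ι} {c : Cst} {K0 : ℝ}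

/-- the unit of energy of a class -/
noncomputable def Ctx.mu (X : Ctx ι d) (q : ℤ) : ℝ := 2 ^ X.t0 * X.mc q

theorem Ctx.mu_nonneg (X : Ctx ι d) (q : ℤ) : 0 ≤ X.mu q := by
  have := X.mc_nonneg q
  unfold Ctx.mu; positivity

theorem Ctx.thr_nn (X : Ctx ι d) (k : ℕ) (q : ℤ) : 0 ≤ X.thr k q := by
  have := X.mc_nonneg q
  unfold Ctx.thr; positivity

theorem Ctx.thr_succ_le (X : Ctx ι d) (k : ℕ) (q : ℤ) : X.thr (k + 1) q ≤ X.thr k q := by
  have h := X.mc_nonneg q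
  unfold Ctx.thr
  have h2 : (2 : ℝ) ^ (q - ((k + 1 : ℕ) : ℤ)) ≤ (2 : ℝ) ^ (q - (k : ℤ)) :=
    zpow_le_zpow_right₀ (by norm_num) (by push_cast; omega)
  have h3 : (0 : ℝ) ≤ 2 ^ (q - ((k + 1 : ℕ) : ℤ)) := by positivity
  nlinarith

/-- threshold at level `k + 1` of the class with offset `s + 1` there -/
theorem Ctx.thr_low (X : Ctx ι d) (k s : ℕ) :
    X.thr (k + 1) (k + X.t0 - s) = X.mu (k + X.t0 - s) * (1 / 2) ^ s := by
  unfold Ctx.thr Ctx.mu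
  have h1 : ((k : ℤ) + X.t0 - s - ((k + 1 : ℕ) : ℤ)) = (X.t0 : ℤ) - (s : ℤ) - 1 := by
    push_cast; ring
  rw [h1, zpow_sub₀ two_ne_zero, zpow_sub₀ two_ne_zero, zpow_natCast, zpow_natCast]
  rw [one_div, inv_pow]
  field_simp

/-- the error unit of the generic rows -/
noncomputable def Cst.eu (c : Cst) (μ : ℝ) (s : ℕ) : ℝ :=
  c.c6 * (3 * c.ke) * Real.sqrt μ * (4 / 5) ^ (s + 1)

theorem L2_rows {μ : ℝ} (hμ : 0 ≤ μ) (hc : c.Good X.t0) (s : ℕ) {α : Type*} {Sx : Finset α}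
    {f : α → ℝ} {T m : ℝ} (hTm : T * m = μ)
    (h : ∑ r ∈ Sx, f r ^ 2
      ≤ c.c6 ^ 2 * (9 / 8) ^ (s + 1) * (8 * c.ke ^ 2 * T * m * (9 / 16) ^ (s + 1))) :
    L2 Sx f (c.eu μ s) := by
  have h0 := hc.c6_ge
  have h1 := hc.ke_ge
  have hk : 0 ≤ c.ke := by linarith
  refine ⟨by unfold Cst.eu; positivity, h.trans ?_⟩
  have e1 : (c.eu μ s) ^ 2 = 9 * (c.c6 ^ 2 * c.ke ^ 2 * μ * (16 / 25) ^ (s + 1)) := by
    unfold Cst.eu
    rw [sqA _ _ _ _ hμ]
    have e1 : ((4 / 5 : ℝ) ^ 2) = 16 / 25 := by norm_num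
    rw [e1]; ring
  have e2 : c.c6 ^ 2 * (9 / 8) ^ (s + 1) * (8 * c.ke ^ 2 * T * m * (9 / 16) ^ (s + 1))
      = 8 * (c.c6 ^ 2 * c.ke ^ 2 * μ * (81 / 128) ^ (s + 1)) := by
    have e3 : (81 / 128 : ℝ) = 9 / 8 * (9 / 16) := by norm_num
    rw [e3, mul_pow, ← hTm]; ring
  rw [e1, e2]
  have h3 : ((81 : ℝ) / 128) ^ (s + 1) ≤ (16 / 25) ^ (s + 1) :=
    pow_le_pow_left₀ (by norm_num) (by norm_num) _
  have h4 : c.c6 ^ 2 * c.ke ^ 2 * μ * (81 / 128) ^ (s + 1)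
      ≤ c.c6 ^ 2 * c.ke ^ 2 * μ * (16 / 25) ^ (s + 1) :=
    mul_le_mul_of_nonneg_left h3 (by positivity)
  have h5 : 0 ≤ c.c6 ^ 2 * c.ke ^ 2 * μ * (16 / 25) ^ (s + 1) := by positivity
  linarith

section rows

variable (hc : c.Good X.t0) (hS : S.Good X c k)
include hc hS

theorem rwp_L2 (j : ℤ) (s : ℕ) : L2 univ
    (fun r => ∑ i ∈ S.bl X k j true, S.yp j i * X.row (k + 1) (k + X.t0 - s) r i)
    (c.eu (X.mu (k + X.t0 - s)) s) :=
  L2_rows (X.mu_nonneg _) hc s rfl (hS.rwp j s)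

theorem rwm_L2 (j : ℤ) (s : ℕ) : L2 univ
    (fun r => ∑ i ∈ S.bl X k j true, S.ym (j + 1) i * X.row (k + 1) (k + X.t0 - s) r i)
    (c.eu (X.mu (k + X.t0 - s)) s) :=
  L2_rows (X.mu_nonneg _) hc s rfl (hS.rwm j s)

omit hS in
theorem rwL_L2 {P : Piece ι} {j : ℤ} (hP : P.Good X c S k j) (γ : Bool) (s : ℕ) : L2 univ
    (fun r => ∑ i ∈ P.L γ, X.row (k + 1) (k + X.t0 - s) r i
      - ∑ i ∈ S.bl X k j γ, S.fL j γ i * X.row (k + 1) (k + X.t0 - s) r i)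
    (c.eu (X.mu (k + X.t0 - s)) s) :=
  L2_rows (X.mu_nonneg _) hc s rfl (hP.rwL γ s)

omit hS in
theorem rwR_L2 {P : Piece ι} {j : ℤ} (hP : P.Good X c S k j) (γ : Bool) (s : ℕ) : L2 univ
    (fun r => ∑ i ∈ P.R γ, X.row (k + 1) (k + X.t0 - s) r i
      - ∑ i ∈ S.bl X k j γ, S.fR j γ i * X.row (k + 1) (k + X.t0 - s) r i)
    (c.eu (X.mu (k + X.t0 - s)) s) :=
  L2_rows (X.mu_nonneg _) hc s rfl (hP.rwR γ s)

end rows

/-! ### light energy -/

/-- the row `none` is the light energy divided by the root of the threshold -/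
theorem row_none (q : ℤ) (i : ι) : Real.sqrt (X.thr k q) * X.row k q none i
    = if X.En q i ≤ X.thr k q then X.En q i else 0 := by
  have hr : X.row k q none i
      = if X.En q i ≤ X.thr k q then X.En q i / Real.sqrt (X.thr k q) else 0 := rfl
  rw [hr]
  split_ifs with h
  · rcases eq_or_lt_of_le (X.thr_nn k q) with h0 | h0
    · rw [← h0, Real.sqrt_zero, zero_mul]
      rw [← h0] at h
      exact (le_antisymm h (X.En_nonneg q i)).symm
    · have : Real.sqrt (X.thr k q) ≠ 0 := (Real.sqrt_pos.2 h0).ne'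
      field_simp
  · rw [mul_zero]

theorem sum_row_none (q : ℤ) (A : Finset ι) :
    Real.sqrt (X.thr k q) * ∑ i ∈ A, X.row k q none i
      = ∑ i ∈ A with X.En q i ≤ X.thr k q, X.En q i := by
  rw [mul_sum, sum_filter]
  exact sum_congr rfl fun i _ => row_none q i

/-- `√thr` times the error unit -/
theorem sqrt_thr_mul (hc : c.Good X.t0) (s : ℕ) {x : ℝ}
    (hx : x ^ 2 ≤ c.c6 ^ 2 * (9 / 8) ^ (s + 1)
      * (8 * c.ke ^ 2 * 2 ^ X.t0 * X.mc (k + X.t0 - s) * (9 / 16) ^ (s + 1))) :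
    Real.sqrt (X.thr (k + 1) (k + X.t0 - s)) * |x|
      ≤ 4 * c.c6 * c.ke * X.mu (k + X.t0 - s) * (9 / 16) ^ (s + 1) := by
  have h0 := hc.c6_ge
  have h1 := hc.ke_ge
  have hk : 0 ≤ c.ke := by linarith
  have hm := X.mc_nonneg (k + X.t0 - s)
  have hμ := X.mu_nonneg (k + X.t0 - s)
  apply abs_le_of_sq_le_sq' _ _ |>.2
  · rw [mul_pow, Real.sq_sqrt (X.thr_nn _ _), sq_abs, X.thr_low]
    calc X.mu (k + X.t0 - s) * (1 / 2) ^ s * x ^ 2
        ≤ X.mu (k + X.t0 - s) * (1 / 2) ^ s * (c.c6 ^ 2 * (9 / 8) ^ (s + 1)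
          * (8 * c.ke ^ 2 * 2 ^ X.t0 * X.mc (k + X.t0 - s) * (9 / 16) ^ (s + 1))) :=
          mul_le_mul_of_nonneg_left hx (by positivity)
      _ = 16 * c.c6 ^ 2 * c.ke ^ 2 * X.mu (k + X.t0 - s) ^ 2
            * ((1 / 2) * (9 / 8) * (9 / 16)) ^ (s + 1) := by
          have e : ((1 / 2 : ℝ) * (9 / 8) * (9 / 16)) ^ (s + 1)
              = (1 / 2) ^ s * (1 / 2) * (9 / 8) ^ (s + 1) * (9 / 16) ^ (s + 1) := by
            rw [mul_pow, mul_pow, pow_succ (1 / 2 : ℝ) s]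
          rw [e]
          unfold Ctx.mu
          ring
      _ = (4 * c.c6 * c.ke * X.mu (k + X.t0 - s) * (9 / 16) ^ (s + 1)) ^ 2 := by
          have e : ((1 / 2 : ℝ) * (9 / 8) * (9 / 16)) = (9 / 16) ^ 2 := by norm_num
          rw [e, ← pow_mul, mul_comm 2 (s + 1), pow_mul]; ring
      _ ≤ _ := le_rfl
  · positivity

section low

variable (hX : X.Good K0) (hc : c.Good X.t0) (hS : S.Good X c k)
include hX hc hS

/-- light energy over an old block, new threshold -/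
theorem energy_old (j : ℤ) (γ : Bool) (s : ℕ) :
    ∑ i ∈ S.bl X k j γ with X.En (k + X.t0 - s) i ≤ X.thr (k + 1) (k + X.t0 - s),
      X.En (k + X.t0 - s) i ≤ c.ke ^ 2 * X.mu (k + X.t0 - s) * (9 / 16) ^ s := by
  have h := hS.le0 hX hc j γ s
  have h1 : c.ke ^ 2 * X.mu (k + X.t0 - s) * (9 / 16) ^ s
      = c.ke ^ 2 * 2 ^ X.t0 * X.mc (k + X.t0 - s) * (9 / 16) ^ s := by unfold Ctx.mu; ring
  rw [h1]
  refine le_trans (sum_le_sum_of_subset_of_nonneg ?_ fun i _ _ => X.En_nonneg _ i) h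
  intro i hi
  rw [mem_filter] at hi ⊢
  exact ⟨hi.1, hi.2.trans (X.thr_succ_le k _)⟩

theorem next_le (hper : ∀ j, P (j + 2 ^ k) = P j) (hP : ∀ j, (P j).Good X c S k j)
    (j : ℤ) (γ : Bool) (s : ℕ) :
    ∑ i ∈ (S.next X k P).bl X (k + 1) j γ with
      X.En (k + X.t0 - s) i ≤ X.thr (k + 1) (k + X.t0 - s), X.En (k + X.t0 - s) i
      ≤ c.ke ^ 2 * X.mu (k + X.t0 - s) * (9 / 16) ^ (s + 1) := by
  have h0 := hc.c6_ge
  have h1 := hc.ke_ge
  have hk : 0 ≤ c.ke := by linarith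
  have hμ := X.mu_nonneg (k + X.t0 - s)
  set q : ℤ := k + X.t0 - s with hq
  set B : ℝ := c.c6 ^ 2 * (9 / 8) ^ (s + 1)
      * (8 * c.ke ^ 2 * 2 ^ X.t0 * X.mc q * (9 / 16) ^ (s + 1)) with hB
  have hone : ∀ {f : Option (Fin d) → ℝ}, ∑ r, f r ^ 2 ≤ B →
      L2 {(none : Option (Fin d))} f (Real.sqrt B) := fun {f} hf =>
    (L2.of_sqrt hf).subset (subset_univ _)
  have hB0 : 0 ≤ B := by
    have := X.mc_nonneg q
    rw [hB]; positivity
  have hsq : Real.sqrt (X.thr (k + 1) q) * Real.sqrt B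
      ≤ 4 * c.c6 * c.ke * X.mu q * (9 / 16) ^ (s + 1) := by
    have h3 := sqrt_thr_mul (k := k) (x := Real.sqrt B) hc s (by
      rw [Real.sq_sqrt hB0])
    rwa [abs_of_nonneg (Real.sqrt_nonneg _)] at h3
  have hst := Real.sqrt_nonneg (X.thr (k + 1) q)
  set u : ℝ := X.mu q * (9 / 16) ^ (s + 1) with hu
  have hu0 : 0 ≤ u := by positivity
  have key : ∀ {y E x : ℝ}, |y| ≤ 4 * Real.sqrt B →
      E = Real.sqrt (X.thr (k + 1) q) * y + x → x ≤ 1 / 2 * (c.ke ^ 2 * X.mu q * (9 / 16) ^ s) →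
      E ≤ c.ke ^ 2 * X.mu q * (9 / 16) ^ (s + 1) := by
    intro y E x hy hE hx
    have h3 : Real.sqrt (X.thr (k + 1) q) * y ≤ Real.sqrt (X.thr (k + 1) q) * (4 * Real.sqrt B) :=
      mul_le_mul_of_nonneg_left ((le_abs_self y).trans hy) hst
    have h4 : Real.sqrt (X.thr (k + 1) q) * (4 * Real.sqrt B) ≤ 16 * c.c6 * c.ke * u := by
      calc _ = 4 * (Real.sqrt (X.thr (k + 1) q) * Real.sqrt B) := by ring
        _ ≤ 4 * (4 * c.c6 * c.ke * X.mu q * (9 / 16) ^ (s + 1)) := by linarith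
        _ = _ := by rw [hu]; ring
    have h5 : 1 / 2 * (c.ke ^ 2 * X.mu q * (9 / 16) ^ s) = 8 / 9 * c.ke ^ 2 * u := by
      rw [hu, pow_succ]; ring
    have h6 : c.ke ^ 2 * X.mu q * (9 / 16) ^ (s + 1) = c.ke ^ 2 * u := by rw [hu]; ring
    rw [h5] at hx
    rw [h6, hE]
    have h7 : (16 * c.c6 * c.ke + 8 / 9 * c.ke ^ 2) * u ≤ c.ke ^ 2 * u :=
      mul_le_mul_of_nonneg_right (by nlinarith) hu0
    linarith
  obtain ⟨m, rfl | rfl⟩ := Int.even_or_odd' j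
  · have hC := C_lin (F := fun r i => X.row (k + 1) q r i) (γ := γ) hper hP
      (hone (hS.rwp m s)) (hone (hS.rwm m s)) (hone ((hP m).rwL γ s)) (hone ((hP m).rwR γ s))
    have h2 := hC.abs_le (mem_singleton_self none)
    refine key (y := ∑ i ∈ (S.next X k P).bl X (k + 1) (2 * m) γ, X.row (k + 1) q none i
      - 1 / 2 * ∑ i ∈ S.bl X k m γ, X.row (k + 1) q none i)
      (x := 1 / 2 * ∑ i ∈ S.bl X k m γ with X.En q i ≤ X.thr (k + 1) q, X.En q i)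
      (h2.trans ?_) ?_ ?_
    · have := Real.sqrt_nonneg B
      linarith
    · rw [← sum_row_none, ← sum_row_none]; ring
    · have := energy_old hX hc hS m γ s
      rw [← hq] at this
      linarith
  · have hD := D_lin (F := fun r i => X.row (k + 1) q r i) (γ := γ) hper hP
      (hone (hS.rwp m s)) (hone (hS.rwm m s)) (hone (hS.rwp (m + 1) s)) (hone (hS.rwm (m + 1) s))
      (hone ((hP m).rwR γ s)) (hone ((hP (m + 1)).rwL γ s))
    have h2 := hD.abs_le (mem_singleton_self none)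
    refine key (y := ∑ i ∈ (S.next X k P).bl X (k + 1) (2 * m + 1) γ, X.row (k + 1) q none i
      - (1 / 4 * ∑ i ∈ S.bl X k m γ, X.row (k + 1) q none i
        + 1 / 4 * ∑ i ∈ S.bl X k (m + 1) γ, X.row (k + 1) q none i))
      (x := 1 / 4 * ∑ i ∈ S.bl X k m γ with X.En q i ≤ X.thr (k + 1) q, X.En q i
        + 1 / 4 * ∑ i ∈ S.bl X k (m + 1) γ with X.En q i ≤ X.thr (k + 1) q, X.En q i)
      (h2.trans ?_) ?_ ?_
    · have := Real.sqrt_nonneg B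
      linarith
    · rw [← sum_row_none, ← sum_row_none, ← sum_row_none]; ring
    · have h8 := energy_old hX hc hS m γ s
      have h9 := energy_old hX hc hS (m + 1) γ s
      rw [← hq] at h8 h9
      linarith

end low

end

end Vale.Agent.Steinitz2
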