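import Mathlib
import Vale.Agent.Lib.Steinitz2.NextC

/-!
# P262 log-free bound, module ASSEMBLE, part D: light sums and heavy elements
-/

namespace Vale.Agent.Steinitz2

open Finset

set_option linter.unusedSectionVars false

section

variable {ι : Type} {d : ℕ} [Fintype ι] [DecidableEq ι]
variable {S : State ι d} {X : Ctx ι d} {k : ℕ} {P : ℤ → Piece ι} {c : Cst} {K0 : ℝ}

theorem row_some {q : ℤ} {p : Fin d} (hp : p ∈ X.cl q) (i : ι) :
    X.row k q (some p) i = if X.En q i ≤ X.thr k q then X.v i p else 0 := by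
  have hr : X.row k q (some p) i
      = if X.cls p = q ∧ X.En q i ≤ X.thr k q then X.v i p else 0 := rfl
  have h1 : X.cls p = q := by simpa [Ctx.cl] using hp
  rw [hr]
  simp [h1]

theorem sum_row_some {q : ℤ} {p : Fin d} (hp : p ∈ X.cl q) (A : Finset ι) :
    ∑ i ∈ A, X.row k q (some p) i = ∑ i ∈ A with X.En q i ≤ X.thr k q, X.v i p := by
  rw [sum_filter]
  exact sum_congr rfl fun i _ => row_some hp i

theorem L2_some {q : ℤ} {f : Option (Fin d) → ℝ} {a : ℝ} (h : L2 univ f a) :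
    L2 (X.cl q) (fun p => f (some p)) a := by
  refine ⟨h.1, le_trans ?_ h.2⟩
  rw [Fintype.sum_option]
  have h1 : ∑ p ∈ X.cl q, f (some p) ^ 2 ≤ ∑ p, f (some p) ^ 2 :=
    sum_le_sum_of_subset_of_nonneg (subset_univ _) fun _ _ _ => sq_nonneg _
  have h2 := sq_nonneg (f none)
  linarith

/-- vectors on a class -/
theorem L2_v (q : ℤ) (i : ι) : L2 (X.cl q) (fun p => X.v i p) (Real.sqrt (X.En q i)) :=
  L2.of_sqrt le_rfl

/-- a class without coordinates -/
theorem L2_of_mc_zero {q : ℤ} (h : X.mc q = 0) (f : Fin d → ℝ) {a : ℝ} (ha : 0 ≤ a) :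
    L2 (X.cl q) f a := by
  have h1 : X.cl q = ∅ := by
    unfold Ctx.mc at h
    exact card_eq_zero.1 (by exact_mod_cast h)
  rw [h1]
  exact ⟨ha, by simp; positivity⟩

section low

variable (hX : X.Good K0) (hc : c.Good X.t0) (hS : S.Good X c k)
include hX hc hS

/-- newly heavy elements -/
theorem nh_L2 (j : ℤ) (s : ℕ) (A : Finset ι) (hA : A ⊆ S.blk k j)
    (h1 : ∀ i ∈ A, X.En (k + X.t0 - s) i ≤ X.thr k (k + X.t0 - s))
    (h2 : ∀ i ∈ A, X.thr (k + 1) (k + X.t0 - s) < X.En (k + X.t0 - s) i) :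
    L2 (X.cl (k + X.t0 - s)) (fun p => ∑ i ∈ A, X.v i p)
      (3 * c.ke ^ 2 * Real.sqrt (X.mu (k + X.t0 - s)) * (4 / 5) ^ (s + 1)) := by
  have h0 := hc.c6_ge
  have h3 := hc.ke_ge
  have hk : 0 ≤ c.ke := by linarith
  set q : ℤ := k + X.t0 - s with hq
  have hμ := X.mu_nonneg q
  rcases eq_or_lt_of_le (X.mc_nonneg q) with hm0 | hm0
  · exact L2_of_mc_zero hm0.symm _ (by positivity)
  have hμ0 : 0 < X.mu q := by unfold Ctx.mu; positivity
  have hthr : X.thr (k + 1) q = X.mu q * (1 / 2) ^ s := X.thr_low k s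
  have hthr0 : 0 < X.thr (k + 1) q := by rw [hthr]; positivity
  refine (L2.sum A (fun i p => X.v i p) _ fun i _ => L2_v q i).mono ?_
  -- the sum of the roots
  have h4 : (∑ i ∈ A, Real.sqrt (X.En q i)) * Real.sqrt (X.thr (k + 1) q)
      ≤ 2 * (c.ke ^ 2 * X.mu q * (9 / 16) ^ s) := by
    calc (∑ i ∈ A, Real.sqrt (X.En q i)) * Real.sqrt (X.thr (k + 1) q)
        = ∑ i ∈ A, Real.sqrt (X.En q i) * Real.sqrt (X.thr (k + 1) q) := sum_mul _ _ _
      _ ≤ ∑ i ∈ A, X.En q i := by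
          refine sum_le_sum fun i hi => ?_
          calc Real.sqrt (X.En q i) * Real.sqrt (X.thr (k + 1) q)
              ≤ Real.sqrt (X.En q i) * Real.sqrt (X.En q i) :=
                mul_le_mul_of_nonneg_left (Real.sqrt_le_sqrt (h2 i hi).le) (Real.sqrt_nonneg _)
            _ = X.En q i := Real.mul_self_sqrt (X.En_nonneg q i)
      _ ≤ ∑ i ∈ S.blk k j with X.En q i ≤ X.thr k q, X.En q i := by
          refine sum_le_sum_of_subset_of_nonneg ?_ fun i _ _ => X.En_nonneg _ i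
          intro i hi
          exact mem_filter.2 ⟨hA hi, h1 i hi⟩
      _ = ∑ i ∈ S.bl X k j false with X.En q i ≤ X.thr k q, X.En q i
          + ∑ i ∈ S.bl X k j true with X.En q i ≤ X.thr k q, X.En q i := by
          rw [sum_filter, sum_filter, sum_filter, State.sum_blk S X]
      _ ≤ c.ke ^ 2 * 2 ^ X.t0 * X.mc q * (9 / 16) ^ s
          + c.ke ^ 2 * 2 ^ X.t0 * X.mc q * (9 / 16) ^ s :=
          add_le_add (hS.le0 hX hc j false s) (hS.le0 hX hc j true s)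
      _ = 2 * (c.ke ^ 2 * X.mu q * (9 / 16) ^ s) := by unfold Ctx.mu; ring
  have h5 : 2 * (c.ke ^ 2 * X.mu q * (9 / 16) ^ s)
      ≤ (3 * c.ke ^ 2 * Real.sqrt (X.mu q) * (4 / 5) ^ (s + 1))
        * Real.sqrt (X.thr (k + 1) q) := by
    apply abs_le_of_sq_le_sq' _ (by positivity) |>.2
    have e1 : ((3 * c.ke ^ 2 * Real.sqrt (X.mu q) * (4 / 5) ^ (s + 1))
        * Real.sqrt (X.thr (k + 1) q)) ^ 2
        = 9 * c.ke ^ 4 * X.mu q ^ 2 * (16 / 25) * (8 / 25) ^ s := by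
      have e2 : ((8 : ℝ) / 25) ^ s = ((4 / 5) ^ s) ^ 2 * (1 / 2) ^ s := by
        rw [← pow_mul, mul_comm s 2, pow_mul, ← mul_pow]; norm_num
      rw [mul_pow, Real.sq_sqrt hthr0.le, hthr, mul_pow, mul_pow, Real.sq_sqrt hμ, e2,
        pow_succ]
      ring
    have e3 : (2 * (c.ke ^ 2 * X.mu q * (9 / 16) ^ s)) ^ 2
        = 4 * c.ke ^ 4 * X.mu q ^ 2 * (81 / 256) ^ s := by
      have e2 : ((81 : ℝ) / 256) ^ s = ((9 / 16) ^ s) ^ 2 := by
        rw [← pow_mul, mul_comm s 2, pow_mul]; norm_num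
      rw [e2]; ring
    rw [e1, e3]
    have e4 : ((81 : ℝ) / 256) ^ s ≤ (8 / 25) ^ s :=
      pow_le_pow_left₀ (by norm_num) (by norm_num) _
    have e5 : 0 ≤ c.ke ^ 4 * X.mu q ^ 2 := by positivity
    have e6 : 0 ≤ ((8 : ℝ) / 25) ^ s := by positivity
    calc 4 * c.ke ^ 4 * X.mu q ^ 2 * (81 / 256) ^ s
        = 4 * (c.ke ^ 4 * X.mu q ^ 2) * (81 / 256) ^ s := by ring
      _ ≤ 4 * (c.ke ^ 4 * X.mu q ^ 2) * (8 / 25) ^ s :=
          mul_le_mul_of_nonneg_left e4 (by positivity)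
      _ ≤ 9 * (16 / 25) * (c.ke ^ 4 * X.mu q ^ 2) * (8 / 25) ^ s := by
          have := mul_nonneg e5 e6
          nlinarith
      _ = _ := by ring
  exact le_of_mul_le_mul_right (h4.trans h5) (Real.sqrt_pos.2 hthr0)

/-- the light sum over an old block, new threshold -/
theorem light_old (j : ℤ) (s : ℕ) :
    L2 (X.cl (k + X.t0 - s))
      (fun p => ∑ i ∈ S.blk k j, X.row (k + 1) (k + X.t0 - s) (some p) i)
      ((5 / 4 * c.ks + 3 * c.ke ^ 2) * Real.sqrt (X.mu (k + X.t0 - s)) * (4 / 5) ^ (s + 1)) := by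
  have h0 := hc.c6_ge
  have h3 := hc.ke_ge
  have hk : 0 ≤ c.ke := by linarith
  have hks : 0 ≤ c.ks := by
    have := hc.ks_ge
    nlinarith [mul_nonneg (by linarith : (0 : ℝ) ≤ c.c6) hk, sq_nonneg c.ke]
  set q : ℤ := k + X.t0 - s with hq
  have hμ := X.mu_nonneg q
  have h1 : L2 (X.cl q) (fun p => ∑ i ∈ S.blk k j with X.En q i ≤ X.thr k q, X.v i p)
      (c.ks * Real.sqrt (X.mu q) * (4 / 5) ^ s) := by
    refine ⟨by positivity, (hS.ls0 hX hc j s).trans (le_of_eq ?_)⟩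
    rw [sqA _ _ _ _ hμ]
    have e1 : ((4 / 5 : ℝ) ^ 2) = 16 / 25 := by norm_num
    rw [e1]
    unfold Ctx.mu
    ring
  have h2 := nh_L2 hX hc hS j s ((S.blk k j).filter
    (fun i => X.En q i ≤ X.thr k q ∧ X.thr (k + 1) q < X.En q i)) (filter_subset _ _)
    (fun i hi => (mem_filter.1 hi).2.1) (fun i hi => (mem_filter.1 hi).2.2)
  refine ((h1.sub h2).congr fun p hp => ?_).mono (le_of_eq ?_)
  · rw [sum_row_some hp, sum_filter, sum_filter, sum_filter, ← sum_sub_distrib]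
    refine sum_congr rfl fun i _ => ?_
    have := X.thr_succ_le k q
    by_cases ha : X.En q i ≤ X.thr (k + 1) q
    · have hb : X.En q i ≤ X.thr k q := ha.trans this
      simp [ha, hb, not_lt.2 ha]
    · by_cases hb : X.En q i ≤ X.thr k q
      · simp [ha, hb, not_le.1 ha]
      · simp [ha, hb]
  · rw [pow_succ]; ring

variable (hper : ∀ j, P (j + 2 ^ k) = P j) (hP : ∀ j, (P j).Good X c S k j)
include hP

/-- the light sum over the left piece -/
theorem light_L (j : ℤ) (s : ℕ) :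
    L2 (X.cl (k + X.t0 - s))
      (fun p => ∑ i ∈ (P j).L false, X.row (k + 1) (k + X.t0 - s) (some p) i
        + ∑ i ∈ (P j).L true, X.row (k + 1) (k + X.t0 - s) (some p) i)
      (4 * c.eu (X.mu (k + X.t0 - s)) s + 1 / 4 * ((5 / 4 * c.ks + 3 * c.ke ^ 2)
        * Real.sqrt (X.mu (k + X.t0 - s)) * (4 / 5) ^ (s + 1))) := by
  have h1 := (L2_some (X := X) (q := k + X.t0 - s) (L_lin (P := P) (γ := false)
    (rwp_L2 hc hS j s) (rwm_L2 hc hS j s) (rwL_L2 hc (hP j) false s))).add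
    (L2_some (X := X) (q := k + X.t0 - s) (L_lin (P := P) (γ := true)
    (rwp_L2 hc hS j s) (rwm_L2 hc hS j s) (rwL_L2 hc (hP j) true s)))
  have h2 := (light_old hX hc hS j s).smul (1 / 4)
  rw [abs_of_pos (by norm_num : (0 : ℝ) < 1 / 4)] at h2
  refine ((h1.add h2).congr fun p _ => ?_).mono (le_of_eq ?_)
  · rw [State.sum_blk S X]; ring
  · ring

theorem light_R (j : ℤ) (s : ℕ) :
    L2 (X.cl (k + X.t0 - s))
      (fun p => ∑ i ∈ (P j).R false, X.row (k + 1) (k + X.t0 - s) (some p) i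
        + ∑ i ∈ (P j).R true, X.row (k + 1) (k + X.t0 - s) (some p) i)
      (4 * c.eu (X.mu (k + X.t0 - s)) s + 1 / 4 * ((5 / 4 * c.ks + 3 * c.ke ^ 2)
        * Real.sqrt (X.mu (k + X.t0 - s)) * (4 / 5) ^ (s + 1))) := by
  have h1 := (L2_some (X := X) (q := k + X.t0 - s) (R_lin (P := P) (γ := false)
    (rwp_L2 hc hS j s) (rwm_L2 hc hS j s) (rwR_L2 hc (hP j) false s))).add
    (L2_some (X := X) (q := k + X.t0 - s) (R_lin (P := P) (γ := true)
    (rwp_L2 hc hS j s) (rwm_L2 hc hS j s) (rwR_L2 hc (hP j) true s)))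
  have h2 := (light_old hX hc hS j s).smul (1 / 4)
  rw [abs_of_pos (by norm_num : (0 : ℝ) < 1 / 4)] at h2
  refine ((h1.add h2).congr fun p _ => ?_).mono (le_of_eq ?_)
  · rw [State.sum_blk S X]; ring
  · ring

include hper

theorem next_ls (j : ℤ) (s : ℕ) : ∑ p ∈ X.cl (k + X.t0 - s),
    (∑ i ∈ (S.next X k P).blk (k + 1) j with
      X.En (k + X.t0 - s) i ≤ X.thr (k + 1) (k + X.t0 - s), X.v i p) ^ 2
      ≤ c.ks ^ 2 * X.mu (k + X.t0 - s) * (16 / 25) ^ (s + 1) := by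
  have h0 := hc.c6_ge
  have h3 := hc.ke_ge
  have h4 := hc.ks_ge
  have hk : 0 ≤ c.ke := by linarith
  have hks : 0 ≤ c.ks := by
    nlinarith [mul_nonneg (by linarith : (0 : ℝ) ≤ c.c6) hk, sq_nonneg c.ke]
  set q : ℤ := k + X.t0 - s with hq
  have hμ := X.mu_nonneg q
  set u : ℝ := Real.sqrt (X.mu q) * (4 / 5) ^ (s + 1) with hu
  have hu0 : 0 ≤ u := by positivity
  have heu : c.eu (X.mu q) s = 3 * c.c6 * c.ke * u := by rw [hu]; unfold Cst.eu; ring
  suffices h : L2 (X.cl q) (fun p => ∑ i ∈ (S.next X k P).blk (k + 1) j with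
      X.En q i ≤ X.thr (k + 1) q, X.v i p) (c.ks * Real.sqrt (X.mu q) * (4 / 5) ^ (s + 1)) by
    refine h.le.trans (le_of_eq ?_)
    rw [sqA _ _ _ _ hμ]
    have e1 : ((4 / 5 : ℝ) ^ 2) = 16 / 25 := by norm_num
    rw [e1]
  have e2 : c.ks * Real.sqrt (X.mu q) * (4 / 5) ^ (s + 1) = c.ks * u := by rw [hu]; ring
  rw [e2]
  obtain ⟨m, rfl | rfl⟩ := Int.even_or_odd' j
  · have h5 := (light_old hX hc hS m s).smul (1 / 2)
    have h6 := L2_some (X := X) (q := q) (C_lin (γ := false) hper hP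
      (rwp_L2 hc hS m s) (rwm_L2 hc hS m s) (rwL_L2 hc (hP m) false s) (rwR_L2 hc (hP m) false s))
    have h7 := L2_some (X := X) (q := q) (C_lin (γ := true) hper hP
      (rwp_L2 hc hS m s) (rwm_L2 hc hS m s) (rwL_L2 hc (hP m) true s) (rwR_L2 hc (hP m) true s))
    refine (((h6.add h7).add h5).congr fun p hp => ?_).mono ?_
    · rw [← sum_row_some hp, State.sum_blk (S.next X k P) X, State.sum_blk S X]
      ring
    · rw [abs_of_pos (by norm_num : (0 : ℝ) < 1 / 2), ← hq, heu]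
      have e3 : (5 / 4 * c.ks + 3 * c.ke ^ 2) * Real.sqrt (X.mu q) * (4 / 5) ^ (s + 1)
          = (5 / 4 * c.ks + 3 * c.ke ^ 2) * u := by rw [hu]; ring
      rw [e3]
      have e4 : 3 * c.c6 * c.ke * u + 2 * (3 * c.c6 * c.ke * u)
          + (3 * c.c6 * c.ke * u + 2 * (3 * c.c6 * c.ke * u))
          + 1 / 2 * ((5 / 4 * c.ks + 3 * c.ke ^ 2) * u)
          = (18 * c.c6 * c.ke + 5 / 8 * c.ks + 3 / 2 * c.ke ^ 2) * u := by ring
      rw [e4]
      exact mul_le_mul_of_nonneg_right (by nlinarith) hu0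
  · have h5 := ((light_old hX hc hS m s).smul (1 / 4)).add
      ((light_old hX hc hS (m + 1) s).smul (1 / 4))
    have h6 := L2_some (X := X) (q := q) (D_lin (γ := false) hper hP
      (rwp_L2 hc hS m s) (rwm_L2 hc hS m s) (rwp_L2 hc hS (m + 1) s) (rwm_L2 hc hS (m + 1) s)
      (rwR_L2 hc (hP m) false s) (rwL_L2 hc (hP (m + 1)) false s))
    have h7 := L2_some (X := X) (q := q) (D_lin (γ := true) hper hP
      (rwp_L2 hc hS m s) (rwm_L2 hc hS m s) (rwp_L2 hc hS (m + 1) s) (rwm_L2 hc hS (m + 1) s)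
      (rwR_L2 hc (hP m) true s) (rwL_L2 hc (hP (m + 1)) true s))
    refine (((h6.add h7).add h5).congr fun p hp => ?_).mono ?_
    · rw [← sum_row_some hp, State.sum_blk (S.next X k P) X, State.sum_blk S X,
        State.sum_blk S X]
      ring
    · rw [abs_of_pos (by norm_num : (0 : ℝ) < 1 / 4), ← hq, heu]
      have e3 : (5 / 4 * c.ks + 3 * c.ke ^ 2) * Real.sqrt (X.mu q) * (4 / 5) ^ (s + 1)
          = (5 / 4 * c.ks + 3 * c.ke ^ 2) * u := by rw [hu]; ring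
      rw [e3]
      have e4 : 2 * (3 * c.c6 * c.ke * u) + 2 * (3 * c.c6 * c.ke * u)
          + (2 * (3 * c.c6 * c.ke * u) + 2 * (3 * c.c6 * c.ke * u))
          + (1 / 4 * ((5 / 4 * c.ks + 3 * c.ke ^ 2) * u)
            + 1 / 4 * ((5 / 4 * c.ks + 3 * c.ke ^ 2) * u))
          = (24 * c.c6 * c.ke + 5 / 8 * c.ks + 3 / 2 * c.ke ^ 2) * u := by ring
      rw [e4]
      have h8 : 0 ≤ c.ke - 200 * c.c6 := by linarith
      refine mul_le_mul_of_nonneg_right ?_ hu0
      nlinarith [mul_nonneg h8 hk]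

end low

end

end Vale.Agent.Steinitz2
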