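import Mathlib
import Vale.Agent.Lib.Steinitz2.NextD

/-!
# P262 log-free bound, module ASSEMBLE, part E: positions of heavy elements; the next level
-/

namespace Vale.Agent.Steinitz2

open Finset

set_option linter.unusedSectionVars false

section

variable {ι : Type} {d : ℕ} [Fintype ι] [DecidableEq ι]
variable {S : State ι d} {X : Ctx ι d} {k : ℕ} {P : ℤ → Piece ι} {c : Cst} {K0 : ℝ}

/-- heavy elements -/
noncomputable def Ctx.hv (X : Ctx ι d) (k : ℕ) (q : ℤ) (A : Finset ι) : Finset ι :=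
  A.filter (fun i => X.thr k q < X.En q i)

theorem sum_light_heavy {q : ℤ} {p : Fin d} (hp : p ∈ X.cl q) (A : Finset ι) :
    ∑ i ∈ A, X.v i p = ∑ i ∈ A, X.row k q (some p) i + ∑ i ∈ X.hv k q A, X.v i p := by
  rw [sum_row_some hp, Ctx.hv, ← sum_filter_add_sum_filter_not A
    (fun i => X.En q i ≤ X.thr k q)]
  congr 2
  ext i
  simp

theorem piece_split (G : Bool → Finset ι) (hdis : Disjoint (G false) (G true)) {q : ℤ} {p : Fin d}
    (hp : p ∈ X.cl q) (E : Finset ι) (hE : E ⊆ X.hv k q (G false ∪ G true)) :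
    ∑ i ∈ G false, X.v i p + ∑ i ∈ G true, X.v i p
      = ∑ i ∈ E, X.v i p + ∑ i ∈ X.hv k q (G false ∪ G true) \ E, X.v i p
        + (∑ i ∈ G false, X.row k q (some p) i + ∑ i ∈ G true, X.row k q (some p) i) := by
  rw [← sum_union hdis, ← sum_union hdis, sum_light_heavy (k := k) hp (G false ∪ G true),
    ← sum_sdiff hE]
  ring

section low

variable (hX : X.Good K0) (hc : c.Good X.t0) (hS : S.Good X c k)
include hX hc hS

theorem en_step (j : ℤ) (s : ℕ) (A W : Finset ι) (hA : A ⊆ S.blk k (j - 1)) (hW : W ⊆ S.blk k j)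
    (h1 : ∀ i ∈ A, X.thr (k + 1) (k + X.t0 - s) < X.En (k + X.t0 - s) i)
    (h2 : ∀ i ∈ W, X.thr (k + 1) (k + X.t0 - s) < X.En (k + X.t0 - s) i) :
    L2 (X.cl (k + X.t0 - s)) (fun p => S.Q j p - ∑ i ∈ A, X.v i p + ∑ i ∈ W, X.v i p)
      (c.cr * (6 - 5 * (4 / 5) ^ s) * Real.sqrt (X.mu (k + X.t0 - s))
        + 6 * c.ke ^ 2 * Real.sqrt (X.mu (k + X.t0 - s)) * (4 / 5) ^ (s + 1)) := by
  have h0 := hc.c6_ge
  have h3 := hc.ke_ge
  have h4 := hc.ks_ge
  have h5 := hc.cr_ge
  have hk : 0 ≤ c.ke := by linarith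
  have hks : 0 ≤ c.ks := by
    nlinarith [mul_nonneg (by linarith : (0 : ℝ) ≤ c.c6) hk, sq_nonneg c.ke]
  have hcr : 0 ≤ c.cr := by
    nlinarith [mul_nonneg (by linarith : (0 : ℝ) ≤ c.c6) hk, sq_nonneg c.ke]
  set q : ℤ := k + X.t0 - s with hq
  have hμ := X.mu_nonneg q
  have hpow : ((4 : ℝ) / 5) ^ s ≤ 1 := pow_le_one₀ (by norm_num) (by norm_num)
  have h6 : L2 (X.cl q) (fun p => S.Q j p - ∑ i ∈ X.hv k q A, X.v i p
      + ∑ i ∈ X.hv k q W, X.v i p) (c.cr * (6 - 5 * (4 / 5) ^ s) * Real.sqrt (X.mu q)) := by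
    have h7 : 0 ≤ c.cr * (6 - 5 * (4 / 5) ^ s) := mul_nonneg hcr (by linarith)
    refine ⟨mul_nonneg h7 (Real.sqrt_nonneg _), ?_⟩
    refine (hS.en0 hX hc j s (X.hv k q A) (X.hv k q W) ((filter_subset _ _).trans hA)
      ((filter_subset _ _).trans hW) (fun i hi => (mem_filter.1 hi).2)
      (fun i hi => (mem_filter.1 hi).2)).trans (le_of_eq ?_)
    rw [mul_pow _ (Real.sqrt (X.mu q)), Real.sq_sqrt hμ]
    unfold Ctx.mu
    ring
  have h8 := nh_L2 hX hc hS (j - 1) s (A.filter (fun i => ¬ X.thr k q < X.En q i))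
    ((filter_subset _ _).trans hA) (fun i hi => not_lt.1 (mem_filter.1 hi).2)
    (fun i hi => h1 i (mem_filter.1 hi).1)
  have h9 := nh_L2 hX hc hS j s (W.filter (fun i => ¬ X.thr k q < X.En q i))
    ((filter_subset _ _).trans hW) (fun i hi => not_lt.1 (mem_filter.1 hi).2)
    (fun i hi => h2 i (mem_filter.1 hi).1)
  refine (((h6.sub h8).add h9).congr fun p _ => ?_).mono (le_of_eq ?_)
  · rw [← sum_filter_add_sum_filter_not A (fun i => X.thr k q < X.En q i),
      ← sum_filter_add_sum_filter_not W (fun i => X.thr k q < X.En q i)]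
    unfold Ctx.hv
    ring
  · rw [← hq]; ring

variable (hper : ∀ j, P (j + 2 ^ k) = P j) (hP : ∀ j, (P j).Good X c S k j)
include hper hP

theorem next_en (j : ℤ) (s : ℕ) (A A' : Finset ι)
    (hA : A ⊆ (S.next X k P).blk (k + 1) (j - 1)) (hA' : A' ⊆ (S.next X k P).blk (k + 1) j)
    (h1 : ∀ i ∈ A, X.thr (k + 1) (k + X.t0 - s) < X.En (k + X.t0 - s) i)
    (h2 : ∀ i ∈ A', X.thr (k + 1) (k + X.t0 - s) < X.En (k + X.t0 - s) i) :
    ∑ p ∈ X.cl (k + X.t0 - s),
      ((S.next X k P).Q j p - ∑ i ∈ A, X.v i p + ∑ i ∈ A', X.v i p) ^ 2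
      ≤ (c.cr * (6 - 5 * (4 / 5) ^ (s + 1))) ^ 2 * X.mu (k + X.t0 - s) := by
  have h0 := hc.c6_ge
  have h3 := hc.ke_ge
  have h4 := hc.ks_ge
  have h5 := hc.cr_ge
  have hk : 0 ≤ c.ke := by linarith
  have hks : 0 ≤ c.ks := by
    nlinarith [mul_nonneg (by linarith : (0 : ℝ) ≤ c.c6) hk, sq_nonneg c.ke]
  set q : ℤ := k + X.t0 - s with hq
  have hμ := X.mu_nonneg q
  set u : ℝ := Real.sqrt (X.mu q) * (4 / 5) ^ (s + 1) with hu
  have hu0 : 0 ≤ u := by positivity
  have heu : c.eu (X.mu q) s = 3 * c.c6 * c.ke * u := by rw [hu]; unfold Cst.eu; ring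
  have hbound : c.cr * (6 - 5 * (4 / 5) ^ s) * Real.sqrt (X.mu q)
        + 6 * c.ke ^ 2 * Real.sqrt (X.mu q) * (4 / 5) ^ (s + 1)
        + (4 * c.eu (X.mu q) s + 1 / 4 * ((5 / 4 * c.ks + 3 * c.ke ^ 2)
          * Real.sqrt (X.mu q) * (4 / 5) ^ (s + 1)))
      ≤ c.cr * (6 - 5 * (4 / 5) ^ (s + 1)) * Real.sqrt (X.mu q) := by
    rw [heu]
    have e1 : c.cr * (6 - 5 * (4 / 5) ^ (s + 1)) * Real.sqrt (X.mu q)
        = c.cr * (6 - 5 * (4 / 5) ^ s) * Real.sqrt (X.mu q) + 5 / 4 * c.cr * u := by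
      rw [hu, pow_succ]; ring
    have e2 : 6 * c.ke ^ 2 * Real.sqrt (X.mu q) * (4 / 5) ^ (s + 1)
        + (4 * (3 * c.c6 * c.ke * u) + 1 / 4 * ((5 / 4 * c.ks + 3 * c.ke ^ 2)
          * Real.sqrt (X.mu q) * (4 / 5) ^ (s + 1)))
        = (6 * c.ke ^ 2 + 12 * c.c6 * c.ke + 5 / 16 * c.ks + 3 / 4 * c.ke ^ 2) * u := by
      rw [hu]; ring
    rw [e1, add_assoc, e2]
    have h6 : (6 * c.ke ^ 2 + 12 * c.c6 * c.ke + 5 / 16 * c.ks + 3 / 4 * c.ke ^ 2) * u
        ≤ 5 / 4 * c.cr * u := by
      refine mul_le_mul_of_nonneg_right ?_ hu0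
      nlinarith [mul_nonneg (by linarith : (0 : ℝ) ≤ c.c6) hk, sq_nonneg c.ke]
    linarith
  suffices h : L2 (X.cl q) (fun p => (S.next X k P).Q j p - ∑ i ∈ A, X.v i p
      + ∑ i ∈ A', X.v i p) (c.cr * (6 - 5 * (4 / 5) ^ (s + 1)) * Real.sqrt (X.mu q)) by
    refine h.le.trans (le_of_eq ?_)
    rw [mul_pow _ (Real.sqrt (X.mu q)), Real.sq_sqrt hμ]
  obtain ⟨m, rfl | rfl⟩ := Int.even_or_odd' j
  · -- left new boundary of the block `m`
    have hlab : ∀ γ, ∀ i ∈ (P m).L γ, X.lab i = γ := fun γ i hi =>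
      (State.mem_bl.1 ((hP m).L_sub γ hi)).2
    have hdis : Disjoint ((P m).L false) ((P m).L true) := by
      rw [disjoint_left]
      intro i ha hb
      have := hlab _ i ha
      rw [hlab _ i hb] at this
      exact Bool.noConfusion this
    have hmemL : ∀ i, i ∈ (P m).L false ∪ (P m).L true ↔ i ∈ (P m).L (X.lab i) := by
      intro i
      rw [mem_union]
      constructor
      · rintro (h | h)
        · rw [hlab _ i h]; exact h
        · rw [hlab _ i h]; exact h
      · intro h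
        rcases hl : X.lab i with _ | _
        · rw [hl] at h; exact Or.inl h
        · rw [hl] at h; exact Or.inr h
    set E := A.filter (fun i => i ∈ (P m).L false ∪ (P m).L true) with hE
    set A1 := A.filter (fun i => ¬ i ∈ (P m).L false ∪ (P m).L true) with hA1
    have hEsub : E ⊆ X.hv (k + 1) q ((P m).L false ∪ (P m).L true) := by
      intro i hi
      rw [hE, mem_filter] at hi
      exact mem_filter.2 ⟨hi.2, h1 i hi.1⟩
    have hA1sub : A1 ⊆ S.blk k (m - 1) := by
      intro i hi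
      rw [hA1, mem_filter] at hi
      have h7 := hA hi.1
      have h8 : 2 * m - 1 = 2 * (m - 1) + 1 := by ring
      rw [h8, mem_nextblk_odd hper hP] at h7
      have h9 : m - 1 + 1 = m := by ring
      rw [h9] at h7
      rcases h7 with h7 | h7
      · exact State.bl_subset_blk S X k _ _ ((hP (m - 1)).R_sub _ h7)
      · exact absurd ((hmemL i).2 h7) hi.2
    have hA'mid : ∀ i ∈ A', i ∈ S.mid X k m (P m) (X.lab i) := fun i hi =>
      (mem_nextblk_even hper hP).1 (hA' hi)
    have hWsub : (X.hv (k + 1) q ((P m).L false ∪ (P m).L true) \ E) ∪ A' ⊆ S.blk k m := by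
      intro i hi
      rw [mem_union] at hi
      rcases hi with hi | hi
      · have h7 := (mem_filter.1 (mem_sdiff.1 hi).1).1
        exact State.bl_subset_blk S X k _ _ ((hP m).L_sub _ ((hmemL i).1 h7))
      · exact State.bl_subset_blk S X k _ _ (State.mem_mid.1 (hA'mid i hi)).1
    have hWdis : Disjoint (X.hv (k + 1) q ((P m).L false ∪ (P m).L true) \ E) A' := by
      rw [disjoint_left]
      intro i ha hb
      have h7 := (mem_filter.1 (mem_sdiff.1 ha).1).1
      exact (State.mem_mid.1 (hA'mid i hb)).2.1 ((hmemL i).1 h7)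
    have h7 := en_step hX hc hS m s A1 ((X.hv (k + 1) q ((P m).L false ∪ (P m).L true) \ E) ∪ A')
      hA1sub hWsub (fun i hi => h1 i (mem_filter.1 hi).1) (by
        intro i hi
        rw [mem_union] at hi
        rcases hi with hi | hi
        · exact (mem_filter.1 (mem_sdiff.1 hi).1).2
        · exact h2 i hi)
    have h8 := light_L hX hc hS hP m s
    refine ((h7.add h8).congr fun p hp => ?_).mono hbound
    rw [next_Q_even, piece_split (k := k + 1) (P m).L hdis hp E hEsub, sum_union hWdis,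
      ← sum_filter_add_sum_filter_not A (fun i => i ∈ (P m).L false ∪ (P m).L true)]
    ring
  · -- right new boundary of the block `m`
    have hlab : ∀ γ, ∀ i ∈ (P m).R γ, X.lab i = γ := fun γ i hi =>
      (State.mem_bl.1 ((hP m).R_sub γ hi)).2
    have hdis : Disjoint ((P m).R false) ((P m).R true) := by
      rw [disjoint_left]
      intro i ha hb
      have := hlab _ i ha
      rw [hlab _ i hb] at this
      exact Bool.noConfusion this
    have hmemR : ∀ i, i ∈ (P m).R false ∪ (P m).R true ↔ i ∈ (P m).R (X.lab i) := by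
      intro i
      rw [mem_union]
      constructor
      · rintro (h | h)
        · rw [hlab _ i h]; exact h
        · rw [hlab _ i h]; exact h
      · intro h
        rcases hl : X.lab i with _ | _
        · rw [hl] at h; exact Or.inl h
        · rw [hl] at h; exact Or.inr h
    set E := A'.filter (fun i => i ∈ (P m).R false ∪ (P m).R true) with hE
    set W := A'.filter (fun i => ¬ i ∈ (P m).R false ∪ (P m).R true) with hW
    have hEsub : E ⊆ X.hv (k + 1) q ((P m).R false ∪ (P m).R true) := by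
      intro i hi
      rw [hE, mem_filter] at hi
      exact mem_filter.2 ⟨hi.2, h2 i hi.1⟩
    have hWsub : W ⊆ S.blk k (m + 1) := by
      intro i hi
      rw [hW, mem_filter] at hi
      have h7 := hA' hi.1
      rw [mem_nextblk_odd hper hP] at h7
      rcases h7 with h7 | h7
      · exact absurd ((hmemR i).2 h7) hi.2
      · exact State.bl_subset_blk S X k _ _ ((hP (m + 1)).L_sub _ h7)
    have hAmid : ∀ i ∈ A, i ∈ S.mid X k m (P m) (X.lab i) := by
      intro i hi
      have h7 := hA hi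
      have h8 : 2 * m + 1 - 1 = 2 * m := by ring
      rw [h8, mem_nextblk_even hper hP] at h7
      exact h7
    have hm1 : m + 1 - 1 = m := by ring
    have hA1sub : (X.hv (k + 1) q ((P m).R false ∪ (P m).R true) \ E) ∪ A
        ⊆ S.blk k (m + 1 - 1) := by
      rw [hm1]
      intro i hi
      rw [mem_union] at hi
      rcases hi with hi | hi
      · have h7 := (mem_filter.1 (mem_sdiff.1 hi).1).1
        exact State.bl_subset_blk S X k _ _ ((hP m).R_sub _ ((hmemR i).1 h7))
      · exact State.bl_subset_blk S X k _ _ (State.mem_mid.1 (hAmid i hi)).1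
    have hAdis : Disjoint (X.hv (k + 1) q ((P m).R false ∪ (P m).R true) \ E) A := by
      rw [disjoint_left]
      intro i ha hb
      have h7 := (mem_filter.1 (mem_sdiff.1 ha).1).1
      exact (State.mem_mid.1 (hAmid i hb)).2.2 ((hmemR i).1 h7)
    have h7 := en_step hX hc hS (m + 1) s
      ((X.hv (k + 1) q ((P m).R false ∪ (P m).R true) \ E) ∪ A) W hA1sub hWsub (by
        intro i hi
        rw [mem_union] at hi
        rcases hi with hi | hi
        · exact (mem_filter.1 (mem_sdiff.1 hi).1).2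
        · exact h1 i hi) (fun i hi => h2 i (mem_filter.1 hi).1)
    have h8 := light_R hX hc hS hP m s
    refine ((h7.sub h8).congr fun p hp => ?_).mono hbound
    rw [next_Q_odd, piece_split (k := k + 1) (P m).R hdis hp E hEsub, sum_union hAdis,
      ← sum_filter_add_sum_filter_not A' (fun i => i ∈ (P m).R false ∪ (P m).R true)]
    ring

end low

/-- MODULE ASSEMBLE: the next level. -/
theorem next_good (X : Ctx ι d) (c : Cst) (K0 : ℝ) (hX : X.Good K0) (hc : c.Good X.t0)
    (k : ℕ) (S : State ι d) (hS : S.Good X c k) (P : ℤ → Piece ι)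
    (hper : ∀ j, P (j + 2 ^ k) = P j) (hP : ∀ j, (P j).Good X c S k j) :
    (S.next X k P).Good X c (k + 1) where
  Q_per := next_Q_per hS hper
  yp_per := next_yp_per hper
  ym_per := next_ym_per hper
  Q_succ := next_Q_succ hS hper hP
  yp_le := next_yp_le hP
  ym_le := next_ym_le hP
  ev := next_ev hc hS hper hP
  ctp := next_ctp hper hP
  ctm := next_ctm hper hP
  hip := next_hip hc hS hper hP
  him := next_him hc hS hper hP
  rwp := next_rwp hper hP
  rwm := next_rwm hper hP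
  le := by
    intro j γ s hs
    obtain ⟨s, rfl⟩ : ∃ s', s = s' + 1 := ⟨s - 1, by omega⟩
    rw [cast_low]
    refine (next_le hX hc hS hper hP j γ s).trans (le_of_eq ?_)
    unfold Ctx.mu
    ring
  ls := by
    intro j s hs
    obtain ⟨s, rfl⟩ : ∃ s', s = s' + 1 := ⟨s - 1, by omega⟩
    rw [cast_low]
    refine (next_ls hX hc hS hper hP j s).trans (le_of_eq ?_)
    unfold Ctx.mu
    ring
  en := by
    intro j s hs A A' hA hA' h1 h2
    obtain ⟨s, rfl⟩ : ∃ s', s = s' + 1 := ⟨s - 1, by omega⟩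
    rw [cast_low] at h1 h2 ⊢
    refine (next_en hX hc hS hper hP j s A A' hA hA' h1 h2).trans (le_of_eq ?_)
    unfold Ctx.mu
    ring

end

end Vale.Agent.Steinitz2
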