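import Vale.Agent.Lib.Steinitz2.Trans

/-!
# P262 log-free bound, module PIECES: the pieces of a block from `block_step`
-/

namespace Vale.Agent.Steinitz2

open Finset

section rows

variable {ι : Type} {d : ℕ}

theorem Ctx.thr_anti (X : Ctx ι d) (k : ℕ) (q : ℤ) : X.thr (k + 1) q ≤ X.thr k q := by
  unfold Ctx.thr
  have h : (2 : ℝ) ^ (q - ((k + 1 : ℕ) : ℤ)) ≤ 2 ^ (q - (k : ℤ)) :=
    zpow_le_zpow_right₀ (by norm_num) (by push_cast; linarith)
  have := mul_le_mul_of_nonneg_right h (X.mc_nonneg q)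
  linarith

theorem Ctx.thr_nonneg (X : Ctx ι d) (k : ℕ) (q : ℤ) : 0 ≤ X.thr k q := by
  unfold Ctx.thr
  have := X.mc_nonneg q
  positivity

/-- the energy of the rows of one element -/
theorem Ctx.row_sq (X : Ctx ι d) (k : ℕ) (q : ℤ) (i : ι) :
    ∑ r, X.row k q r i ^ 2 ≤ if X.En q i ≤ X.thr k q then 2 * X.En q i else 0 := by
  rw [Fintype.sum_option]
  unfold Ctx.row
  simp only
  have h0 := X.En_nonneg q i
  by_cases h : X.En q i ≤ X.thr k q
  · simp only [h, if_true, and_true]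
    have h1 : (X.En q i / Real.sqrt (X.thr k q)) ^ 2 ≤ X.En q i := by
      rw [div_pow, Real.sq_sqrt (X.thr_nonneg k q)]
      rcases (X.thr_nonneg k q).eq_or_lt with e | e
      · rw [← e, div_zero]
        exact h0
      · rw [div_le_iff₀ e, sq]
        exact mul_le_mul_of_nonneg_left h h0
    have h2 : ∑ p, (if X.cls p = q then X.v i p else 0) ^ 2 = X.En q i := by
      unfold Ctx.En Ctx.cl
      rw [sum_filter]
      refine sum_congr rfl fun p _ => ?_
      split_ifs <;> simp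
    rw [h2]
    linarith
  · simp [h]

/-- the rows of an empty class vanish -/
theorem Ctx.row_empty (X : Ctx ι d) (k : ℕ) (q : ℤ) (h : X.cl q = ∅) (r : Option (Fin d))
    (i : ι) : X.row k q r i = 0 := by
  unfold Ctx.row
  cases r with
  | none =>
    have : X.En q i = 0 := by unfold Ctx.En; rw [h, sum_empty]
    simp [this]
  | some j =>
    have : X.cls j ≠ q := by
      intro e
      have : j ∈ X.cl q := mem_filter.2 ⟨mem_univ _, e⟩
      rw [h] at this
      simp at this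
    simp [this]

theorem Ctx.cl_empty (X : Ctx ι d) (q : ℤ) (h : q ∉ univ.image X.cls) : X.cl q = ∅ := by
  rw [Finset.eq_empty_iff_forall_notMem]
  intro p hp
  exact h (mem_image.2 ⟨p, mem_univ _, (mem_filter.1 hp).2⟩)

end rows

section energy

variable {ι : Type} {d : ℕ} [Fintype ι]

/-- energy of the rows of level `k + 1` or `k + 2` in a low class -/
theorem State.Good.row_energy {S : State ι d} {X : Ctx ι d} {c : Cst} {k : ℕ} {K0 : ℝ}
    (hX : X.Good K0) (hc : c.Good X.t0) (h : S.Good X c k) (j : ℤ) (γ : Bool) (s e : ℕ)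
    (he : 1 ≤ e) (he2 : e ≤ 2) :
    ∑ r, ∑ i ∈ S.bl X k j γ, X.row (k + e) (k + X.t0 - s) r i ^ 2
      ≤ 8 * c.ke ^ 2 * 2 ^ X.t0 * X.mc (k + X.t0 - s) * (9 / 16) ^ (s + e) := by
  set q : ℤ := (k : ℤ) + X.t0 - s with hq
  have h1 := h.le0 hX hc j γ s
  rw [← hq] at h1
  rw [sum_comm]
  have hthr : X.thr (k + e) q ≤ X.thr k q := by
    interval_cases e
    · exact X.thr_anti k q
    · exact (X.thr_anti (k + 1) q).trans (X.thr_anti k q)
  have h2 : ∑ i ∈ S.bl X k j γ, ∑ r, X.row (k + e) q r i ^ 2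
      ≤ 2 * ∑ i ∈ S.bl X k j γ with X.En q i ≤ X.thr k q, X.En q i := by
    rw [sum_filter, mul_sum]
    refine sum_le_sum fun i _ => (X.row_sq (k + e) q i).trans ?_
    have h0 := X.En_nonneg q i
    by_cases hh : X.En q i ≤ X.thr (k + e) q
    · rw [if_pos hh, if_pos (hh.trans hthr)]
    · rw [if_neg hh]
      split_ifs <;> linarith
  refine h2.trans ?_
  have hm := X.mc_nonneg q
  have h3 : 2 * (c.ke ^ 2 * 2 ^ X.t0 * X.mc q * (9 / 16) ^ s)
      ≤ 8 * c.ke ^ 2 * 2 ^ X.t0 * X.mc q * (9 / 16) ^ (s + e) := by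
    have h4 : (0 : ℝ) ≤ c.ke ^ 2 * 2 ^ X.t0 * X.mc q * (9 / 16) ^ s := by positivity
    have h5 : 8 * c.ke ^ 2 * 2 ^ X.t0 * X.mc q * (9 / 16) ^ (s + e)
        = (c.ke ^ 2 * 2 ^ X.t0 * X.mc q * (9 / 16) ^ s) * (8 * (9 / 16) ^ e) := by
      rw [pow_add]; ring
    have h6 : (2 : ℝ) ≤ 8 * (9 / 16) ^ e := by
      interval_cases e <;> norm_num
    rw [h5, mul_comm 2]
    exact mul_le_mul_of_nonneg_left h6 h4
  linarith

/-- energy of the rows of level `k + 2` in the class of offset `1` -/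
theorem State.Good.row_energy' {S : State ι d} {X : Ctx ι d} {c : Cst} {k : ℕ} {K0 : ℝ}
    (hX : X.Good K0) (hc : c.Good X.t0) (h : S.Good X c k) (j : ℤ) (γ : Bool) :
    ∑ r, ∑ i ∈ S.bl X k j γ, X.row (k + 2) (k + X.t0 + (1 : ℕ)) r i ^ 2
      ≤ 8 * c.ke ^ 2 * 2 ^ X.t0 * X.mc (k + X.t0 + (1 : ℕ)) * (9 / 16) ^ 1 := by
  set q : ℤ := (k : ℤ) + X.t0 + (1 : ℕ) with hq
  have h1 := h.trace hX hc j γ 1
  rw [← hq] at h1
  rw [sum_comm]
  have h2 : ∑ i ∈ S.bl X k j γ, ∑ r, X.row (k + 2) q r i ^ 2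
      ≤ 2 * ∑ i ∈ S.bl X k j γ, X.En q i := by
    rw [mul_sum]
    refine sum_le_sum fun i _ => (X.row_sq (k + 2) q i).trans ?_
    have h0 := X.En_nonneg q i
    split_ifs <;> linarith
  refine h2.trans ?_
  have hm := X.mc_nonneg q
  have h4 : (0 : ℝ) ≤ 2 ^ X.t0 * X.mc q := by positivity
  have hke : 2 ≤ c.ke ^ 2 := by
    have e1 := hc.c6_ge
    have e2 := hc.ke_ge
    nlinarith
  have h5 := mul_le_mul_of_nonneg_right hke h4
  rw [pow_one] at h1 ⊢
  nlinarith

end energy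

/-- MODULE PIECES, from the statement of `block_step`. -/
theorem exists_pieces_of (block_step : ∃ C6 : ℝ, 1 ≤ C6 ∧ ∀ K : ℝ, 1 ≤ K → ∃ T1 : ℝ, ∀ t0 : ℕ, T1 ≤ 2 ^ t0 →
    ∀ (ι Qt Λt : Type) [Fintype ι] [DecidableEq ι] [Fintype Λt] (d : ℕ) (v : ι → Fin d → ℝ)
      (_ : ∀ i, ∑ j, v i j ^ 2 ≤ 1) (Hc : Finset (Fin d)) (s : Fin d → ℕ)
      (Y : Fin d → ℝ) (_ : ∀ j ∈ Hc, 2 * 2 ^ t0 * 2 ^ (s j) ≤ Y j)
      (_ : ∀ j ∈ Hc, Y j ≤ 4 * 2 ^ t0 * 2 ^ (s j))
      (Ba Bb : Finset ι)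
      (_ : ∀ n : ℕ, ∑ j ∈ Hc with s j = n, ∑ l,
        (∑ i ∈ Ba, v i j * v i l - if j = l then Y j / 2 else 0) ^ 2
          ≤ K * 2 ^ t0 * cn Hc s n * (9 / 4) ^ n)
      (_ : ∀ n : ℕ, ∑ j ∈ Hc with s j = n, ∑ l,
        (∑ i ∈ Bb, v i j * v i l - if j = l then Y j / 2 else 0) ^ 2
          ≤ K * 2 ^ t0 * cn Hc s n * (9 / 4) ^ n)
      (yl yr : ι → ℝ) (_ : ∀ i, |yl i| ≤ 1 / 32) (_ : ∀ i, |yr i| ≤ 1 / 32)
      (_ : ∀ n : ℕ, ∑ j ∈ Hc with s j = n, ∑ l, (∑ i ∈ Bb, yl i * (v i j * v i l)) ^ 2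
          ≤ K * 2 ^ t0 * cn Hc s n * (9 / 4) ^ n)
      (_ : ∀ n : ℕ, ∑ j ∈ Hc with s j = n, ∑ l, (∑ i ∈ Bb, yr i * (v i j * v i l)) ^ 2
          ≤ K * 2 ^ t0 * cn Hc s n * (9 / 4) ^ n)
      (Qs : Finset Qt) (sQ : Qt → ℕ) (_ : ∀ n : ℕ, (Qs.filter (fun q => sQ q = n)).card ≤ 4)
      (f : Qt → Λt → ι → ℝ) (Lb : Qt → ℝ) (_ : ∀ q ∈ Qs, 0 ≤ Lb q)
      (_ : ∀ q ∈ Qs, ∑ r, ∑ i ∈ Ba, f q r i ^ 2 ≤ Lb q)
      (_ : ∀ q ∈ Qs, ∑ r, ∑ i ∈ Bb, f q r i ^ 2 ≤ Lb q),
    ∃ S : Split ι, S.Good v Hc s C6 t0 Ba Bb yl yr Qs sQ f Lb) :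
    ∃ c6 : ℝ, 1 ≤ c6 ∧ ∀ c : Cst, c.c6 = c6 → ∃ T1 : ℝ,
    ∀ (ι : Type) [Fintype ι] [DecidableEq ι] (d : ℕ) (X : Ctx ι d) (K0 : ℝ) (_ : X.Good K0)
      (_ : c.Good X.t0) (_ : T1 ≤ 2 ^ X.t0) (k : ℕ) (S : State ι d) (_ : S.Good X c k) (j : ℤ),
      ∃ P : Piece ι, P.Good X c S k j := by
  obtain ⟨C6, hC6, hB⟩ := block_step
  refine ⟨Real.sqrt C6, Real.one_le_sqrt.2 hC6, fun c hcc => ?_⟩
  have hc6 : c.c6 ^ 2 = C6 := by rw [hcc]; exact Real.sq_sqrt (by linarith)
  obtain ⟨T1, hT1⟩ := hB (max 1 (9 / 4 * c.k1 ^ 2)) (le_max_left _ _)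
  refine ⟨T1, ?_⟩
  intro ι _ _ d X K0 hX hc hT k S hS j
  set Hc : Finset (Fin d) := univ.filter (fun p => (k : ℤ) + 1 + X.t0 ≤ X.cls p) with hHc
  set s : Fin d → ℕ := fun p => (X.cls p - (k + 1) - X.t0).toNat with hs
  have hcl : ∀ n : ℕ, Hc.filter (fun p => s p = n) = X.cl ((k + 1 : ℕ) + X.t0 + n) := by
    intro n
    ext p
    simp only [hHc, hs, Ctx.cl, mem_filter, mem_univ, true_and]
    push_cast
    constructor
    · rintro ⟨h1, h2⟩
      omega
    · intro h
      constructor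
      · omega
      · omega
  have hcn : ∀ n : ℕ, cn Hc s n = X.mc ((k + 1 : ℕ) + X.t0 + n) := by
    intro n
    unfold cn Ctx.mc
    rw [hcl]
  have hcl' : ∀ n : ℕ, ((k + 1 : ℕ) : ℤ) + X.t0 + n = k + X.t0 + ((n + 1 : ℕ) : ℤ) := by
    intro n
    push_cast
    ring
  have hk1 : 9 / 4 * c.k1 ^ 2 ≤ max 1 (9 / 4 * c.k1 ^ 2) := le_max_right _ _
  have hsc : ∀ p ∈ Hc, X.cls p = ((k + 1 + X.t0 + s p : ℕ) : ℤ) := by
    intro p hp
    have := (mem_filter.1 hp).2
    simp only [hs]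
    push_cast
    omega
  have hfac : ∀ (A : ℝ) (n : ℕ), 0 ≤ A → A ≤ c.k1 ^ 2 →
      A * 2 ^ X.t0 * X.mc (k + X.t0 + ((n + 1 : ℕ) : ℤ)) * (9 / 4) ^ (n + 1)
      ≤ max 1 (9 / 4 * c.k1 ^ 2) * 2 ^ X.t0 * cn Hc s n * (9 / 4) ^ n := by
    intro A n hA0 hA
    rw [hcn, hcl']
    have hm := X.mc_nonneg (k + X.t0 + ((n + 1 : ℕ) : ℤ))
    have e1 : A * 2 ^ X.t0 * X.mc (k + X.t0 + ((n + 1 : ℕ) : ℤ)) * (9 / 4) ^ (n + 1)
        = (9 / 4 * A) * (2 ^ X.t0 * X.mc (k + X.t0 + ((n + 1 : ℕ) : ℤ)) * (9 / 4) ^ n) := by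
      rw [pow_succ]; ring
    have e2 : max 1 (9 / 4 * c.k1 ^ 2) * 2 ^ X.t0 * X.mc (k + X.t0 + ((n + 1 : ℕ) : ℤ))
        * (9 / 4) ^ n
        = max 1 (9 / 4 * c.k1 ^ 2)
          * (2 ^ X.t0 * X.mc (k + X.t0 + ((n + 1 : ℕ) : ℤ)) * (9 / 4) ^ n) := by ring
    rw [e1, e2]
    exact mul_le_mul_of_nonneg_right (by linarith) (by positivity)
  -- the generic rows
  set off : ℤ × Bool → ℤ := fun z => if z.2 then k + 2 + X.t0 - z.1 else k + 1 + X.t0 - z.1
    with hoff
  set Qs : Finset (ℤ × Bool) := ((univ.image X.cls) ×ˢ univ).filter (fun z => 1 ≤ off z) with hQs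
  set sQ : ℤ × Bool → ℕ := fun z => (off z).toNat with hsQ
  set f : ℤ × Bool → Option (Fin d) → ι → ℝ :=
    fun z r i => if z.2 then X.row (k + 1 + 1) z.1 r i else X.row (k + 1) z.1 r i with hf
  set Lb : ℤ × Bool → ℝ := fun z => 8 * c.ke ^ 2 * 2 ^ X.t0 * X.mc z.1 * (9 / 16) ^ (sQ z)
    with hLb
  have hcard : ∀ n : ℕ, (Qs.filter (fun q => sQ q = n)).card ≤ 4 := by
    intro n
    have h1 : (Qs.filter (fun q => sQ q = n)).card ≤ (univ : Finset Bool).card := by
      refine Finset.card_le_card_of_injOn (fun z => z.2) (fun _ _ => mem_coe.2 (mem_univ _)) ?_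
      intro z hz w hw hzw
      have hz' := mem_filter.1 (mem_coe.1 hz)
      have hw' := mem_filter.1 (mem_coe.1 hw)
      have hz1 := (mem_filter.1 hz'.1).2
      have hw1 := (mem_filter.1 hw'.1).2
      have hz2 := hz'.2
      have hw2 := hw'.2
      obtain ⟨z1, z2⟩ := z
      obtain ⟨w1, w2⟩ := w
      simp only at hzw
      subst hzw
      simp only [hsQ, hoff] at hz1 hw1 hz2 hw2
      cases z2 <;> simp at hz1 hw1 hz2 hw2 ⊢ <;> omega
    exact h1.trans (by simp)
  have hLb0 : ∀ q ∈ Qs, 0 ≤ Lb q := by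
    intro q _
    have := X.mc_nonneg q.1
    simp only [hLb]
    positivity
  have hen : ∀ γ : Bool, ∀ q ∈ Qs, ∑ r, ∑ i ∈ S.bl X k j γ, f q r i ^ 2 ≤ Lb q := by
    intro γ z hz
    have hz1 := (mem_filter.1 hz).2
    obtain ⟨q, b⟩ := z
    cases b with
    | false =>
      have h1 : (1 : ℤ) ≤ k + 1 + X.t0 - q := by simpa [hoff] using hz1
      obtain ⟨s', hs'⟩ : ∃ s' : ℕ, q = k + X.t0 - s' := ⟨(k + X.t0 - q).toNat, by omega⟩
      have h2 : sQ (q, false) = s' + 1 := by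
        simp only [hsQ, hoff, Bool.false_eq_true, if_false]
        omega
      have h3 := hS.row_energy hX hc j γ s' 1 le_rfl (by norm_num)
      rw [← hs'] at h3
      simp only [hLb, hf, h2, Bool.false_eq_true, if_false]
      exact h3
    | true =>
      have h1 : (1 : ℤ) ≤ k + 2 + X.t0 - q := by simpa [hoff] using hz1
      rcases lt_or_ge (k + X.t0 : ℤ) q with hlt | hge
      · have hq : q = k + X.t0 + (1 : ℕ) := by push_cast; omega
        have h2 : sQ (q, true) = 1 := by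
          simp only [hsQ, hoff, if_true]
          omega
        have h3 := hS.row_energy' hX hc j γ
        rw [← hq] at h3
        simp only [hLb, hf, h2, if_true]
        exact h3
      · obtain ⟨s', hs'⟩ : ∃ s' : ℕ, q = k + X.t0 - s' := ⟨(k + X.t0 - q).toNat, by omega⟩
        have h2 : sQ (q, true) = s' + 2 := by
          simp only [hsQ, hoff, if_true]
          omega
        have h3 := hS.row_energy hX hc j γ s' 2 (by norm_num) le_rfl
        rw [← hs'] at h3
        simp only [hLb, hf, h2, if_true]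
        exact h3
  obtain ⟨P, hP⟩ := hT1 X.t0 hT ι (ℤ × Bool) (Option (Fin d)) d X.v hX.norm_le Hc s
    (fun p => X.a p / 2 ^ k)
    (by
      intro p hp
      have h1 := hX.cls_le p
      rw [hsc p hp, zpow_natCast, pow_add, pow_add, pow_add, pow_one] at h1
      rw [le_div_iff₀ (by positivity)]
      linarith)
    (by
      intro p hp
      have h1 := (hX.lt_cls p).le
      have h2 : (2 : ℝ) ^ (X.cls p + 1) = 2 ^ k * 2 * 2 ^ X.t0 * 2 ^ (s p) * 2 := by
        rw [hsc p hp, zpow_add₀ (by norm_num), zpow_natCast, pow_add, pow_add, pow_add, pow_one,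
          zpow_one]
      rw [div_le_iff₀ (by positivity)]
      linarith)
    (S.bl X k j false) (S.bl X k j true)
    (by
      intro n
      rw [hcl]
      refine le_trans ?_ (hfac _ n (sq_nonneg _) le_rfl)
      rw [hcl']
      exact hS.ev j false (n + 1))
    (by
      intro n
      rw [hcl]
      refine le_trans ?_ (hfac _ n (sq_nonneg _) le_rfl)
      rw [hcl']
      exact hS.ev j true (n + 1))
    (S.yp j) (S.ym (j + 1)) (hS.yp_le j) (hS.ym_le (j + 1))
    (by
      intro n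
      rw [hcl]
      refine le_trans ?_ (hfac (c.c6 ^ 2) n (sq_nonneg _) ?_)
      · rw [hcl']
        exact hS.ctp j (n + 1)
      · have e1 := hc.c6_ge
        have e2 := hc.k1_ge
        exact pow_le_pow_left₀ (by linarith) (by linarith) 2)
    (by
      intro n
      rw [hcl]
      refine le_trans ?_ (hfac (c.c6 ^ 2) n (sq_nonneg _) ?_)
      · rw [hcl']
        exact hS.ctm j (n + 1)
      · have e1 := hc.c6_ge
        have e2 := hc.k1_ge
        exact pow_le_pow_left₀ (by linarith) (by linarith) 2)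
    Qs sQ hcard f Lb hLb0 (hen false) (hen true)
  -- membership of rows
  have hmemF : ∀ s' : ℕ, X.cl (k + X.t0 - s') = ∅ ∨
      (((k : ℤ) + X.t0 - s', false) ∈ Qs ∧ sQ ((k : ℤ) + X.t0 - s', false) = s' + 1) := by
    intro s'
    by_cases hq : (k : ℤ) + X.t0 - s' ∈ univ.image X.cls
    · right
      constructor
      · refine mem_filter.2 ⟨mem_product.2 ⟨hq, mem_univ _⟩, ?_⟩
        simp only [hoff, Bool.false_eq_true, if_false]
        omega
      · simp only [hsQ, hoff, Bool.false_eq_true, if_false]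
        omega
    · left
      exact X.cl_empty _ hq
  have hmemT : ∀ s' : ℕ, X.cl ((k + 1 : ℕ) + X.t0 - s') = ∅ ∨
      ((((k + 1 : ℕ) : ℤ) + X.t0 - s', true) ∈ Qs ∧
        sQ (((k + 1 : ℕ) : ℤ) + X.t0 - s', true) = s' + 1) := by
    intro s'
    by_cases hq : ((k + 1 : ℕ) : ℤ) + X.t0 - s' ∈ univ.image X.cls
    · right
      constructor
      · refine mem_filter.2 ⟨mem_product.2 ⟨hq, mem_univ _⟩, ?_⟩
        simp only [hoff, if_true]
        push_cast
        omega
      · simp only [hsQ, hoff, if_true]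
        push_cast
        omega
    · left
      exact X.cl_empty _ hq
  have hmc0 : ∀ q : ℤ, X.cl q = ∅ → X.mc q = 0 := by
    intro q hq
    unfold Ctx.mc
    rw [hq]
    simp
  have fL0 : ∀ i, S.fL j false i = 1 / 4 := fun i => by simp [State.fL]
  have fR0 : ∀ i, S.fR j false i = 1 / 4 := fun i => by simp [State.fR]
  have fL1 : ∀ i, S.fL j true i = 1 / 4 - 3 / 4 * S.yp j i - 1 / 4 * S.ym (j + 1) i :=
    fun i => by simp [State.fL]
  have fR1 : ∀ i, S.fR j true i = 1 / 4 + 1 / 4 * S.yp j i + 3 / 4 * S.ym (j + 1) i :=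
    fun i => by simp [State.fR]
  refine ⟨⟨fun γ => if γ then P.Lb else P.La, fun γ => if γ then P.Rb else P.Ra,
    P.w1L, P.w1C, P.w2C, P.w2R⟩, ?_⟩
  have hfF : ∀ (s' : ℕ) (r : Option (Fin d)) (i : ι), f ((k : ℤ) + X.t0 - s', false) r i
      = X.row (k + 1) (k + X.t0 - s') r i := by
    intro s' r i
    simp only [hf, Bool.false_eq_true, if_false]
  have hfT : ∀ (s' : ℕ) (r : Option (Fin d)) (i : ι), f (((k + 1 : ℕ) : ℤ) + X.t0 - s', true) r i
      = X.row (k + 1 + 1) ((k + 1 : ℕ) + X.t0 - s') r i := by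
    intro s' r i
    simp only [hf, if_true]
  constructor
  · intro γ
    cases γ
    · simpa using hP.La_sub
    · simpa using hP.Lb_sub
  · intro γ
    cases γ
    · simpa using hP.Ra_sub
    · simpa using hP.Rb_sub
  · intro γ
    cases γ
    · simpa using hP.disj_a
    · simpa using hP.disj_b
  · exact hP.w1L_le
  · exact hP.w1C_le
  · exact hP.w2C_le
  · exact hP.w2R_le
  · intro n
    have h1 := hP.cert1L n
    rw [hcl, hcn] at h1
    rw [hc6]
    simpa only [fL0, fL1, Bool.false_eq_true, if_false, if_true, ← mul_sum] using h1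
  · intro n
    have h1 := hP.cert1C n
    rw [hcl, hcn] at h1
    rw [hc6]
    simpa only [fL0, fL1, State.mid, Bool.false_eq_true, if_false, if_true, ← mul_sum] using h1
  · intro n
    have h1 := hP.cert2C n
    rw [hcl, hcn] at h1
    rw [hc6]
    simpa only [fR0, fR1, State.mid, Bool.false_eq_true, if_false, if_true, ← mul_sum] using h1
  · intro n
    have h1 := hP.cert2R n
    rw [hcl, hcn] at h1
    rw [hc6]
    simpa only [fR0, fR1, Bool.false_eq_true, if_false, if_true, ← mul_sum] using h1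
  · intro γ n
    rw [hc6]
    cases γ
    · have h1 := hP.evLa n
      rw [hcl, hcn] at h1
      simpa only [fL0, Bool.false_eq_true, if_false, ← mul_sum] using h1
    · have h1 := hP.evLb n
      rw [hcl, hcn] at h1
      simpa only [fL1, if_true] using h1
  · intro γ n
    rw [hc6]
    cases γ
    · have h1 := hP.evRa n
      rw [hcl, hcn] at h1
      simpa only [fR0, Bool.false_eq_true, if_false, ← mul_sum] using h1
    · have h1 := hP.evRb n
      rw [hcl, hcn] at h1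
      simpa only [fR1, if_true] using h1
  · intro n
    have h1 := hP.ct1L n
    rw [hcl, hcn] at h1
    rw [hc6]
    simpa only [if_true] using h1
  · intro n
    have h1 := hP.ct1C n
    rw [hcl, hcn] at h1
    rw [hc6]
    simpa only [State.mid, if_true] using h1
  · intro n
    have h1 := hP.ct2C n
    rw [hcl, hcn] at h1
    rw [hc6]
    simpa only [State.mid, if_true] using h1
  · intro n
    have h1 := hP.ct2R n
    rw [hcl, hcn] at h1
    rw [hc6]
    simpa only [if_true] using h1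
  · intro γ s'
    rcases hmemF s' with he | ⟨hm, hsq⟩
    · simp only [X.row_empty _ _ he, hmc0 _ he, mul_zero, sum_const_zero, zero_mul, sub_zero]
      norm_num
    · rw [hc6]
      cases γ
      · have h1 := hP.rwLa _ hm
        simp only [hLb, hsq, hfF] at h1
        simpa only [fL0, Bool.false_eq_true, if_false, ← mul_sum] using h1
      · have h1 := hP.rwLb _ hm
        simp only [hLb, hsq, hfF] at h1
        simpa only [fL1, if_true] using h1
  · intro γ s'
    rcases hmemF s' with he | ⟨hm, hsq⟩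
    · simp only [X.row_empty _ _ he, hmc0 _ he, mul_zero, sum_const_zero, zero_mul, sub_zero]
      norm_num
    · rw [hc6]
      cases γ
      · have h1 := hP.rwRa _ hm
        simp only [hLb, hsq, hfF] at h1
        simpa only [fR0, Bool.false_eq_true, if_false, ← mul_sum] using h1
      · have h1 := hP.rwRb _ hm
        simp only [hLb, hsq, hfF] at h1
        simpa only [fR1, if_true] using h1
  · intro s'
    rcases hmemT s' with he | ⟨hm, hsq⟩
    · simp only [X.row_empty _ _ he, hmc0 _ he, mul_zero, sum_const_zero, zero_mul]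
      norm_num
    · rw [hc6]
      have h1 := hP.cr1L _ hm
      simp only [hLb, hsq, hfT] at h1
      simpa only [if_true] using h1
  · intro s'
    rcases hmemT s' with he | ⟨hm, hsq⟩
    · simp only [X.row_empty _ _ he, hmc0 _ he, mul_zero, sum_const_zero, zero_mul]
      norm_num
    · rw [hc6]
      have h1 := hP.cr1C _ hm
      simp only [hLb, hsq, hfT] at h1
      simpa only [State.mid, if_true] using h1
  · intro s'
    rcases hmemT s' with he | ⟨hm, hsq⟩
    · simp only [X.row_empty _ _ he, hmc0 _ he, mul_zero, sum_const_zero, zero_mul]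
      norm_num
    · rw [hc6]
      have h1 := hP.cr2C _ hm
      simp only [hLb, hsq, hfT] at h1
      simpa only [State.mid, if_true] using h1
  · intro s'
    rcases hmemT s' with he | ⟨hm, hsq⟩
    · simp only [X.row_empty _ _ he, hmc0 _ he, mul_zero, sum_const_zero, zero_mul]
      norm_num
    · rw [hc6]
      have h1 := hP.cr2R _ hm
      simp only [hLb, hsq, hfT] at h1
      simpa only [if_true] using h1

end Vale.Agent.Steinitz2
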