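import Mathlib
import Vale.Agent.Lib.Steinitz2.LDefs

/-!
# P262 log-free bound: the root of the tree (`exists_ctx`)
-/

namespace Vale.Agent.Steinitz2

open Finset

/-- signs with a small sum of squares -/
theorem exists_signs {ι Wt : Type*} [DecidableEq ι] (F : Finset ι) (Ω : Finset Wt)
    (w : Wt → ι → ℝ) :
    ∃ ε : ι → ℝ, (∀ i, ε i = 1 ∨ ε i = -1) ∧
      ∑ ω ∈ Ω, (∑ i ∈ F, ε i * w ω i) ^ 2 ≤ ∑ ω ∈ Ω, ∑ i ∈ F, w ω i ^ 2 := by
  induction F using Finset.induction_on with
  | empty => exact ⟨fun _ => 1, fun _ => Or.inl rfl, by simp⟩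
  | insert a F ha ih =>
    obtain ⟨ε, hε, h⟩ := ih
    set c := ∑ ω ∈ Ω, (∑ i ∈ F, ε i * w ω i) * w ω a with hc
    have key : ∀ s : ℝ, (s = 1 ∨ s = -1) → s * c ≤ 0 → ∃ ε : ι → ℝ,
        (∀ i, ε i = 1 ∨ ε i = -1) ∧
        ∑ ω ∈ Ω, (∑ i ∈ insert a F, ε i * w ω i) ^ 2
          ≤ ∑ ω ∈ Ω, ∑ i ∈ insert a F, w ω i ^ 2 := by
      intro s hs hsc
      refine ⟨Function.update ε a s, ?_, ?_⟩
      · intro i
        by_cases hi : i = a
        · subst hi
          simpa using hs
        · rw [Function.update_of_ne hi]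
          exact hε i
      · have h1 : ∀ ω, ∑ i ∈ insert a F, Function.update ε a s i * w ω i
            = s * w ω a + ∑ i ∈ F, ε i * w ω i := by
          intro ω
          rw [Finset.sum_insert ha, Function.update_self]
          congr 1
          apply Finset.sum_congr rfl
          intro i hi
          have hia : i ≠ a := fun h => ha (h ▸ hi)
          rw [Function.update_of_ne hia]
        simp only [h1, Finset.sum_insert ha]
        have hs2 : s ^ 2 = 1 := by rcases hs with rfl | rfl <;> norm_num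
        have h2 : ∑ ω ∈ Ω, (s * w ω a + ∑ i ∈ F, ε i * w ω i) ^ 2
            = ∑ ω ∈ Ω, w ω a ^ 2 + 2 * (s * c) + ∑ ω ∈ Ω, (∑ i ∈ F, ε i * w ω i) ^ 2 := by
          rw [hc, Finset.mul_sum, Finset.mul_sum, ← Finset.sum_add_distrib,
            ← Finset.sum_add_distrib]
          apply Finset.sum_congr rfl
          intro ω _
          have h3 : (s * w ω a) ^ 2 = w ω a ^ 2 := by rw [mul_pow, hs2, one_mul]
          rw [add_sq, h3]
          ring
        rw [h2, Finset.sum_add_distrib]
        linarith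
    rcases le_total c 0 with h0 | h0
    · exact key 1 (Or.inl rfl) (by linarith)
    · exact key (-1) (Or.inr rfl) (by linarith)

/-- a finite sum of powers of `8/9` -/
theorem sum_pow_le (S : Finset ℕ) : ∑ n ∈ S, (8 / 9 : ℝ) ^ n ≤ 9 := by
  have h1 : HasSum (fun n : ℕ => (8 / 9 : ℝ) ^ n) (1 - 8 / 9)⁻¹ :=
    hasSum_geometric_of_lt_one (by norm_num) (by norm_num)
  have h2 := sum_le_hasSum S (fun n _ => by positivity) h1
  norm_num at h2
  exact h2

/-- MODULE ROOT. -/
theorem exists_ctx : ∃ K0 : ℝ, ∀ (t0 N d : ℕ) (v : Fin N → EuclideanSpace ℝ (Fin d)),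
    Submodule.span ℝ (Set.range v) = ⊤ → (∀ i, ‖v i‖ ≤ 1) → ∑ i, v i = 0 →
    ∃ (b : OrthonormalBasis (Fin d) ℝ (EuclideanSpace ℝ (Fin d))) (X : Ctx (Fin N) d),
      X.t0 = t0 ∧ X.Good K0 ∧ ∀ i j, X.v i j = inner ℝ (v i) (b j) := by
  refine ⟨18, fun t0 N d v hspan hv hsum => ?_⟩
  let A : Matrix (Fin d) (Fin d) ℝ := Matrix.of fun p l => ∑ i, v i p * v i l
  have hA : A.IsHermitian := by
    ext p l
    simp [A, mul_comm]
  obtain ⟨b, hb⟩ : ∃ b, b = hA.eigenvectorBasis := ⟨_, rfl⟩
  obtain ⟨a, ha⟩ : ∃ a, a = hA.eigenvalues := ⟨_, rfl⟩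
  have hin : ∀ x y : EuclideanSpace ℝ (Fin d), inner ℝ x y = ∑ q, x q * y q := by
    intro x y
    rw [PiLp.inner_apply]
    apply Finset.sum_congr rfl
    intro q _
    simp [mul_comm]
  have hgram : ∀ p l, ∑ i, inner ℝ (v i) (b p) * inner ℝ (v i) (b l) = if p = l then a p else 0 := by
    intro p l
    have h1 : ∀ q, ∑ i, v i q * inner ℝ (v i) (b l) = a l * b l q := by
      intro q
      have h2 := congrFun (hA.mulVec_eigenvectorBasis l) q
      rw [← hb, ← ha] at h2
      simp only [Matrix.mulVec, dotProduct, A, Matrix.of_apply, Pi.smul_apply, smul_eq_mul] at h2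
      rw [← h2]
      simp only [hin, Finset.mul_sum, Finset.sum_mul]
      rw [Finset.sum_comm]
      apply Finset.sum_congr rfl
      intro r _
      apply Finset.sum_congr rfl
      intro i _
      ring
    have h3 : ∑ i, inner ℝ (v i) (b p) * inner ℝ (v i) (b l)
        = ∑ q, b p q * ∑ i, v i q * inner ℝ (v i) (b l) := by
      simp only [Finset.mul_sum]
      rw [Finset.sum_comm]
      apply Finset.sum_congr rfl
      intro i _
      rw [hin (v i) (b p), Finset.sum_mul]
      apply Finset.sum_congr rfl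
      intro q _
      ring
    rw [h3]
    simp only [h1]
    have h4 : ∑ q, b p q * (a l * b l q) = a l * inner ℝ (b p) (b l) := by
      rw [hin, Finset.mul_sum]
      apply Finset.sum_congr rfl
      intro q _
      ring
    rw [h4]
    have h5 := orthonormal_iff_ite.1 b.orthonormal p l
    rw [h5]
    by_cases hpl : p = l
    · subst hpl
      simp
    · simp [hpl]
  have hpars : ∀ i, ∑ j, (inner ℝ (v i) (b j)) ^ 2 ≤ 1 := by
    intro i
    have h1 : ∑ j, (inner ℝ (v i) (b j)) ^ 2 = ‖v i‖ ^ 2 := by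
      have h2 := b.sum_inner_mul_inner (v i) (v i)
      rw [real_inner_self_eq_norm_sq] at h2
      rw [← h2]
      apply Finset.sum_congr rfl
      intro j _
      rw [real_inner_comm (v i) (b j), sq]
    rw [h1]
    have h3 := hv i
    have h4 := norm_nonneg (v i)
    nlinarith
  have hapos : ∀ p, 0 < a p := by
    intro p
    have h1 := hgram p p
    rw [if_pos rfl] at h1
    have h2 : 0 ≤ a p := by
      rw [← h1]
      exact Finset.sum_nonneg fun i _ => mul_self_nonneg _
    rcases h2.lt_or_eq with h3 | h3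
    · exact h3
    · exfalso
      rw [← h3] at h1
      have h4 : ∀ i, inner ℝ (v i) (b p) = 0 := by
        intro i
        have h5 := (Finset.sum_eq_zero_iff_of_nonneg (fun i _ => mul_self_nonneg _)).1 h1 i
          (Finset.mem_univ i)
        exact mul_self_eq_zero.1 h5
      have h5 : ∀ x : EuclideanSpace ℝ (Fin d), inner ℝ x (b p) = 0 := by
        intro x
        have hx : x ∈ Submodule.span ℝ (Set.range v) := by
          rw [hspan]
          trivial
        induction hx using Submodule.span_induction with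
        | mem x hx =>
          obtain ⟨i, rfl⟩ := hx
          exact h4 i
        | zero => simp
        | add x y _ _ hx hy => rw [inner_add_left, hx, hy, add_zero]
        | smul c x _ hx => rw [inner_smul_left, hx, mul_zero]
      have h6 := h5 (b p)
      rw [real_inner_self_eq_norm_sq, b.orthonormal.1 p] at h6
      norm_num at h6
  -- classes
  obtain ⟨cls, hcls⟩ : ∃ cls : Fin d → ℤ, cls = fun p => Int.log 2 (a p) := ⟨_, rfl⟩
  have hcl1 : ∀ p, (2 : ℝ) ^ cls p ≤ a p := by
    intro p
    rw [hcls]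
    have := Int.zpow_log_le_self (R := ℝ) (b := 2) (by norm_num) (hapos p)
    simpa using this
  have hcl2 : ∀ p, a p < (2 : ℝ) ^ (cls p + 1) := by
    intro p
    rw [hcls]
    have := Int.lt_zpow_succ_log_self (R := ℝ) (b := 2) (by norm_num) (a p)
    simpa using this
  obtain ⟨V, hV⟩ : ∃ V : Fin N → Fin d → ℝ, V = fun i j => inner ℝ (v i) (b j) := ⟨_, rfl⟩
  have hVn : ∀ i, ∑ j, V i j ^ 2 ≤ 1 := by
    intro i
    rw [hV]
    exact hpars i
  have hVg : ∀ p l, ∑ i, V i p * V i l = if p = l then a p else 0 := by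
    intro p l
    rw [hV]
    exact hgram p l
  -- the functional
  obtain ⟨m, hm⟩ : ∃ m : Fin d → ℝ, m = fun p => (((univ : Finset (Fin d)).filter
    (fun j => cls j = cls p)).card : ℝ) := ⟨_, rfl⟩
  have hmpos : ∀ p, 0 < m p := by
    intro p
    rw [hm]
    have h1 : 0 < ((univ : Finset (Fin d)).filter (fun j => cls j = cls p)).card :=
      Finset.card_pos.2 ⟨p, by simp⟩
    simp only
    exact_mod_cast h1
  obtain ⟨nn, hnn⟩ : ∃ nn : Fin d → ℕ, nn = fun p => (cls p - t0).toNat := ⟨_, rfl⟩
  obtain ⟨G, hG⟩ : ∃ G : Fin d → ℝ, G = fun p => (8 / 9) ^ nn p / (2 * 2 ^ t0 * m p * 2 ^ nn p) :=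
    ⟨_, rfl⟩
  have hGpos : ∀ p, 0 < G p := by
    intro p
    have := hmpos p
    rw [hG]
    positivity
  obtain ⟨Hi, hHi⟩ : ∃ Hi : Finset (Fin d), Hi = univ.filter (fun p => (t0 : ℤ) ≤ cls p) :=
    ⟨_, rfl⟩
  obtain ⟨ε, hε, hε2⟩ := exists_signs (univ : Finset (Fin N)) (Hi ×ˢ (univ : Finset (Fin d)))
    (fun pl i => Real.sqrt (G pl.1) * (V i pl.1 * V i pl.2))
  have htot : ∑ ω ∈ Hi ×ˢ (univ : Finset (Fin d)), ∑ i, (Real.sqrt (G ω.1) * (V i ω.1 * V i ω.2)) ^ 2
      ≤ 9 := by
    rw [Finset.sum_product]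
    have h1 : ∀ p ∈ Hi, ∑ l, ∑ i, (Real.sqrt (G p) * (V i p * V i l)) ^ 2
        ≤ (8 / 9) ^ nn p / m p := by
      intro p hp
      have h2 : ∑ l, ∑ i, (Real.sqrt (G p) * (V i p * V i l)) ^ 2
          = G p * ∑ i, V i p ^ 2 * ∑ l, V i l ^ 2 := by
        rw [Finset.sum_comm, Finset.mul_sum]
        apply Finset.sum_congr rfl
        intro i _
        rw [Finset.mul_sum, Finset.mul_sum]
        apply Finset.sum_congr rfl
        intro l _
        rw [mul_pow, Real.sq_sqrt (hGpos p).le]
        ring
      have h3 : ∑ i, V i p ^ 2 * ∑ l, V i l ^ 2 ≤ a p := by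
        have h4 := hVg p p
        rw [if_pos rfl] at h4
        rw [← h4]
        apply Finset.sum_le_sum
        intro i _
        have h5 := hVn i
        have h6 := sq_nonneg (V i p)
        nlinarith
      have h4 : a p ≤ 2 * 2 ^ t0 * 2 ^ nn p := by
        have h5 := (hcl2 p).le
        have h6 : (t0 : ℤ) ≤ cls p := by
          rw [hHi, Finset.mem_filter] at hp
          exact hp.2
        have h7 : cls p + 1 = ((1 + t0 + nn p : ℕ) : ℤ) := by
          rw [hnn]
          push_cast
          rw [Int.toNat_of_nonneg (by linarith)]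
          ring
        rw [h7, zpow_natCast, pow_add, pow_add, pow_one] at h5
        exact h5
      rw [h2]
      calc G p * ∑ i, V i p ^ 2 * ∑ l, V i l ^ 2 ≤ G p * (2 * 2 ^ t0 * 2 ^ nn p) :=
            mul_le_mul_of_nonneg_left (h3.trans h4) (hGpos p).le
        _ = (8 / 9) ^ nn p / m p := by
            have := hmpos p
            rw [hG]
            field_simp
    refine (Finset.sum_le_sum h1).trans ?_
    have h2 : ∑ p ∈ Hi, (8 / 9 : ℝ) ^ nn p / m p
        = ∑ n ∈ Hi.image nn, ∑ p ∈ Hi with nn p = n, (8 / 9 : ℝ) ^ nn p / m p :=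
      (Finset.sum_fiberwise_of_maps_to (fun p hp => Finset.mem_image_of_mem nn hp) _).symm
    rw [h2]
    refine (Finset.sum_le_sum (g := fun n => (8 / 9 : ℝ) ^ n) ?_).trans (sum_pow_le _)
    intro n _
    have h3 : ∀ p ∈ Hi.filter (fun p => nn p = n), (8 / 9 : ℝ) ^ nn p / m p
        = (8 / 9 : ℝ) ^ n / ((Hi.filter (fun p => nn p = n)).card : ℝ) := by
      intro p hp
      rw [Finset.mem_filter] at hp
      have hset : (univ : Finset (Fin d)).filter (fun j => cls j = cls p)
          = Hi.filter (fun p => nn p = n) := by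
        ext j
        rw [hHi] at hp ⊢
        simp only [Finset.mem_filter, Finset.mem_univ, true_and, hnn] at hp ⊢
        constructor
        · intro hj
          refine ⟨by rw [hj]; exact hp.1, by rw [hj]; exact hp.2⟩
        · rintro ⟨hj1, hj2⟩
          have h4 := hp.2
          have h5 := hp.1
          omega
      have hmp : m p = ((Hi.filter (fun p => nn p = n)).card : ℝ) := by
        rw [hm]
        simp only
        rw [hset]
      rw [hp.2, hmp]
    rw [Finset.sum_congr rfl h3, Finset.sum_const, nsmul_eq_mul]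
    by_cases h0 : (Hi.filter (fun p => nn p = n)).card = 0
    · rw [h0]
      simp only [Nat.cast_zero, zero_mul]
      positivity
    · have h0' : ((Hi.filter (fun p => nn p = n)).card : ℝ) ≠ 0 := by exact_mod_cast h0
      rw [mul_div_cancel₀ _ h0']
  have hfun := hε2.trans htot
  rw [Finset.sum_product] at hfun
  have hfun2 : ∑ p ∈ Hi, G p * ∑ l, (∑ i, ε i * (V i p * V i l)) ^ 2 ≤ 9 := by
    refine le_trans (le_of_eq ?_) hfun
    apply Finset.sum_congr rfl
    intro p _
    rw [Finset.mul_sum]
    apply Finset.sum_congr rfl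
    intro l _
    have h1 : ∑ i, ε i * (Real.sqrt (G p) * (V i p * V i l))
        = Real.sqrt (G p) * ∑ i, ε i * (V i p * V i l) := by
      rw [Finset.mul_sum]
      apply Finset.sum_congr rfl
      intro i _
      ring
    simp only
    rw [h1, mul_pow, Real.sq_sqrt (hGpos p).le]
  refine ⟨b, ⟨V, a, cls, fun i => decide (ε i = 1), t0⟩, rfl, ?_, fun i j => by rw [hV]⟩
  refine ⟨hVn, hVg, hcl1, hcl2, ?_, ?_⟩
  · intro p
    show ∑ i, V i p = 0
    rw [hV]
    simp only
    rw [← sum_inner, hsum, inner_zero_left]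
  · intro γ n
    simp only [Ctx.cl, Ctx.mc]
    -- the label sums
    have h1 : ∀ p l, (∑ i with decide (ε i = 1) = γ, V i p * V i l
        - if p = l then a p / 2 else 0) ^ 2 = (1 / 4) * (∑ i, ε i * (V i p * V i l)) ^ 2 := by
      intro p l
      have h2 : (if p = l then a p / 2 else 0) = (1 / 2) * ∑ i, V i p * V i l := by
        rw [hVg]
        split_ifs
        · ring
        · ring
      rw [h2]
      have h3 : ∑ i with decide (ε i = 1) = γ, V i p * V i l
          = (1 / 2) * ∑ i, V i p * V i l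
            + (if γ then (1 / 2) else - (1 / 2)) * ∑ i, ε i * (V i p * V i l) := by
        rw [Finset.sum_filter, Finset.mul_sum, Finset.mul_sum, ← Finset.sum_add_distrib]
        apply Finset.sum_congr rfl
        intro i _
        rcases hε i with h | h <;> cases γ
        · simp [h]
        · simp [h]
          ring
        · have : ¬ ((-1 : ℝ) = 1) := by norm_num
          simp [h, this]
          ring
        · have : ¬ ((-1 : ℝ) = 1) := by norm_num
          simp [h, this]
      rw [h3]
      cases γ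
      · simp only [Bool.false_eq_true, if_false]
        ring
      · simp only [if_true]
        ring
    simp only [h1]
    rcases Finset.eq_empty_or_nonempty ((univ : Finset (Fin d)).filter
      (fun j => cls j = (t0 : ℤ) + n)) with h0 | ⟨p0, hp0⟩
    · rw [h0]
      simp
    · have hm0 : (((univ : Finset (Fin d)).filter (fun j => cls j = (t0 : ℤ) + n)).card : ℝ)
          = m p0 := by
        rw [Finset.mem_filter] at hp0
        rw [hm]
        simp only
        rw [hp0.2]
      rw [hm0]
      have hGn : ∀ p ∈ (univ : Finset (Fin d)).filter (fun j => cls j = (t0 : ℤ) + n),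
          p ∈ Hi ∧ G p = (8 / 9) ^ n / (2 * 2 ^ t0 * m p0 * 2 ^ n) := by
        intro p hp
        rw [Finset.mem_filter] at hp hp0
        have h3 : nn p = n := by
          rw [hnn]
          simp only
          rw [hp.2]
          omega
        constructor
        · rw [hHi, Finset.mem_filter]
          refine ⟨Finset.mem_univ _, ?_⟩
          rw [hp.2]
          omega
        · have h4 : m p = m p0 := by
            rw [hm]
            simp only
            rw [hp.2, hp0.2]
          rw [hG]
          simp only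
          rw [h3, h4]
      have h2 : ∑ p ∈ (univ : Finset (Fin d)).filter (fun j => cls j = (t0 : ℤ) + n),
          ((8 / 9) ^ n / (2 * 2 ^ t0 * m p0 * 2 ^ n)) * ∑ l, (∑ i, ε i * (V i p * V i l)) ^ 2
          ≤ 9 := by
        refine le_trans ?_ hfun2
        rw [Finset.sum_congr rfl fun p hp => by rw [← (hGn p hp).2]]
        apply Finset.sum_le_sum_of_subset_of_nonneg
        · intro p hp
          exact (hGn p hp).1
        · intro p _ _
          exact mul_nonneg (hGpos p).le (Finset.sum_nonneg fun _ _ => sq_nonneg _)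
      rw [← Finset.mul_sum] at h2
      have hmp := hmpos p0
      have h3 : ∑ p ∈ (univ : Finset (Fin d)).filter (fun j => cls j = (t0 : ℤ) + n),
          ∑ l, (∑ i, ε i * (V i p * V i l)) ^ 2 ≤ 18 * 2 ^ t0 * m p0 * (9 / 4) ^ n := by
        have h4 : (0 : ℝ) < (8 / 9) ^ n / (2 * 2 ^ t0 * m p0 * 2 ^ n) := by positivity
        have h5 : ∑ p ∈ (univ : Finset (Fin d)).filter (fun j => cls j = (t0 : ℤ) + n),
          ∑ l, (∑ i, ε i * (V i p * V i l)) ^ 2 ≤
            9 / ((8 / 9) ^ n / (2 * 2 ^ t0 * m p0 * 2 ^ n)) := by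
          rw [le_div_iff₀ h4]
          linarith
        refine h5.trans (le_of_eq ?_)
        have h6 : (9 / 4 : ℝ) ^ n = 2 ^ n / (8 / 9) ^ n := by
          rw [← div_pow]
          norm_num
        rw [h6]
        field_simp
        ring
      simp only [← Finset.mul_sum]
      have h4 : 0 ≤ ∑ p ∈ (univ : Finset (Fin d)).filter (fun j => cls j = (t0 : ℤ) + n),
          ∑ l, (∑ i, ε i * (V i p * V i l)) ^ 2 :=
        Finset.sum_nonneg fun _ _ => Finset.sum_nonneg fun _ _ => sq_nonneg _
      linarith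

end Vale.Agent.Steinitz2
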