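import Vale.Agent.Lib.Steinitz2.Block
import Vale.Agent.Lib.Steinitz2.Pieces
import Vale.Agent.Lib.Steinitz2.NextE
import Vale.Agent.Lib.Steinitz2.Root
import Vale.Agent.Lib.Steinitz2.FinalOf

/-!
# P262 log-free bound: the final theorem
-/

namespace Vale.Agent.Steinitz2

open Finset

/-- MODULE PIECES. -/
theorem exists_pieces : ∃ c6 : ℝ, 1 ≤ c6 ∧ ∀ c : Cst, c.c6 = c6 → ∃ T1 : ℝ,
    ∀ (ι : Type) [Fintype ι] [DecidableEq ι] (d : ℕ) (X : Ctx ι d) (K0 : ℝ) (_ : X.Good K0)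
      (_ : c.Good X.t0) (_ : T1 ≤ 2 ^ X.t0) (k : ℕ) (S : State ι d) (_ : S.Good X c k) (j : ℤ),
      ∃ P : Piece ι, P.Good X c S k j :=
  exists_pieces_of block_step

/-- MODULE FINAL: `S_2(d) ≤ C √d`. -/
theorem steinitz_sqrt : ∃ C : ℝ, ∀ d : ℕ, 1 ≤ d → ∀ (N : ℕ) (v : Fin N → EuclideanSpace ℝ (Fin d)),
    (∀ i, ‖v i‖ ≤ 1) → ∑ i, v i = 0 →
    ∃ π : Equiv.Perm (Fin N), ∀ k : ℕ, k ≤ N →
      ‖∑ i : Fin N with i.val < k, v (π i)‖ ≤ C * Real.sqrt d :=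
  steinitz_sqrt_of (fun _ _ _ _ X c K0 hX hc k S hS P hper hP =>
    next_good X c K0 hX hc k S hS P hper hP) exists_pieces exists_ctx

end Vale.Agent.Steinitz2
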