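import Mathlib
import Vale.Agent.Lib.Steinitz2.Defs

/-!
# P262 log-free bound: auxiliary lemmas for module ROUND
-/

namespace Vale.Agent.Steinitz2

open Finset

/-- euclidean norm of a function on a finite set -/
noncomputable def nrm {α : Type*} (S : Finset α) (f : α → ℝ) : ℝ := Real.sqrt (∑ i ∈ S, f i ^ 2)

theorem nrm_nonneg {α : Type*} (S : Finset α) (f : α → ℝ) : 0 ≤ nrm S f := Real.sqrt_nonneg _

theorem nrm_sq {α : Type*} (S : Finset α) (f : α → ℝ) : nrm S f ^ 2 = ∑ i ∈ S, f i ^ 2 :=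
  Real.sq_sqrt (sum_nonneg fun _ _ => sq_nonneg _)

theorem nrm_le {α : Type*} (S : Finset α) (f : α → ℝ) (c : ℝ) (hc : 0 ≤ c)
    (h : ∑ i ∈ S, f i ^ 2 ≤ c ^ 2) : nrm S f ≤ c := by
  rw [nrm, Real.sqrt_le_left hc]
  exact h

theorem sum_mul_le_nrm {α : Type*} (S : Finset α) (f g : α → ℝ) :
    ∑ i ∈ S, f i * g i ≤ nrm S f * nrm S g := by
  have h := Finset.sum_mul_sq_le_sq_mul_sq S f g
  have h2 : (∑ i ∈ S, f i * g i) ^ 2 ≤ (nrm S f * nrm S g) ^ 2 := by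
    rw [mul_pow, nrm_sq, nrm_sq]; exact h
  exact le_trans (le_abs_self _) (abs_le_of_sq_le_sq h2 (mul_nonneg (nrm_nonneg _ _)
    (nrm_nonneg _ _)))

theorem abs_sum_mul_le_nrm {α : Type*} (S : Finset α) (f g : α → ℝ) :
    |∑ i ∈ S, f i * g i| ≤ nrm S f * nrm S g := by
  have h := Finset.sum_mul_sq_le_sq_mul_sq S f g
  have h2 : (∑ i ∈ S, f i * g i) ^ 2 ≤ (nrm S f * nrm S g) ^ 2 := by
    rw [mul_pow, nrm_sq, nrm_sq]; exact h
  exact abs_le_of_sq_le_sq h2 (mul_nonneg (nrm_nonneg _ _) (nrm_nonneg _ _))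

theorem nrm_add_le {α : Type*} (S : Finset α) (f g : α → ℝ) :
    nrm S (fun i => f i + g i) ≤ nrm S f + nrm S g := by
  apply nrm_le _ _ _ (add_nonneg (nrm_nonneg _ _) (nrm_nonneg _ _))
  have h1 : ∑ i ∈ S, (f i + g i) ^ 2
      = ∑ i ∈ S, f i ^ 2 + 2 * ∑ i ∈ S, f i * g i + ∑ i ∈ S, g i ^ 2 := by
    rw [mul_sum, ← sum_add_distrib, ← sum_add_distrib]
    exact sum_congr rfl fun i _ => by ring
  rw [h1, ← nrm_sq S f, ← nrm_sq S g]
  nlinarith [sum_mul_le_nrm S f g]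

theorem nrm_congr {α : Type*} (S : Finset α) (f g : α → ℝ) (h : ∀ i ∈ S, f i = g i) :
    nrm S f = nrm S g := by
  unfold nrm
  congr 1
  exact sum_congr rfl fun i hi => by rw [h i hi]

theorem nrm_mono {α : Type*} (S T : Finset α) (hST : S ⊆ T) (f : α → ℝ) :
    nrm S f ≤ nrm T f := by
  apply Real.sqrt_le_sqrt
  exact sum_le_sum_of_subset_of_nonneg hST fun _ _ _ => sq_nonneg _

/-- rows applied to a vector: Cauchy-Schwarz -/
theorem rows_sq_le {α β : Type*} (S : Finset α) (P : Finset β) (M : α → β → ℝ) (g : β → ℝ) :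
    ∑ μ ∈ S, (∑ p ∈ P, M μ p * g p) ^ 2 ≤ (∑ μ ∈ S, ∑ p ∈ P, M μ p ^ 2) * ∑ p ∈ P, g p ^ 2 := by
  rw [sum_mul]
  exact sum_le_sum fun μ _ => Finset.sum_mul_sq_le_sq_mul_sq P (M μ) g

/-- linear combination of vectors: Cauchy-Schwarz -/
theorem comb_sq_le {α β : Type*} (S : Finset α) (P : Finset β) (z : α → ℝ) (u : α → β → ℝ) :
    ∑ p ∈ P, (∑ i ∈ S, z i * u i p) ^ 2 ≤ (∑ i ∈ S, z i ^ 2) * ∑ i ∈ S, ∑ p ∈ P, u i p ^ 2 := by
  rw [sum_comm, mul_sum]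
  exact sum_le_sum fun p _ => Finset.sum_mul_sq_le_sq_mul_sq S z (fun i => u i p)

theorem ln_exists (m n : ℕ) : ∃ l : ℕ, 6 ≤ l ∧ (m : ℝ) ≤ 2 ^ l * (441 / 400 : ℝ) ^ n := by
  refine ⟨6 + m, by omega, ?_⟩
  have h1 : (m : ℝ) ≤ 2 ^ m := by exact_mod_cast Nat.lt_two_pow_self.le
  have h2 : (2 : ℝ) ^ m ≤ 2 ^ (6 + m) := pow_le_pow_right₀ (by norm_num) (by omega)
  have h3 : (1 : ℝ) ≤ (441 / 400 : ℝ) ^ n := one_le_pow₀ (by norm_num)
  calc (m : ℝ) ≤ 2 ^ (6 + m) := h1.trans h2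
    _ = 2 ^ (6 + m) * 1 := (mul_one _).symm
    _ ≤ _ := mul_le_mul_of_nonneg_left h3 (by positivity)

open Classical in
/-- the first stage index `≥ 6` from which class `n` (with `m` coordinates) is good -/
noncomputable def ln (m n : ℕ) : ℕ := Nat.find (ln_exists m n)

theorem six_le_ln (m n : ℕ) : 6 ≤ ln m n := by
  classical
  exact (Nat.find_spec (ln_exists m n)).1

theorem le_ln (m n : ℕ) : (m : ℝ) ≤ 2 ^ (ln m n) * (441 / 400 : ℝ) ^ n := by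
  classical
  exact (Nat.find_spec (ln_exists m n)).2

theorem ln_lt (m n : ℕ) (h : 6 < ln m n) :
    (2 : ℝ) ^ (ln m n) ≤ 2 * (m * (400 / 441 : ℝ) ^ n) := by
  classical
  have h1 := Nat.find_min (ln_exists m n) (m := ln m n - 1) (by unfold ln at *; omega)
  have h2 : (2 : ℝ) ^ (ln m n - 1) * (441 / 400 : ℝ) ^ n < m := by
    by_contra h3
    exact h1 ⟨by omega, not_lt.mp h3⟩
  have h4 : (2 : ℝ) ^ (ln m n) = 2 * 2 ^ (ln m n - 1) := by
    rw [← pow_succ']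
    congr 1
    omega
  rw [h4]
  have h5 : (441 / 400 : ℝ) ^ n * (400 / 441) ^ n = 1 := by
    rw [← mul_pow]; norm_num
  have h6 : (0 : ℝ) < (400 / 441) ^ n := by positivity
  have h7 : (2 : ℝ) ^ (ln m n - 1) ≤ m * (400 / 441 : ℝ) ^ n := by
    calc (2 : ℝ) ^ (ln m n - 1) = (2 : ℝ) ^ (ln m n - 1) * ((441 / 400 : ℝ) ^ n * (400 / 441) ^ n) := by
          rw [h5, mul_one]
      _ = ((2 : ℝ) ^ (ln m n - 1) * (441 / 400 : ℝ) ^ n) * (400 / 441) ^ n := by ring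
      _ ≤ _ := mul_le_mul_of_nonneg_right h2.le h6.le
  linarith

end Vale.Agent.Steinitz2
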