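import Vale.Agent.Lib.Steinitz2.StageDir

/-!
# P262 log-free: module STAGE
-/

namespace Vale.Agent.Steinitz2

open Finset Filter Topology

theorem swap_line {ι Pt : Type*} [Fintype ι] (P : Finset Pt) (g : Pt → ι → ℝ) (A : Pt → ℝ)
    (δ : ι → ℝ) :
    ∑ i, (∑ p ∈ P, A p * g p i) * δ i = ∑ p ∈ P, A p * ∑ i, δ i * g p i := by
  simp only [Finset.sum_mul, Finset.mul_sum]
  rw [Finset.sum_comm]
  apply Finset.sum_congr rfl
  intro p _
  apply Finset.sum_congr rfl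
  intro i _
  ring

theorem quad_line {ι Pt : Type*} [Fintype ι] (P : Finset Pt) (g : Pt → ι → ℝ) (y x δ : ι → ℝ)
    (s : ℝ) :
    ∑ p ∈ P, (∑ i, (y i + s * δ i - x i) * g p i) ^ 2 =
      ∑ p ∈ P, (∑ i, (y i - x i) * g p i) ^ 2 +
        2 * s * ∑ i, (∑ p ∈ P, (∑ k, (y k - x k) * g p k) * g p i) * δ i +
        s ^ 2 * ∑ p ∈ P, (∑ i, δ i * g p i) ^ 2 := by
  have e1 : ∀ p, ∑ i, (y i + s * δ i - x i) * g p i =
      ∑ i, (y i - x i) * g p i + s * ∑ i, δ i * g p i := by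
    intro p
    rw [Finset.mul_sum, ← Finset.sum_add_distrib]
    apply Finset.sum_congr rfl
    intro i _
    ring
  rw [swap_line P g (fun p => ∑ k, (y k - x k) * g p k) δ]
  simp only [e1, Finset.mul_sum (s := P), ← Finset.sum_add_distrib]
  apply Finset.sum_congr rfl
  intro p _
  ring

theorem diag_line {ι : Type*} [Fintype ι] (c y δ : ι → ℝ) (s : ℝ) :
    ∑ i, c i * (y i + s * δ i - 1 / 2) ^ 2 =
      ∑ i, c i * (y i - 1 / 2) ^ 2 + 2 * s * ∑ i, (c i * (y i - 1 / 2)) * δ i +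
        s ^ 2 * ∑ i, c i * δ i ^ 2 := by
  simp only [Finset.mul_sum, ← Finset.sum_add_distrib]
  apply Finset.sum_congr rfl
  intro i _
  ring

theorem quart_line {Tt : Type*} (Ts : Finset Tt) (X Y η : Tt → ℝ) (s : ℝ) :
    ∑ t ∈ Ts, ((X t + s * Y t) ^ 2 + η t) ^ 2 =
      ∑ t ∈ Ts, (X t ^ 2 + η t) ^ 2 + 4 * s * ∑ t ∈ Ts, (X t ^ 2 + η t) * X t * Y t +
        s ^ 2 * ∑ t ∈ Ts, (4 * X t ^ 2 + 2 * (X t ^ 2 + η t)) * Y t ^ 2 +
        4 * s ^ 3 * ∑ t ∈ Ts, X t * Y t ^ 3 + s ^ 4 * ∑ t ∈ Ts, Y t ^ 4 := by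
  simp only [Finset.mul_sum, ← Finset.sum_add_distrib]
  apply Finset.sum_congr rfl
  intro t _
  ring

/-- small steps -/
theorem small_step {ι Tt : Type*} [Fintype ι] (y δ : ι → ℝ)
    (hy : ∀ i, (0 ≤ y i ∧ y i ≤ 1) ∧ (δ i = 0 ∨ (0 < y i ∧ y i < 1)))
    (Ts : Finset Tt) (X Y : Tt → ℝ) (hX : ∀ t ∈ Ts, |X t| ≤ 1 ∧ (Y t = 0 ∨ |X t| < 1))
    (D0 A3 A4 c : ℝ) (hD : 0 < D0) :
    ∃ s : ℝ, 0 < s ∧ (∀ i, 0 ≤ y i + s * δ i ∧ y i + s * δ i ≤ 1) ∧
      (∀ t ∈ Ts, |X t + s * Y t| ≤ 1) ∧ 0 ≤ D0 - 4 * s * A3 - s ^ 2 * (A4 - c ^ 2) := by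
  have h1 : ∀ᶠ s : ℝ in 𝓝[>] 0, ∀ i, 0 ≤ y i + s * δ i ∧ y i + s * δ i ≤ 1 := by
    rw [Filter.eventually_all]
    intro i
    rcases (hy i).2 with h | h
    · refine Filter.Eventually.of_forall fun s => ?_
      rw [h, mul_zero, add_zero]
      exact (hy i).1
    · have ht : Tendsto (fun s : ℝ => y i + s * δ i) (𝓝[>] 0) (𝓝 (y i)) := by
        have : Tendsto (fun s : ℝ => y i + s * δ i) (𝓝 0) (𝓝 (y i + 0 * δ i)) :=
          Continuous.tendsto (by fun_prop) 0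
        rw [zero_mul, add_zero] at this
        exact this.mono_left nhdsWithin_le_nhds
      filter_upwards [ht.eventually (lt_mem_nhds h.1), ht.eventually (gt_mem_nhds h.2)] with s a b
      exact ⟨a.le, b.le⟩
  have h2 : ∀ᶠ s : ℝ in 𝓝[>] 0, ∀ t ∈ Ts, |X t + s * Y t| ≤ 1 := by
    rw [Filter.eventually_all_finset]
    intro t ht
    rcases (hX t ht).2 with h | h
    · refine Filter.Eventually.of_forall fun s => ?_
      rw [h, mul_zero, add_zero]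
      exact (hX t ht).1
    · have hc : Tendsto (fun s : ℝ => |X t + s * Y t|) (𝓝[>] 0) (𝓝 |X t|) := by
        have : Tendsto (fun s : ℝ => |X t + s * Y t|) (𝓝 0) (𝓝 |X t + 0 * Y t|) :=
          Continuous.tendsto (by fun_prop) 0
        rw [zero_mul, add_zero] at this
        exact this.mono_left nhdsWithin_le_nhds
      filter_upwards [hc.eventually (gt_mem_nhds h)] with s a
      exact a.le
  have h3 : ∀ᶠ s : ℝ in 𝓝[>] 0, 0 ≤ D0 - 4 * s * A3 - s ^ 2 * (A4 - c ^ 2) := by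
    have hc : Tendsto (fun s : ℝ => D0 - 4 * s * A3 - s ^ 2 * (A4 - c ^ 2)) (𝓝[>] 0) (𝓝 D0) := by
      have : Tendsto (fun s : ℝ => D0 - 4 * s * A3 - s ^ 2 * (A4 - c ^ 2)) (𝓝 0)
          (𝓝 (D0 - 4 * 0 * A3 - 0 ^ 2 * (A4 - c ^ 2))) := Continuous.tendsto (by fun_prop) 0
      rw [show D0 - 4 * 0 * A3 - 0 ^ 2 * (A4 - c ^ 2) = D0 by ring] at this
      exact this.mono_left nhdsWithin_le_nhds
    filter_upwards [hc.eventually (lt_mem_nhds hD)] with s a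
    exact a.le
  have h4 : ∀ᶠ s : ℝ in 𝓝[>] 0, 0 < s := self_mem_nhdsWithin
  obtain ⟨s, ⟨⟨a, b⟩, d⟩, e⟩ := (((h1.and h2).and h3).and h4).exists
  exact ⟨s, e, a, b, d⟩

/-- increment of the spread -/
noncomputable def inc {ι : Type*} [Fintype ι] (x y : ι → ℝ) : ℝ :=
  ∑ i, (y i - 1 / 2) ^ 2 - ∑ i, (x i - 1 / 2) ^ 2

/-- the test functional -/
noncomputable def tst {ι : Type*} [Fintype ι] {Tt : Type*} (a : Tt → ι → ℝ) (x y : ι → ℝ)
    (t : Tt) : ℝ := ∑ i, (y i - x i) * a t i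

/-- the potential of the `w`-constraints -/
noncomputable def wpot {ι : Type*} [Fintype ι] {Wt : Type*} (Ω : Finset Wt) (w : Wt → ι → ℝ)
    (x0 y : ι → ℝ) : ℝ :=
  ∑ ω ∈ Ω, (∑ i, (y i - x0 i) * w ω i) ^ 2 - 64 * ∑ i, (∑ ω ∈ Ω, w ω i ^ 2) * (y i - 1 / 2) ^ 2

theorem inc_line {ι : Type*} [Fintype ι] (x y δ : ι → ℝ) (s : ℝ)
    (h1 : ∑ i, (y i - 1 / 2) * δ i = 0) (h2 : ∑ i, δ i ^ 2 = 1) :
    inc x (fun i => y i + s * δ i) = inc x y + s ^ 2 := by
  have := diag_line (fun _ => (1 : ℝ)) y δ s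
  simp only [one_mul] at this
  unfold inc
  rw [this, h1, h2]
  ring

theorem tst_line {ι : Type*} [Fintype ι] {Tt : Type*} (a : Tt → ι → ℝ) (x y δ : ι → ℝ)
    (s : ℝ) (t : Tt) :
    tst a x (fun i => y i + s * δ i) t = tst a x y t + s * ∑ i, a t i * δ i := by
  unfold tst
  rw [Finset.mul_sum, ← Finset.sum_add_distrib]
  apply Finset.sum_congr rfl
  intro i _
  ring

theorem wpot_line {ι : Type*} [Fintype ι] {Wt : Type*} (Ω : Finset Wt) (w : Wt → ι → ℝ)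
    (x0 y δ : ι → ℝ) (s : ℝ)
    (h1 : ∑ i, (∑ ω ∈ Ω, (∑ k, (y k - x0 k) * w ω k) * w ω i
      - 64 * ((∑ ω ∈ Ω, w ω i ^ 2) * (y i - 1 / 2))) * δ i = 0)
    (h2 : ∑ ω ∈ Ω, (∑ i, δ i * w ω i) ^ 2 ≤ 64 * ∑ i, (∑ ω ∈ Ω, w ω i ^ 2) * δ i ^ 2) :
    wpot Ω w x0 (fun i => y i + s * δ i) ≤ wpot Ω w x0 y := by
  unfold wpot
  rw [quad_line, diag_line]
  have h3 : ∑ i, (∑ ω ∈ Ω, (∑ k, (y k - x0 k) * w ω k) * w ω i) * δ i =
      64 * ∑ i, ((∑ ω ∈ Ω, w ω i ^ 2) * (y i - 1 / 2)) * δ i := by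
    rw [← sub_eq_zero, ← h1, Finset.mul_sum, ← Finset.sum_sub_distrib]
    apply Finset.sum_congr rfl
    intro i _
    ring
  rw [h3]
  have h4 := mul_le_mul_of_nonneg_left h2 (sq_nonneg s)
  linarith

/-- the constraints of the extremal problem -/
structure SOK {ι D Lt Tt Wt : Type*} [Fintype ι] [Fintype D] (x x0 : ι → ℝ) (u : ι → D → ℝ)
    (Ls : Finset Lt) (L : Lt → ι → ℝ) (Ts : Finset Tt) (a : Tt → ι → ℝ) (η : Tt → ℝ)
    (Ω : Finset Wt) (w : Wt → ι → ℝ) (th0 c : ℝ) (y : ι → ℝ) : Prop where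
  box : ∀ i, 0 ≤ y i ∧ y i ≤ 1
  off : ∀ i, i ∉ frac x → y i = x i
  lin : ∀ l ∈ Ls, ∑ i, (y i - x i) * L l i = 0
  vq : ∑ p, (∑ i, (y i - x i) * u i p) ^ 2 ≤ 128 * inc x y
  tests : ∀ t ∈ Ts, |tst a x y t| ≤ 1
  quart : ∑ t ∈ Ts, (tst a x y t ^ 2 + η t) ^ 2 ≤ (th0 + c * inc x y) ^ 2
  wp : wpot Ω w x0 y ≤ wpot Ω w x0 x

theorem inc_le {ι : Type*} [Fintype ι] {x y : ι → ℝ} {n : ℕ} (hfr : (frac x).card ≤ n)
    (h1 : ∀ i, 0 ≤ y i ∧ y i ≤ 1) (h2 : ∀ i, i ∉ frac x → y i = x i) : inc x y ≤ n / 4 := by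
  unfold inc
  rw [← Finset.sum_sub_distrib]
  have h3 : ∀ i, i ∉ frac x → (y i - 1 / 2) ^ 2 - (x i - 1 / 2) ^ 2 = 0 := fun i hi => by
    rw [h2 i hi]; ring
  rw [← Finset.sum_subset (Finset.subset_univ (frac x)) (fun i _ hi => h3 i hi)]
  calc ∑ i ∈ frac x, ((y i - 1 / 2) ^ 2 - (x i - 1 / 2) ^ 2) ≤ ∑ _i ∈ frac x, (1 / 4 : ℝ) := by
        apply Finset.sum_le_sum
        intro i _
        nlinarith [h1 i, sq_nonneg (x i - 1 / 2)]
    _ = (frac x).card / 4 := by rw [Finset.sum_const, nsmul_eq_mul]; ring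
    _ ≤ n / 4 := by
        have : ((frac x).card : ℝ) ≤ n := by exact_mod_cast hfr
        linarith

theorem improve {ι D Lt Tt Wt : Type*} [Fintype ι] [DecidableEq ι] [Fintype D]
    (n : ℕ) (hn : 128 ≤ n) (x x0 : ι → ℝ)
    (hfr : (frac x).card ≤ n)
    (u : ι → D → ℝ) (hu : ∀ i, ∑ p, u i p ^ 2 ≤ 2)
    (Ls : Finset Lt) (L : Lt → ι → ℝ) (hL : 16 * Ls.card ≤ n)
    (Ts : Finset Tt) (θ : Tt → D → ℝ)
    (Ω : Finset Wt) (w : Wt → ι → ℝ) (th0 : ℝ) (hth : 0 < th0) (hth2 : th0 ^ 2 = n / 10 ^ 8)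
    (hθ : ∑ t ∈ Ts, (∑ p, θ t p ^ 2) ^ 2 ≤ th0 ^ 2)
    (y : ι → ℝ) (hy : SOK x x0 u Ls L Ts (fun t i => ∑ p, θ t p * u i p)
      (fun t => ∑ p, θ t p ^ 2) Ω w th0 (3072 * th0 / n) y) (hfy : n < 2 * (frac y).card) :
    ∃ y' : ι → ℝ, SOK x x0 u Ls L Ts (fun t i => ∑ p, θ t p * u i p)
      (fun t => ∑ p, θ t p ^ 2) Ω w th0 (3072 * th0 / n) y' ∧ inc x y < inc x y' := by
  classical
  have hn0 : (0 : ℝ) < n := by
    have : 0 < n := by omega
    exact_mod_cast this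
  obtain ⟨a, ha⟩ : ∃ a : Tt → ι → ℝ, a = fun t i => ∑ p, θ t p * u i p := ⟨_, rfl⟩
  obtain ⟨η, hη⟩ : ∃ η : Tt → ℝ, η = fun t => ∑ p, θ t p ^ 2 := ⟨_, rfl⟩
  have ha' : ∀ t i, ∑ p, θ t p * u i p = a t i := fun t i => by rw [ha]
  have hη' : ∀ t, ∑ p, θ t p ^ 2 = η t := fun t => by rw [hη]
  have hη0 : ∀ t, 0 ≤ η t := fun t => by
    rw [← hη']; exact Finset.sum_nonneg fun p _ => sq_nonneg _
  obtain ⟨c, hc⟩ : ∃ c : ℝ, c = 3072 * th0 / n := ⟨_, rfl⟩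
  simp only [ha', hη'] at hy hθ ⊢
  rw [← hc] at hy ⊢
  have hc0 : 0 < c := by rw [hc]; positivity
  have hcn : n * c = 3072 * th0 := by rw [hc]; field_simp
  have hVnn : 0 ≤ ∑ p, (∑ i, (y i - x i) * u i p) ^ 2 := Finset.sum_nonneg fun p _ => sq_nonneg _
  have hinc0 : 0 ≤ inc x y := by have := hy.vq; linarith
  have hinc1 : inc x y ≤ n / 4 := inc_le hfr hy.box hy.off
  obtain ⟨R, hR⟩ : ∃ R : ℝ, R = th0 + c * inc x y := ⟨_, rfl⟩
  have hR0 : th0 ≤ R := by rw [hR]; nlinarith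
  have hR1 : R ≤ 769 * th0 := by
    rw [hR]
    have : c * inc x y ≤ c * (n / 4) := mul_le_mul_of_nonneg_left hinc1 hc0.le
    nlinarith
  have hsub : frac y ⊆ frac x := by
    intro i hi
    by_contra hcon
    apply hcon
    have h1 := hy.off i hcon
    unfold frac at hi ⊢
    simp only [Finset.mem_filter, Finset.mem_univ, true_and] at hi ⊢
    rwa [h1] at hi
  have hJn : (frac y).card ≤ n := (Finset.card_le_card hsub).trans hfr
  -- tight tests
  obtain ⟨X, hX⟩ : ∃ X : Tt → ℝ, X = tst a x y := ⟨_, rfl⟩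
  have hquart := hy.quart
  have htests := hy.tests
  rw [← hX, ← hR] at hquart
  rw [← hX] at htests
  have htight : 64 * (Ts.filter (fun t => |X t| = 1)).card ≤ n := by
    have h1 : ((Ts.filter (fun t => |X t| = 1)).card : ℝ) ≤ R ^ 2 := by
      calc ((Ts.filter (fun t => |X t| = 1)).card : ℝ) =
            ∑ _t ∈ Ts.filter (fun t => |X t| = 1), (1 : ℝ) := by simp
        _ ≤ ∑ t ∈ Ts.filter (fun t => |X t| = 1), (X t ^ 2 + η t) ^ 2 := by
            apply Finset.sum_le_sum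
            intro t ht
            have h2 : X t ^ 2 = 1 := by
              rw [← sq_abs, (Finset.mem_filter.1 ht).2]; norm_num
            rw [h2]
            nlinarith [hη0 t]
        _ ≤ ∑ t ∈ Ts, (X t ^ 2 + η t) ^ 2 :=
            Finset.sum_le_sum_of_subset_of_nonneg (Finset.filter_subset _ _)
              fun t _ _ => sq_nonneg _
        _ ≤ R ^ 2 := hquart
    have h2 : R ^ 2 ≤ (769 * th0) ^ 2 := pow_le_pow_left₀ (hth.le.trans hR0) hR1 2
    rw [mul_pow, hth2] at h2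
    have h3 : ((64 * (Ts.filter (fun t => |X t| = 1)).card : ℕ) : ℝ) ≤ n := by
      push_cast
      nlinarith
    exact_mod_cast h3
  -- the direction
  obtain ⟨δ, d1, d2, d3, d4, d5, d6, d7, d8⟩ := stage_dir n hn (frac y) hfy hJn u hu Ls L hL
    Ts θ (Ts.filter (fun t => |X t| = 1)) htight (fun t => X t ^ 2 + η t)
    (fun t _ => add_nonneg (sq_nonneg _) (hη0 t)) Ω w
    ![fun i => ∑ p, (∑ k, (y k - x k) * u k p) * u i p, fun i => y i - 1 / 2,
      fun i => ∑ ω ∈ Ω, (∑ k, (y k - x0 k) * w ω k) * w ω i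
        - 64 * ((∑ ω ∈ Ω, w ω i ^ 2) * (y i - 1 / 2)),
      fun i => ∑ t ∈ Ts, ((X t ^ 2 + η t) * X t) * a t i]
  simp only [ha', hη'] at d4 d8
  have f0 := d5 0
  have f1 := d5 1
  have f2 := d5 2
  have f3 := d5 3
  simp only [Matrix.cons_val_zero, Matrix.cons_val_one, Matrix.cons_val] at f0 f1 f2 f3
  obtain ⟨Y, hY⟩ : ∃ Y : Tt → ℝ, Y = fun t => ∑ i, a t i * δ i := ⟨_, rfl⟩
  have hY' : ∀ t, ∑ i, a t i * δ i = Y t := fun t => by rw [hY]
  have hY'' : ∀ t, ∑ i, δ i * a t i = Y t := fun t => by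
    rw [← hY']; exact Finset.sum_congr rfl fun i _ => mul_comm _ _
  simp only [hY'] at d8
  rw [swap_line Ts a (fun t => (X t ^ 2 + η t) * X t) δ] at f3
  simp only [hY''] at f3
  -- second order term
  obtain ⟨Q, hQ⟩ : ∃ Q : ℝ, Q = ∑ t ∈ Ts, (4 * X t ^ 2 + 2 * (X t ^ 2 + η t)) * Y t ^ 2 :=
    ⟨_, rfl⟩
  have q1 : Q ≤ 6 * ∑ t ∈ Ts, (X t ^ 2 + η t) * Y t ^ 2 := by
    rw [hQ, Finset.mul_sum]
    apply Finset.sum_le_sum
    intro t _
    have := mul_nonneg (hη0 t) (sq_nonneg (Y t))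
    nlinarith
  have q2 : ∑ t ∈ Ts, (X t ^ 2 + η t) * η t ≤ R * th0 := by
    have e1 := Finset.sum_mul_sq_le_sq_mul_sq Ts (fun t => X t ^ 2 + η t) η
    have e2 : (∑ t ∈ Ts, (X t ^ 2 + η t) * η t) ^ 2 ≤ (R * th0) ^ 2 := by
      rw [mul_pow]
      exact e1.trans (mul_le_mul hquart hθ (Finset.sum_nonneg fun t _ => sq_nonneg _)
        (sq_nonneg _))
    exact (pow_le_pow_iff_left₀ (Finset.sum_nonneg fun t _ =>
      mul_nonneg (add_nonneg (sq_nonneg _) (hη0 t)) (hη0 t))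
      (mul_nonneg (hth.le.trans hR0) hth.le) two_ne_zero).1 e2
  have q3 : Q ≤ c * R := by
    have e1 : n * Q ≤ n * (c * R) := by
      calc (n : ℝ) * Q ≤ n * (6 * ∑ t ∈ Ts, (X t ^ 2 + η t) * Y t ^ 2) :=
            mul_le_mul_of_nonneg_left q1 hn0.le
        _ = 6 * (n * ∑ t ∈ Ts, (X t ^ 2 + η t) * Y t ^ 2) := by ring
        _ ≤ 6 * (512 * ∑ t ∈ Ts, (X t ^ 2 + η t) * η t) := by linarith
        _ ≤ 6 * (512 * (R * th0)) := by linarith
        _ = (3072 * th0) * R := by ring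
        _ = n * (c * R) := by rw [← hcn]; ring
    exact le_of_mul_le_mul_left e1 hn0
  have hRpos : 0 < R := hth.trans_le hR0
  have hD : 0 < 2 * c * R - Q := by
    have := mul_pos hc0 hRpos
    linarith
  have hfm : ∀ i, i ∈ frac y → 0 < y i ∧ y i < 1 := fun i hi => (Finset.mem_filter.1 hi).2
  obtain ⟨s, hs0, hs1, hs2, hs3⟩ := small_step y δ (fun i => ⟨hy.box i, by
      by_cases hi : i ∈ frac y
      · exact Or.inr (hfm i hi)
      · exact Or.inl (d1 i hi)⟩) Ts X Y (fun t ht => ⟨htests t ht, by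
      by_cases h1 : |X t| = 1
      · left
        rw [← hY']
        exact d4 t (Finset.mem_filter.2 ⟨ht, h1⟩)
      · right
        exact lt_of_le_of_ne (htests t ht) h1⟩) (2 * c * R - Q)
      (∑ t ∈ Ts, X t * Y t ^ 3) (∑ t ∈ Ts, Y t ^ 4) c hD
  have hinc : inc x (fun i => y i + s * δ i) = inc x y + s ^ 2 := inc_line x y δ s f1 d2
  have htst : ∀ t, tst a x (fun i => y i + s * δ i) t = X t + s * Y t := by
    intro t
    rw [tst_line, ← hX, hY']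
  refine ⟨fun i => y i + s * δ i, ⟨hs1, ?_, ?_, ?_, ?_, ?_, ?_⟩, ?_⟩
  · intro i hi
    have : i ∉ frac y := fun h => hi (hsub h)
    show y i + s * δ i = x i
    rw [d1 i this, hy.off i hi]
    ring
  · intro l hl
    have e1 := hy.lin l hl
    have e2 := d3 l hl
    calc ∑ i, (y i + s * δ i - x i) * L l i = ∑ i, (y i - x i) * L l i + s * ∑ i, L l i * δ i := by
          rw [Finset.mul_sum, ← Finset.sum_add_distrib]
          apply Finset.sum_congr rfl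
          intro i _
          ring
      _ = 0 := by rw [e1, e2]; ring
  · have e1 := quad_line (univ : Finset D) (fun p i => u i p) y x δ s
    rw [hinc]
    rw [f0] at e1
    rw [e1]
    have e2 := mul_le_mul_of_nonneg_left d6 (sq_nonneg s)
    have e3 := hy.vq
    linarith
  · intro t ht
    rw [htst]
    exact hs2 t ht
  · simp only [htst]
    rw [hinc, quart_line, ← hQ]
    have e1 : ∑ t ∈ Ts, (X t ^ 2 + η t) * X t * Y t = 0 := f3
    rw [e1]
    have e2 : th0 + c * (inc x y + s ^ 2) = R + c * s ^ 2 := by rw [hR]; ring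
    rw [e2]
    have e3 := mul_nonneg (sq_nonneg s) hs3
    nlinarith [hquart, e3]
  · exact (wpot_line Ω w x0 y δ s f2 d7).trans hy.wp
  · rw [hinc]
    have : 0 < s ^ 2 := by positivity
    linarith

/-- MODULE STAGE. Partial colouring with sup-constraints (quartic potential). -/
theorem stage {ι D Lt Tt Wt : Type*} [Fintype ι] [DecidableEq ι] [Fintype D]
    (n : ℕ) (hn : 128 ≤ n) (x x0 : ι → ℝ) (hx : ∀ i, 0 ≤ x i ∧ x i ≤ 1)
    (hfr : (frac x).card ≤ n)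
    (u : ι → D → ℝ) (hu : ∀ i, ∑ p, u i p ^ 2 ≤ 2)
    (Ls : Finset Lt) (L : Lt → ι → ℝ) (hL : 16 * Ls.card ≤ n)
    (Ts : Finset Tt) (θ : Tt → D → ℝ) (hθ : ∑ t ∈ Ts, (∑ p, θ t p ^ 2) ^ 2 ≤ (n : ℝ) / 10 ^ 8)
    (Ω : Finset Wt) (w : Wt → ι → ℝ) :
    ∃ x' : ι → ℝ, (∀ i, 0 ≤ x' i ∧ x' i ≤ 1) ∧ (∀ i, i ∉ frac x → x' i = x i) ∧
      2 * (frac x').card ≤ n ∧
      (∀ l ∈ Ls, ∑ i, (x' i - x i) * L l i = 0) ∧
      ∑ p, (∑ i, (x' i - x i) * u i p) ^ 2 ≤ 32 * n ∧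
      (∀ t ∈ Ts, |∑ p, θ t p * ∑ i, (x' i - x i) * u i p| ≤ 1) ∧
      ∑ ω ∈ Ω, (∑ i, (x' i - x0 i) * w ω i) ^ 2
          - 64 * ∑ i, (∑ ω ∈ Ω, w ω i ^ 2) * (x' i - 1 / 2) ^ 2
        ≤ ∑ ω ∈ Ω, (∑ i, (x i - x0 i) * w ω i) ^ 2
          - 64 * ∑ i, (∑ ω ∈ Ω, w ω i ^ 2) * (x i - 1 / 2) ^ 2 := by
  classical
  have hn0 : (0 : ℝ) < n := by
    have : 0 < n := by omega
    exact_mod_cast this
  obtain ⟨th0, hth⟩ : ∃ th0 : ℝ, th0 = √((n : ℝ) / 10 ^ 8) := ⟨_, rfl⟩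
  have hth0 : 0 < th0 := by rw [hth]; positivity
  have hth2 : th0 ^ 2 = n / 10 ^ 8 := by rw [hth]; exact Real.sq_sqrt (by positivity)
  obtain ⟨P, hP⟩ : ∃ P : (ι → ℝ) → Prop, P = SOK x x0 u Ls L Ts (fun t i => ∑ p, θ t p * u i p)
      (fun t => ∑ p, θ t p ^ 2) Ω w th0 (3072 * th0 / n) := ⟨_, rfl⟩
  have hPx : P x := by
    rw [hP]
    have hi : inc x x = 0 := by unfold inc; ring
    have ht : ∀ t, tst (fun t i => ∑ p, θ t p * u i p) x x t = 0 := by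
      intro t
      unfold tst
      simp
    refine ⟨hx, fun _ _ => rfl, ?_, ?_, ?_, ?_, le_rfl⟩
    · intro l _
      simp
    · rw [hi]
      simp
    · intro t _
      rw [ht]
      simp
    · rw [hi]
      simp only [ht]
      simp only [ne_eq, OfNat.ofNat_ne_zero, not_false_eq_true, zero_pow, zero_add, mul_zero,
        add_zero]
      rw [hth2]
      exact hθ
  have hcl : IsClosed {y | P y} := by
    have e : {y | P y} = ({y : ι → ℝ | ∀ i, 0 ≤ y i ∧ y i ≤ 1} ∩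
        ({y : ι → ℝ | ∀ i, i ∉ frac x → y i = x i} ∩
        ({y : ι → ℝ | ∀ l ∈ Ls, ∑ i, (y i - x i) * L l i = 0} ∩
        ({y : ι → ℝ | ∑ p, (∑ i, (y i - x i) * u i p) ^ 2 ≤ 128 * inc x y} ∩
        ({y : ι → ℝ | ∀ t ∈ Ts, |tst (fun t i => ∑ p, θ t p * u i p) x y t| ≤ 1} ∩
        ({y : ι → ℝ | ∑ t ∈ Ts, (tst (fun t i => ∑ p, θ t p * u i p) x y t ^ 2 +
          ∑ p, θ t p ^ 2) ^ 2 ≤ (th0 + 3072 * th0 / n * inc x y) ^ 2} ∩
        {y : ι → ℝ | wpot Ω w x0 y ≤ wpot Ω w x0 x})))))) := by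
      ext y
      rw [hP]
      constructor
      · intro h
        exact ⟨h.1, h.2, h.3, h.4, h.5, h.6, h.7⟩
      · rintro ⟨h1, h2, h3, h4, h5, h6, h7⟩
        exact ⟨h1, h2, h3, h4, h5, h6, h7⟩
    rw [e]
    have hinc : Continuous (fun y : ι → ℝ => inc x y) := by
      unfold inc
      fun_prop
    have htst : ∀ t, Continuous (fun y : ι → ℝ => tst (fun t i => ∑ p, θ t p * u i p) x y t) := by
      intro t
      unfold tst
      fun_prop
    have hwp : Continuous (fun y : ι → ℝ => wpot Ω w x0 y) := by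
      unfold wpot
      fun_prop
    refine IsClosed.inter ?_ (IsClosed.inter ?_ (IsClosed.inter ?_ (IsClosed.inter ?_
      (IsClosed.inter ?_ (IsClosed.inter ?_ ?_)))))
    · simp only [Set.ofPred_forall]
      refine isClosed_iInter fun i => ?_
      exact (isClosed_le continuous_const (continuous_apply i)).inter
        (isClosed_le (continuous_apply i) continuous_const)
    · simp only [Set.ofPred_forall]
      refine isClosed_iInter fun i => isClosed_iInter fun _ => ?_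
      exact isClosed_eq (continuous_apply i) continuous_const
    · simp only [Set.ofPred_forall]
      refine isClosed_iInter fun l => isClosed_iInter fun _ => ?_
      exact isClosed_eq (by fun_prop) continuous_const
    · exact isClosed_le (by fun_prop) (by fun_prop)
    · simp only [Set.ofPred_forall]
      refine isClosed_iInter fun t => isClosed_iInter fun _ => ?_
      exact isClosed_le (htst t).abs continuous_const
    · refine isClosed_le ?_ (by fun_prop)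
      exact continuous_finsetSum _ fun t _ => (((htst t).pow 2).add continuous_const).pow 2
    · exact isClosed_le hwp continuous_const
  have hcomp : IsCompact {y | P y} := by
    apply IsCompact.of_isClosed_subset (isCompact_Icc (a := (0 : ι → ℝ)) (b := 1)) hcl
    intro y hy
    have hy' : P y := hy
    rw [hP] at hy'
    exact ⟨fun i => (hy'.box i).1, fun i => (hy'.box i).2⟩
  have hinc : Continuous (fun y : ι → ℝ => inc x y) := by
    unfold inc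
    fun_prop
  obtain ⟨y, hyS, hymax⟩ := hcomp.exists_isMaxOn ⟨x, hPx⟩ hinc.continuousOn
  have hyP : P y := hyS
  have hmax : ∀ y', P y' → inc x y' ≤ inc x y := fun y' h => hymax h
  have hfrac : 2 * (frac y).card ≤ n := by
    by_contra hcon
    rw [hP] at hyP
    obtain ⟨y', h1, h2⟩ := improve n hn x x0 hfr u hu Ls L hL Ts θ Ω w th0 hth0 hth2
      (by rw [hth2]; exact hθ) y hyP (by omega)
    have := hmax y' (by rw [hP]; exact h1)
    linarith
  rw [hP] at hyP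
  refine ⟨y, hyP.box, hyP.off, hfrac, hyP.lin, ?_, ?_, hyP.wp⟩
  · have h1 := hyP.vq
    have h2 := inc_le hfr hyP.box hyP.off
    linarith
  · intro t ht
    have h1 := hyP.tests t ht
    have e1 : ∑ p, θ t p * ∑ i, (y i - x i) * u i p =
        tst (fun t i => ∑ p, θ t p * u i p) x y t := by
      unfold tst
      simp only [Finset.mul_sum]
      rw [Finset.sum_comm]
      apply Finset.sum_congr rfl
      intro i _
      apply Finset.sum_congr rfl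
      intro p _
      ring
    rw [e1]
    exact h1

end Vale.Agent.Steinitz2
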