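import Mathlib
import Vale.Agent.Lib.Steinitz2.RoundAux
import Vale.Agent.Lib.Steinitz2.Stage
import Vale.Agent.Lib.Steinitz2.Eig

/-!
# P262 log-free bound: one stage of the spread rounding
-/

namespace Vale.Agent.Steinitz2

open Finset

/-- data of the rounding theorem -/
structure RD (ι D Tt Wt Qt Mt : Type) [Fintype ι] [Fintype D] where
  x : ι → ℝ
  hx : ∀ i, 0 ≤ x i ∧ x i ≤ 1
  u : ι → D → ℝ
  hu : ∀ i, ∑ p, u i p ^ 2 ≤ 2
  Hc : Finset D
  s : D → ℕ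
  Ts : Finset Tt
  θ : Tt → D → ℝ
  hθ : ∀ n : ℕ, ∑ t ∈ Ts, (∑ p ∈ Hc with s p = n, θ t p ^ 2) ^ 2
        ≤ (1 / 10 ^ 28) * ((Hc.filter (fun p => s p = n)).card : ℝ) * (3 / 4) ^ n
  Ω : Finset Wt
  w : Wt → ι → ℝ
  Qs : Finset Qt
  c : Qt → ℕ
  hc : ∑ q ∈ Qs, (1 / 2 : ℝ) ^ (c q) ≤ 1 / 64
  Ms : Qt → Finset Mt
  M : Qt → Mt → D → ℝ
  hMH : ∀ q μ p, p ∉ Hc → M q μ p = 0
  hM : ∀ q ∈ Qs, ∑ μ ∈ Ms q, ∑ p, M q μ p ^ 2 ≤ 1
  b : Qt → ℕ → D → ℝ
  lam : Qt → ℕ → ℝ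
  lam_anti : ∀ q, Antitone (lam q)
  lam_nonneg : ∀ q n, 0 ≤ lam q n
  lam_sum : ∀ q ∈ Qs, ∀ K, ∑ j ∈ range K, lam q j ≤ 1
  lam_ex : ∀ q, ∀ (N : ℕ) (g : D → ℝ), (∀ r < N, ∑ p, b q r p * g p = 0) →
        ∑ μ ∈ Ms q, (∑ p, M q μ p * g p) ^ 2 ≤ lam q N * ∑ p, g p ^ 2

namespace RD

variable {ι D Tt Wt Qt Mt : Type} [Fintype ι] [Fintype D] (R : RD ι D Tt Wt Qt Mt)

/-- number of coordinates in class `n` -/
noncomputable def m (n : ℕ) : ℕ := (R.Hc.filter (fun p => R.s p = n)).card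

/-- first good stage of class `n` -/
noncomputable def L (n : ℕ) : ℕ := ln (R.m n) n

/-- test bound -/
noncomputable def β (l n : ℕ) : ℝ := (1 / 32000) * (24 / 25) ^ n * (9 / 10) ^ (l - R.L n)

/-- the state after the stages `≥ l` -/
structure Inv (l : ℕ) (x' : ι → ℝ) (g : D → ℝ) : Prop where
  box : ∀ i, 0 ≤ x' i ∧ x' i ≤ 1
  frz : ∀ i, i ∉ frac R.x → x' i = R.x i
  crd : (frac x').card ≤ 2 ^ l
  sup : ∀ p, p ∉ R.Hc → g p = 0
  pot : ∑ ω ∈ R.Ω, (∑ i, (x' i - R.x i) * R.w ω i) ^ 2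
          - 64 * ∑ i, (∑ ω ∈ R.Ω, R.w ω i ^ 2) * (x' i - 1 / 2) ^ 2
        ≤ - 64 * ∑ i, (∑ ω ∈ R.Ω, R.w ω i ^ 2) * (R.x i - 1 / 2) ^ 2
  tst : ∀ t ∈ R.Ts, ∀ n, |∑ p ∈ R.Hc with R.s p = n, R.θ t p * g p| ≤ 10 * R.β l n
  mA : ∀ q ∈ R.Qs, R.c q ≤ l → ∑ μ ∈ R.Ms q, (∑ p, R.M q μ p * g p) ^ 2
      + 128 * 2 ^ (R.c q) * ∑ j ∈ range (2 ^ (l - R.c q) / 2), R.lam q j ≤ 128 * 2 ^ (R.c q)
  mB : ∀ q ∈ R.Qs, l ≤ R.c q → nrm (R.Ms q) (fun μ => ∑ p, R.M q μ p * g p)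
      + 20 * Real.sqrt 2 ^ l ≤ 32 * Real.sqrt 2 ^ (R.c q)
  rA : ∀ n, R.L n ≤ l → ∀ p ∈ R.Hc, R.s p = n → g p = ∑ i, (x' i - R.x i) * R.u i p
  rB : ∀ n, l ≤ R.L n → nrm (R.Hc.filter (fun p => R.s p = n))
      (fun p => (∑ i, (x' i - R.x i) * R.u i p) - g p) + 20 * Real.sqrt 2 ^ l
        ≤ 20 * Real.sqrt 2 ^ (R.L n)

theorem β_pos (l n : ℕ) : 0 < R.β l n := by unfold β; positivity

theorem inv_start (K : ℕ) (hK : Fintype.card ι ≤ 2 ^ K) : R.Inv (K + 6) R.x (fun _ => 0) := by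
  have h2 : (1 : ℝ) ≤ Real.sqrt 2 := by
    rw [Real.one_le_sqrt]; norm_num
  constructor
  · exact R.hx
  · intro i _; rfl
  · calc (frac R.x).card ≤ Fintype.card ι := card_le_univ _
      _ ≤ 2 ^ K := hK
      _ ≤ 2 ^ (K + 6) := Nat.pow_le_pow_right (by norm_num) (by omega)
  · intro p _; rfl
  · simp
  · intro t _ n
    simp only [mul_zero, sum_const_zero, abs_zero]
    have := R.β_pos (K + 6) n
    linarith
  · intro q hq _
    have h := R.lam_sum q hq (2 ^ (K + 6 - R.c q) / 2)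
    simp only [mul_zero, sum_const_zero, ne_eq, OfNat.ofNat_ne_zero, not_false_eq_true, zero_pow,
      zero_add]
    have h3 : (0 : ℝ) < 128 * 2 ^ (R.c q) := by positivity
    calc 128 * 2 ^ (R.c q) * ∑ j ∈ range (2 ^ (K + 6 - R.c q) / 2), R.lam q j
        ≤ 128 * 2 ^ (R.c q) * 1 := mul_le_mul_of_nonneg_left h h3.le
      _ = _ := mul_one _
  · intro q hq hl
    have h3 : Real.sqrt 2 ^ (K + 6) ≤ Real.sqrt 2 ^ (R.c q) := pow_le_pow_right₀ h2 hl
    have h4 : (0 : ℝ) < Real.sqrt 2 ^ (R.c q) := by positivity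
    have h5 : nrm (R.Ms q) (fun μ => ∑ p, R.M q μ p * 0) ≤ 0 := by
      apply nrm_le _ _ _ le_rfl
      simp
    linarith
  · intro n _ p _ _
    simp
  · intro n hl
    have h3 : Real.sqrt 2 ^ (K + 6) ≤ Real.sqrt 2 ^ (R.L n) := pow_le_pow_right₀ h2 hl
    have h5 : nrm (R.Hc.filter (fun p => R.s p = n))
      (fun p => (∑ i, (R.x i - R.x i) * R.u i p) - 0) ≤ 0 := by
      apply nrm_le _ _ _ le_rfl
      simp
    linarith

/-- geometric sum over a finite set -/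
theorem geom_fin_le (S : Finset ℕ) (ρ : ℝ) (h0 : 0 ≤ ρ) (h1 : ρ ≤ 98 / 100) :
    ∑ n ∈ S, ρ ^ n ≤ 50 := by
  have h2 : ρ < 1 := by linarith
  have h3 := (summable_geometric_of_lt_one h0 h2).sum_le_tsum S (fun n _ => by positivity)
  rw [tsum_geometric_of_lt_one h0 h2] at h3
  refine h3.trans ?_
  rw [inv_le_comm₀ (by linarith) (by norm_num)]
  linarith

theorem test_term (n l : ℕ) (hL : R.L n ≤ l) :
    ((1 / 10 ^ 28) * (R.m n : ℝ) * (3 / 4) ^ n) / R.β l n ^ 4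
      ≤ (1 / 10 ^ 28) * 32000 ^ 4 * 2 ^ l * (98 / 100) ^ n := by
  have hm : (R.m n : ℝ) ≤ 2 ^ (R.L n) * (441 / 400 : ℝ) ^ n := le_ln _ _
  have hβ := R.β_pos l n
  rw [div_le_iff₀ (by positivity)]
  have e1 : R.β l n ^ 4 = (1 / 32000) ^ 4 * ((24 / 25) ^ 4) ^ n * ((9 / 10) ^ 4) ^ (l - R.L n) := by
    unfold β
    rw [mul_pow, mul_pow, ← pow_mul, ← pow_mul, ← pow_mul, ← pow_mul, mul_comm n, mul_comm (l - R.L n)]
  rw [e1]
  have h1 : (441 / 400 : ℝ) ^ n * (3 / 4) ^ n ≤ (98 / 100) ^ n * ((24 / 25) ^ 4) ^ n := by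
    rw [← mul_pow, ← mul_pow]
    apply pow_le_pow_left₀ (by norm_num)
    norm_num
  have h2 : (2 : ℝ) ^ (R.L n) ≤ 2 ^ l * ((9 / 10) ^ 4) ^ (l - R.L n) := by
    have h3 : (2 : ℝ) ^ l = 2 ^ (R.L n) * 2 ^ (l - R.L n) := by
      rw [← pow_add]; congr 1; omega
    rw [h3, mul_assoc, ← mul_pow]
    have h4 : (1 : ℝ) ≤ (2 * (9 / 10) ^ 4) ^ (l - R.L n) := one_le_pow₀ (by norm_num)
    calc (2 : ℝ) ^ (R.L n) = 2 ^ (R.L n) * 1 := (mul_one _).symm
      _ ≤ _ := mul_le_mul_of_nonneg_left h4 (by positivity)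
  calc (1 / 10 ^ 28) * (R.m n : ℝ) * (3 / 4) ^ n
      ≤ (1 / 10 ^ 28) * (2 ^ (R.L n) * (441 / 400 : ℝ) ^ n) * (3 / 4) ^ n := by gcongr
    _ = (1 / 10 ^ 28) * (2 ^ (R.L n) * ((441 / 400 : ℝ) ^ n * (3 / 4) ^ n)) := by ring
    _ ≤ (1 / 10 ^ 28) * ((2 ^ l * ((9 / 10) ^ 4) ^ (l - R.L n)) *
          ((98 / 100) ^ n * ((24 / 25) ^ 4) ^ n)) := by gcongr
    _ = _ := by ring

theorem lam_block (q : Qt) (N : ℕ) : ∑ j ∈ range (N / 2), R.lam q j + (N / 2 : ℝ) * R.lam q N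
    ≤ ∑ j ∈ range N, R.lam q j := by
  have h1 : N / 2 ≤ N := Nat.div_le_self _ _
  rw [← sum_range_add_sum_Ico _ h1]
  have h2 : ((N - N / 2 : ℕ) : ℝ) * R.lam q N ≤ ∑ j ∈ Ico (N / 2) N, R.lam q j := by
    have h3 : ∑ j ∈ Ico (N / 2) N, R.lam q N ≤ ∑ j ∈ Ico (N / 2) N, R.lam q j := by
      apply sum_le_sum
      intro j hj
      exact R.lam_anti q (mem_Ico.mp hj).2.le
    rwa [sum_const, Nat.card_Ico, nsmul_eq_mul] at h3
  have h4 : (N / 2 : ℝ) ≤ ((N - N / 2 : ℕ) : ℝ) := by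
    have h5 : N ≤ 2 * (N - N / 2) := by omega
    have h6 : (N : ℝ) ≤ 2 * ((N - N / 2 : ℕ) : ℝ) := by exact_mod_cast h5
    linarith
  have h7 := mul_le_mul_of_nonneg_right h4 (R.lam_nonneg q N)
  linarith

/-- the good coordinates at stage `l` -/
noncomputable def G (l : ℕ) : Finset D := R.Hc.filter (fun p => R.L (R.s p) ≤ l)

theorem mem_G (l : ℕ) (p : D) : p ∈ R.G l ↔ p ∈ R.Hc ∧ R.L (R.s p) ≤ l := by
  simp [G]

open Classical in
theorem step_stage (l : ℕ) (hl : 6 ≤ l) (x' : ι → ℝ) (g : D → ℝ) (I : R.Inv (l + 1) x' g) :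
    ∃ x'' : ι → ℝ, (∀ i, 0 ≤ x'' i ∧ x'' i ≤ 1) ∧ (∀ i, i ∉ frac x' → x'' i = x' i) ∧
      (frac x'').card ≤ 2 ^ l ∧
      (∀ q ∈ R.Qs, R.c q ≤ l → (∀ r < 2 ^ (l - R.c q),
        ∑ p ∈ R.G l, R.b q r p * ∑ i, (x'' i - x' i) * R.u i p = 0) ∧
        ∑ μ ∈ R.Ms q, (∑ p, R.M q μ p * g p) *
          (∑ p ∈ R.G l, R.M q μ p * ∑ i, (x'' i - x' i) * R.u i p) = 0) ∧
      ∑ p, (∑ i, (x'' i - x' i) * R.u i p) ^ 2 ≤ 64 * 2 ^ l ∧
      (∀ t ∈ R.Ts, ∀ n, R.L n ≤ l →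
        |∑ p ∈ R.Hc with R.s p = n, R.θ t p * ∑ i, (x'' i - x' i) * R.u i p| ≤ R.β l n) ∧
      ∑ ω ∈ R.Ω, (∑ i, (x'' i - R.x i) * R.w ω i) ^ 2
          - 64 * ∑ i, (∑ ω ∈ R.Ω, R.w ω i ^ 2) * (x'' i - 1 / 2) ^ 2
        ≤ ∑ ω ∈ R.Ω, (∑ i, (x' i - R.x i) * R.w ω i) ^ 2
          - 64 * ∑ i, (∑ ω ∈ R.Ω, R.w ω i ^ 2) * (x' i - 1 / 2) ^ 2 := by
  have hn : 128 ≤ 2 ^ (l + 1) := by
    calc 128 = 2 ^ (6 + 1) := by norm_num
      _ ≤ 2 ^ (l + 1) := Nat.pow_le_pow_right (by norm_num) (by omega)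
  -- linear constraints
  let Ls : Finset (Σ _ : Qt, ℕ) :=
    (R.Qs.filter (fun q => R.c q ≤ l)).sigma (fun q => range (2 ^ (l - R.c q) + 1))
  let Lf : (Σ _ : Qt, ℕ) → ι → ℝ := fun a i =>
    if a.2 < 2 ^ (l - R.c a.1) then ∑ p ∈ R.G l, R.b a.1 a.2 p * R.u i p
    else ∑ μ ∈ R.Ms a.1, (∑ p, R.M a.1 μ p * g p) * (∑ p ∈ R.G l, R.M a.1 μ p * R.u i p)
  have hL : 16 * Ls.card ≤ 2 ^ (l + 1) := by
    have h1 : (Ls.card : ℝ) ≤ 2 ^ l / 32 := by
      rw [card_sigma]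
      push_cast
      have h2 : ∀ q ∈ R.Qs.filter (fun q => R.c q ≤ l),
          (((range (2 ^ (l - R.c q) + 1)).card : ℕ) : ℝ) ≤ 2 * 2 ^ l * (1 / 2 : ℝ) ^ (R.c q) := by
        intro q hq
        have hq2 : R.c q ≤ l := (mem_filter.mp hq).2
        rw [card_range]
        push_cast
        have h3 : (1 : ℝ) ≤ 2 ^ (l - R.c q) := one_le_pow₀ (by norm_num)
        have h4 : (2 : ℝ) ^ l * (1 / 2 : ℝ) ^ (R.c q) = 2 ^ (l - R.c q) := by
          have h5 : (2 : ℝ) ^ l = 2 ^ (l - R.c q) * 2 ^ (R.c q) := by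
            rw [← pow_add]; congr 1; omega
          rw [h5, mul_assoc, ← mul_pow]
          norm_num
        rw [mul_assoc, h4]
        linarith
      refine (sum_le_sum h2).trans ?_
      rw [← mul_sum]
      have h6 : ∑ q ∈ R.Qs.filter (fun q => R.c q ≤ l), (1 / 2 : ℝ) ^ (R.c q) ≤ 1 / 64 :=
        (sum_le_sum_of_subset_of_nonneg (filter_subset _ _) (fun _ _ _ => by positivity)).trans R.hc
      calc 2 * 2 ^ l * ∑ q ∈ R.Qs.filter (fun q => R.c q ≤ l), (1 / 2 : ℝ) ^ (R.c q)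
          ≤ 2 * 2 ^ l * (1 / 64) := mul_le_mul_of_nonneg_left h6 (by positivity)
        _ = 2 ^ l / 32 := by ring
    have h2 : (16 : ℝ) * Ls.card ≤ 2 ^ (l + 1) := by
      rw [pow_succ]
      have : (0 : ℝ) < 2 ^ l := by positivity
      linarith
    exact_mod_cast h2
  -- tests
  let Cl : Finset ℕ := (R.Hc.image R.s).filter (fun n => R.L n ≤ l)
  let θ' : Tt × ℕ → D → ℝ := fun a p =>
    if p ∈ R.Hc ∧ R.s p = a.2 then R.θ a.1 p / R.β l a.2 else 0
  have hθsum : ∀ (t : Tt) (n : ℕ) (f : D → ℝ), ∑ p, θ' (t, n) p * f p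
      = (∑ p ∈ R.Hc with R.s p = n, R.θ t p * f p) / R.β l n := by
    intro t n f
    rw [sum_div, sum_filter]
    have h1 : ∀ p, θ' (t, n) p * f p = if p ∈ R.Hc then
        (if R.s p = n then R.θ t p * f p / R.β l n else 0) else 0 := by
      intro p
      simp only [θ']
      by_cases h1 : p ∈ R.Hc
      · by_cases h2 : R.s p = n
        · simp [h1, h2]; ring
        · simp [h2]
      · simp [h1]
    rw [sum_congr rfl fun p _ => h1 p, ← sum_filter]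
    congr 1
    ext p; simp
  have hθsq : ∀ (t : Tt) (n : ℕ), ∑ p, θ' (t, n) p ^ 2
      = (∑ p ∈ R.Hc with R.s p = n, R.θ t p ^ 2) / R.β l n ^ 2 := by
    intro t n
    have h1 := hθsum t n (θ' (t, n))
    have h2 : ∑ p, θ' (t, n) p ^ 2 = ∑ p, θ' (t, n) p * θ' (t, n) p :=
      sum_congr rfl fun p _ => by ring
    rw [h2, h1]
    have h3 : ∑ p ∈ R.Hc with R.s p = n, R.θ t p * θ' (t, n) p
        = (∑ p ∈ R.Hc with R.s p = n, R.θ t p ^ 2) / R.β l n := by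
      rw [sum_div]
      apply sum_congr rfl
      intro p hp
      have hp2 := mem_filter.mp hp
      simp only [θ']
      rw [if_pos hp2]
      ring
    rw [h3, div_div]
    congr 1
    ring
  have hθ' : ∑ a ∈ R.Ts ×ˢ Cl, (∑ p, θ' a p ^ 2) ^ 2 ≤ ((2 ^ (l + 1) : ℕ) : ℝ) / 10 ^ 8 := by
    rw [sum_product_right]
    have h1 : ∀ n ∈ Cl, ∑ t ∈ R.Ts, (∑ p, θ' (t, n) p ^ 2) ^ 2
        ≤ (1 / 10 ^ 28) * 32000 ^ 4 * 2 ^ l * (98 / 100) ^ n := by
      intro n hn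
      have hLn : R.L n ≤ l := (mem_filter.mp hn).2
      refine le_trans ?_ (R.test_term n l hLn)
      have h2 : ∑ t ∈ R.Ts, (∑ p, θ' (t, n) p ^ 2) ^ 2
          = (∑ t ∈ R.Ts, (∑ p ∈ R.Hc with R.s p = n, R.θ t p ^ 2) ^ 2) / R.β l n ^ 4 := by
        rw [sum_div]
        apply sum_congr rfl
        intro t _
        rw [hθsq, div_pow, ← pow_mul]
      rw [h2]
      have hβ := R.β_pos l n
      exact div_le_div_of_nonneg_right (R.hθ n) (by positivity)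
    refine (sum_le_sum h1).trans ?_
    rw [← mul_sum]
    have h3 := geom_fin_le Cl (98 / 100) (by norm_num) le_rfl
    calc (1 / 10 ^ 28 : ℝ) * 32000 ^ 4 * 2 ^ l * ∑ n ∈ Cl, (98 / 100 : ℝ) ^ n
        ≤ (1 / 10 ^ 28 : ℝ) * 32000 ^ 4 * 2 ^ l * 50 :=
          mul_le_mul_of_nonneg_left h3 (by positivity)
      _ = ((1 / 10 ^ 28 : ℝ) * 32000 ^ 4 * 50) * 2 ^ l := by ring
      _ ≤ (2 / 10 ^ 8) * 2 ^ l := mul_le_mul_of_nonneg_right (by norm_num) (by positivity)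
      _ = _ := by push_cast; ring
  obtain ⟨x'', h1, h2, h3, h4, h5, h6, h7⟩ := stage (2 ^ (l + 1)) hn x' R.x I.box I.crd R.u R.hu
    Ls Lf hL (R.Ts ×ˢ Cl) θ' hθ' R.Ω R.w
  have swap : ∀ (P : Finset D) (f : D → ℝ),
      ∑ i, (x'' i - x' i) * ∑ p ∈ P, f p * R.u i p
        = ∑ p ∈ P, f p * ∑ i, (x'' i - x' i) * R.u i p := by
    intro P f
    simp_rw [mul_sum]
    rw [sum_comm]
    exact sum_congr rfl fun p _ => sum_congr rfl fun i _ => by ring
  refine ⟨x'', h1, h2, ?_, ?_, ?_, ?_, h7⟩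
  · rw [pow_succ] at h3; omega
  · intro q hq hql
    constructor
    · intro r hr
      have h8 := h4 ⟨q, r⟩ (by
        simp only [Ls, mem_sigma, mem_filter, mem_range]
        exact ⟨⟨hq, hql⟩, by omega⟩)
      simp only [Lf, if_pos hr] at h8
      rw [← swap]
      exact h8
    · have h8 := h4 ⟨q, 2 ^ (l - R.c q)⟩ (by
        simp only [Ls, mem_sigma, mem_filter, mem_range]
        exact ⟨⟨hq, hql⟩, by omega⟩)
      simp only [Lf, lt_irrefl, if_false] at h8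
      rw [← h8]
      simp_rw [← swap]
      simp_rw [mul_sum]
      rw [sum_comm]
      refine sum_congr rfl fun i _ => sum_congr rfl fun μ _ => ?_
      refine sum_congr rfl fun p _ => ?_
      ring
  · refine h5.trans (le_of_eq ?_)
    push_cast
    ring
  · intro t ht n hn
    by_cases hcl : n ∈ R.Hc.image R.s
    · have h8 := h6 (t, n) (by
        simp only [Cl, mem_product, mem_filter]
        exact ⟨ht, hcl, hn⟩)
      rw [hθsum] at h8
      have hβ := R.β_pos l n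
      rw [abs_div, abs_of_pos hβ, div_le_one hβ] at h8
      exact h8
    · have h9 : R.Hc.filter (fun p => R.s p = n) = ∅ := by
        rw [filter_eq_empty_iff]
        intro p hp hpn
        exact hcl (mem_image.mpr ⟨p, hp, hpn⟩)
      rw [h9, sum_empty, abs_zero]
      exact (R.β_pos l n).le

theorem sqrt_two_step (l : ℕ) : 28 * Real.sqrt 2 ^ l ≤ 20 * Real.sqrt 2 ^ (l + 1) := by
  have h1 : (7 / 5 : ℝ) ≤ Real.sqrt 2 := by
    apply Real.le_sqrt_of_sq_le; norm_num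
  have h2 : (0 : ℝ) < Real.sqrt 2 ^ l := by positivity
  rw [pow_succ]
  nlinarith

theorem sqrt_two_pow_sq (l : ℕ) : (Real.sqrt 2 ^ l) ^ 2 = 2 ^ l := by
  rw [← pow_mul, mul_comm, pow_mul, Real.sq_sqrt (by norm_num)]

theorem step (l : ℕ) (hl : 6 ≤ l) (x' : ι → ℝ) (g : D → ℝ) (I : R.Inv (l + 1) x' g) :
    ∃ (x'' : ι → ℝ) (g'' : D → ℝ), R.Inv l x'' g'' := by
  classical
  obtain ⟨x'', h1, h2, h3, h4, h5, h6, h7⟩ := R.step_stage l hl x' g I
  let e : D → ℝ := fun p => ∑ i, (x'' i - x' i) * R.u i p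
  let gl : D → ℝ := fun p => if p ∈ R.G l then e p else 0
  have he : ∑ p, e p ^ 2 ≤ 64 * 2 ^ l := h5
  have hgl0 : ∀ p, p ∉ R.G l → gl p = 0 := fun p hp => if_neg hp
  have hgl1 : ∀ p, p ∈ R.G l → gl p = e p := fun p hp => if_pos hp
  have hglsq : ∑ p, gl p ^ 2 ≤ 64 * 2 ^ l := by
    refine (sum_le_sum fun p _ => ?_).trans he
    by_cases hp : p ∈ R.G l
    · rw [hgl1 p hp]
    · rw [hgl0 p hp]
      have := sq_nonneg (e p)
      simpa using this
  have hglsum : ∀ f : D → ℝ, ∑ p, f p * gl p = ∑ p ∈ R.G l, f p * e p := by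
    intro f
    rw [← sum_subset (subset_univ (R.G l))]
    · exact sum_congr rfl fun p hp => by rw [hgl1 p hp]
    · intro p _ hp
      rw [hgl0 p hp, mul_zero]
  have hsplit : ∀ p, ∑ i, (x'' i - R.x i) * R.u i p
      = ∑ i, (x' i - R.x i) * R.u i p + e p := by
    intro p
    simp only [e]
    rw [← sum_add_distrib]
    exact sum_congr rfl fun i _ => by ring
  -- M rows
  have hMrow : ∀ q ∈ R.Qs, nrm (R.Ms q) (fun μ => ∑ p, R.M q μ p * gl p)
      ≤ 8 * Real.sqrt 2 ^ l := by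
    intro q hq
    apply nrm_le _ _ _ (by positivity)
    have h8 := rows_sq_le (R.Ms q) univ (R.M q) gl
    refine h8.trans ?_
    have h9 := R.hM q hq
    have h10 : (0 : ℝ) ≤ ∑ p, gl p ^ 2 := sum_nonneg fun _ _ => sq_nonneg _
    calc (∑ μ ∈ R.Ms q, ∑ p, R.M q μ p ^ 2) * ∑ p, gl p ^ 2
        ≤ 1 * ∑ p, gl p ^ 2 := mul_le_mul_of_nonneg_right h9 h10
      _ ≤ 64 * 2 ^ l := by rw [one_mul]; exact hglsq
      _ = (8 * Real.sqrt 2 ^ l) ^ 2 := by rw [mul_pow, sqrt_two_pow_sq]; norm_num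
  have hMadd : ∀ q μ, ∑ p, R.M q μ p * (g p + gl p)
      = ∑ p, R.M q μ p * g p + ∑ p, R.M q μ p * gl p := by
    intro q μ
    rw [← sum_add_distrib]
    exact sum_congr rfl fun p _ => by ring
  have mA : ∀ q ∈ R.Qs, R.c q ≤ l → ∑ μ ∈ R.Ms q, (∑ p, R.M q μ p * (g p + gl p)) ^ 2
      + 128 * 2 ^ (R.c q) * ∑ j ∈ range (2 ^ (l - R.c q) / 2), R.lam q j
        ≤ 128 * 2 ^ (R.c q) := by
    intro q hq hql
    have hold := I.mA q hq (by omega)
    have e1 : 2 ^ (l + 1 - R.c q) / 2 = 2 ^ (l - R.c q) := by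
      have : l + 1 - R.c q = (l - R.c q) + 1 := by omega
      rw [this, pow_succ]
      omega
    rw [e1] at hold
    obtain ⟨ha, hb⟩ := h4 q hq hql
    have hex := R.lam_ex q (2 ^ (l - R.c q)) gl (by
      intro r hr
      rw [hglsum]
      exact ha r hr)
    have hblk := R.lam_block q (2 ^ (l - R.c q))
    have hcross : ∑ μ ∈ R.Ms q, (∑ p, R.M q μ p * g p) * (∑ p, R.M q μ p * gl p) = 0 := by
      rw [← hb]
      exact sum_congr rfl fun μ _ => by rw [hglsum]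
    have hexp : ∑ μ ∈ R.Ms q, (∑ p, R.M q μ p * (g p + gl p)) ^ 2
        = ∑ μ ∈ R.Ms q, (∑ p, R.M q μ p * g p) ^ 2
          + 2 * ∑ μ ∈ R.Ms q, (∑ p, R.M q μ p * g p) * (∑ p, R.M q μ p * gl p)
          + ∑ μ ∈ R.Ms q, (∑ p, R.M q μ p * gl p) ^ 2 := by
      rw [mul_sum, ← sum_add_distrib, ← sum_add_distrib]
      exact sum_congr rfl fun μ _ => by rw [hMadd]; ring
    rw [hexp, hcross]
    have hlam := R.lam_nonneg q (2 ^ (l - R.c q))
    have hbound : ∑ μ ∈ R.Ms q, (∑ p, R.M q μ p * gl p) ^ 2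
        ≤ R.lam q (2 ^ (l - R.c q)) * (64 * 2 ^ l) :=
      hex.trans (mul_le_mul_of_nonneg_left hglsq hlam)
    have e2 : (2 : ℝ) ^ l = 2 ^ (R.c q) * 2 ^ (l - R.c q) := by
      rw [← pow_add]; congr 1; omega
    push_cast at hblk
    have hc0 : (0 : ℝ) < 2 ^ (R.c q) := by positivity
    have h11 := mul_le_mul_of_nonneg_left hblk (by positivity : (0 : ℝ) ≤ 128 * 2 ^ (R.c q))
    rw [e2] at hbound
    nlinarith
  refine ⟨x'', fun p => g p + gl p, ?_⟩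
  have rA : ∀ n, R.L n ≤ l → ∀ p ∈ R.Hc, R.s p = n →
      g p + gl p = ∑ i, (x'' i - R.x i) * R.u i p := by
    intro n hn p hp hpn
    rw [hsplit, I.rA n (by omega) p hp hpn, hgl1 p ((R.mem_G l p).mpr ⟨hp, by rw [hpn]; exact hn⟩)]
  constructor
  · exact h1
  · intro i hi
    rw [← I.frz i hi]
    apply h2
    intro hi2
    apply hi
    have h8 := I.frz i hi
    simp only [frac, mem_filter, mem_univ, true_and] at hi2 ⊢
    rwa [h8] at hi2
  · exact h3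
  · intro p hp
    rw [I.sup p hp, hgl0 p (fun h => hp ((R.mem_G l p).mp h).1), add_zero]
  · exact h7.trans I.pot
  · intro t ht n
    have hold := I.tst t ht n
    by_cases hn : R.L n ≤ l
    · have e3 : ∑ p ∈ R.Hc with R.s p = n, R.θ t p * (g p + gl p)
          = ∑ p ∈ R.Hc with R.s p = n, R.θ t p * g p
            + ∑ p ∈ R.Hc with R.s p = n, R.θ t p * e p := by
        rw [← sum_add_distrib]
        apply sum_congr rfl
        intro p hp
        have hp2 := mem_filter.mp hp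
        rw [hgl1 p ((R.mem_G l p).mpr ⟨hp2.1, by rw [hp2.2]; exact hn⟩)]
        ring
      rw [e3]
      have h8 := h6 t ht n hn
      have e4 : R.β (l + 1) n = (9 / 10) * R.β l n := by
        unfold β
        have : l + 1 - R.L n = (l - R.L n) + 1 := by omega
        rw [this, pow_succ]
        ring
      rw [e4] at hold
      calc |∑ p ∈ R.Hc with R.s p = n, R.θ t p * g p + ∑ p ∈ R.Hc with R.s p = n, R.θ t p * e p|
          ≤ |∑ p ∈ R.Hc with R.s p = n, R.θ t p * g p|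
            + |∑ p ∈ R.Hc with R.s p = n, R.θ t p * e p| := abs_add_le _ _
        _ ≤ 10 * (9 / 10 * R.β l n) + R.β l n := add_le_add hold h8
        _ = _ := by ring
    · have e3 : ∑ p ∈ R.Hc with R.s p = n, R.θ t p * (g p + gl p)
          = ∑ p ∈ R.Hc with R.s p = n, R.θ t p * g p := by
        apply sum_congr rfl
        intro p hp
        have hp2 := mem_filter.mp hp
        rw [hgl0 p (fun h => hn (by rw [← hp2.2]; exact ((R.mem_G l p).mp h).2)), add_zero]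
      rw [e3]
      have e4 : R.β (l + 1) n = R.β l n := by
        unfold β
        have h8 : l + 1 - R.L n = 0 := by omega
        have h9 : l - R.L n = 0 := by omega
        rw [h8, h9]
      rw [e4] at hold
      exact hold
  · exact mA
  · intro q hq hql
    rcases Nat.lt_or_ge l (R.c q) with hlt | hge
    · have hold := I.mB q hq (by omega)
      have h8 : nrm (R.Ms q) (fun μ => ∑ p, R.M q μ p * (g p + gl p))
          ≤ nrm (R.Ms q) (fun μ => ∑ p, R.M q μ p * g p)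
            + nrm (R.Ms q) (fun μ => ∑ p, R.M q μ p * gl p) := by
        refine le_trans (le_of_eq ?_) (nrm_add_le _ _ _)
        exact nrm_congr _ _ _ fun μ _ => hMadd q μ
      have h9 := hMrow q hq
      have h10 := sqrt_two_step l
      linarith
    · have hle : l = R.c q := le_antisymm hql hge
      have h8 := mA q hq hge
      have h9 : 0 ≤ ∑ j ∈ range (2 ^ (l - R.c q) / 2), R.lam q j :=
        sum_nonneg fun _ _ => R.lam_nonneg _ _
      have h10 : (0 : ℝ) < 2 ^ (R.c q) := by positivity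
      have h11 : nrm (R.Ms q) (fun μ => ∑ p, R.M q μ p * (g p + gl p))
          ≤ 12 * Real.sqrt 2 ^ (R.c q) := by
        apply nrm_le _ _ _ (by positivity)
        rw [mul_pow, sqrt_two_pow_sq]
        have h12 : 0 ≤ 128 * 2 ^ (R.c q) * ∑ j ∈ range (2 ^ (l - R.c q) / 2), R.lam q j := by
          positivity
        nlinarith
      rw [← hle] at h11 ⊢
      linarith
  · exact rA
  · intro n hn
    rcases Nat.lt_or_ge l (R.L n) with hlt | hge
    · have hold := I.rB n (by omega)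
      have h8 : nrm (R.Hc.filter (fun p => R.s p = n))
          (fun p => (∑ i, (x'' i - R.x i) * R.u i p) - (g p + gl p))
          ≤ nrm (R.Hc.filter (fun p => R.s p = n))
              (fun p => (∑ i, (x' i - R.x i) * R.u i p) - g p)
            + nrm (R.Hc.filter (fun p => R.s p = n)) e := by
        refine le_trans (le_of_eq ?_) (nrm_add_le _ _ _)
        apply nrm_congr
        intro p hp
        have hp2 := mem_filter.mp hp
        rw [hsplit, hgl0 p (fun h => by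
          have h12 := ((R.mem_G l p).mp h).2
          rw [hp2.2] at h12
          omega)]
        ring
      have h9 : nrm (R.Hc.filter (fun p => R.s p = n)) e ≤ 8 * Real.sqrt 2 ^ l := by
        apply (nrm_mono _ _ (subset_univ _) e).trans
        apply nrm_le _ _ _ (by positivity)
        rw [mul_pow, sqrt_two_pow_sq]
        refine he.trans (le_of_eq ?_)
        norm_num
      have h10 := sqrt_two_step l
      linarith
    · have hle : l = R.L n := le_antisymm hn hge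
      have h8 : nrm (R.Hc.filter (fun p => R.s p = n))
          (fun p => (∑ i, (x'' i - R.x i) * R.u i p) - (g p + gl p)) ≤ 0 := by
        apply nrm_le _ _ _ le_rfl
        apply le_of_eq
        rw [zero_pow two_ne_zero]
        apply sum_eq_zero
        intro p hp
        have hp2 := mem_filter.mp hp
        rw [rA n hge p hp2.1 hp2.2]
        ring
      rw [← hle]
      linarith

theorem all_stages : ∃ (x' : ι → ℝ) (g : D → ℝ), R.Inv 6 x' g := by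
  obtain ⟨K, hK⟩ : ∃ K, Fintype.card ι ≤ 2 ^ K := ⟨Fintype.card ι, Nat.lt_two_pow_self.le⟩
  have h : ∀ k : ℕ, (∃ (x' : ι → ℝ) (g : D → ℝ), R.Inv (k + 6) x' g) →
      ∃ (x' : ι → ℝ) (g : D → ℝ), R.Inv 6 x' g := by
    intro k
    induction k with
    | zero => intro h; simpa using h
    | succ k ih =>
      rintro ⟨x', g, I⟩
      apply ih
      exact R.step (k + 6) (by omega) x' g (by
        have : k + 6 + 1 = k + 1 + 6 := by omega
        rw [this]; exact I)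
  exact h K ⟨_, _, R.inv_start K hK⟩

end RD

end Vale.Agent.Steinitz2
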