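import Mathlib
import Vale.Agent.Lib.Steinitz2.RoundStep

/-!
# P262 log-free bound: module ROUND (the spread rounding theorem)
-/

namespace Vale.Agent.Steinitz2

open Finset

namespace RD

variable {ι D Tt Wt Qt Mt : Type} [Fintype ι] [Fintype D] (R : RD ι D Tt Wt Qt Mt)

theorem final (hθ2 : ∀ t ∈ R.Ts, ∑ p ∈ R.Hc, R.θ t p ^ 2 ≤ 1 / 10 ^ 28) :
    ∃ (ξ : ι → ℝ) (g : D → ℝ), (∀ i, ξ i = 0 ∨ ξ i = 1) ∧
      (∀ i, (R.x i = 0 ∨ R.x i = 1) → ξ i = R.x i) ∧ (∀ p, p ∉ R.Hc → g p = 0) ∧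
      (∑ ω ∈ R.Ω, (∑ i, (ξ i - R.x i) * R.w ω i) ^ 2
        ≤ 20000 * ∑ ω ∈ R.Ω, ∑ i ∈ frac R.x, R.w ω i ^ 2) ∧
      (∀ t ∈ R.Ts, |∑ p, R.θ t p * g p| ≤ 1 / 64) ∧
      (∀ q ∈ R.Qs, ∑ μ ∈ R.Ms q, (∑ p, R.M q μ p * g p) ^ 2 ≤ 20000 * 2 ^ (R.c q)) ∧
      (∀ n : ℕ, ∑ p ∈ R.Hc with R.s p = n, ((∑ i, (ξ i - R.x i) * R.u i p) - g p) ^ 2
        ≤ 20000 * (R.m n : ℝ) * (400 / 441) ^ n) := by
  classical
  obtain ⟨x', g, I⟩ := R.all_stages
  let F : Finset ι := frac x'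
  let z : ι → ℝ := fun i => if i ∈ F then - x' i else 0
  let ξ : ι → ℝ := fun i => x' i + z i
  let e : D → ℝ := fun p => ∑ i, z i * R.u i p
  let gl : D → ℝ := fun p => if p ∈ R.Hc then e p else 0
  have hFc : (F.card : ℝ) ≤ 64 := by
    have h := I.crd
    have h2 : F.card ≤ 64 := h
    exact_mod_cast h2
  have hFsub : ∀ i ∈ F, i ∈ frac R.x := by
    intro i hi
    by_contra h
    have h8 := I.frz i h
    apply h
    simp only [F, frac, mem_filter, mem_univ, true_and] at hi ⊢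
    rwa [h8] at hi
  have hsupp : ∀ f : ι → ℝ, ∑ i, z i * f i = ∑ i ∈ F, z i * f i := by
    intro f
    symm
    apply sum_subset (subset_univ F)
    intro i _ hi
    simp [z, hi]
  have hz2 : ∑ i ∈ F, z i ^ 2 ≤ 64 := by
    calc ∑ i ∈ F, z i ^ 2 ≤ ∑ i ∈ F, (1 : ℝ) := by
          apply sum_le_sum
          intro i hi
          simp only [z, if_pos hi]
          have := I.box i
          nlinarith
      _ ≤ 64 := by simpa using hFc
  have he : ∑ p, e p ^ 2 ≤ 8192 := by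
    have h1 : ∑ p, e p ^ 2 = ∑ p, (∑ i ∈ F, z i * R.u i p) ^ 2 :=
      sum_congr rfl fun p _ => by simp only [e]; rw [hsupp]
    rw [h1]
    refine (comb_sq_le F univ z R.u).trans ?_
    have h2 : ∑ i ∈ F, ∑ p, R.u i p ^ 2 ≤ 128 := by
      calc ∑ i ∈ F, ∑ p, R.u i p ^ 2 ≤ ∑ i ∈ F, (2 : ℝ) := sum_le_sum fun i _ => R.hu i
        _ ≤ 128 := by
          rw [sum_const, nsmul_eq_mul]; linarith
    have h3 : 0 ≤ ∑ i ∈ F, ∑ p, R.u i p ^ 2 :=
      sum_nonneg fun _ _ => sum_nonneg fun _ _ => sq_nonneg _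
    calc (∑ i ∈ F, z i ^ 2) * ∑ i ∈ F, ∑ p, R.u i p ^ 2
        ≤ 64 * 128 := mul_le_mul hz2 h2 h3 (by norm_num)
      _ = 8192 := by norm_num
  have hglsq : ∑ p ∈ R.Hc, gl p ^ 2 ≤ 8192 := by
    calc ∑ p ∈ R.Hc, gl p ^ 2 = ∑ p ∈ R.Hc, e p ^ 2 :=
          sum_congr rfl fun p hp => by simp [gl, hp]
      _ ≤ ∑ p, e p ^ 2 := sum_le_sum_of_subset_of_nonneg (subset_univ _) fun _ _ _ => sq_nonneg _
      _ ≤ 8192 := he
  have hglsum : ∀ f : D → ℝ, ∑ p, f p * gl p = ∑ p ∈ R.Hc, f p * gl p := by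
    intro f
    symm
    apply sum_subset (subset_univ _)
    intro p _ hp
    simp [gl, hp]
  have hsum : ∀ f : ι → ℝ, ∑ i, (ξ i - R.x i) * f i
      = ∑ i, (x' i - R.x i) * f i + ∑ i, z i * f i := by
    intro f
    rw [← sum_add_distrib]
    exact sum_congr rfl fun i _ => by simp only [ξ]; ring
  refine ⟨ξ, fun p => g p + gl p, ?_, ?_, ?_, ?_, ?_, ?_, ?_⟩
  · intro i
    by_cases hi : i ∈ F
    · left
      simp [ξ, z, hi]
    · have h1 := I.box i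
      have h2 : ¬ (0 < x' i ∧ x' i < 1) := by
        intro h
        exact hi (by simp only [F, frac, mem_filter, mem_univ, true_and]; exact h)
      simp only [ξ, z, if_neg hi, add_zero]
      by_cases h3 : x' i = 0
      · left; exact h3
      · right
        have h4 : 0 < x' i := lt_of_le_of_ne h1.1 (Ne.symm h3)
        have h5 : ¬ (x' i < 1) := fun h => h2 ⟨h4, h⟩
        linarith [h1.2, not_lt.mp h5]
  · intro i hi
    have h1 : i ∉ frac R.x := by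
      simp only [frac, mem_filter, mem_univ, true_and]
      rintro ⟨h2, h3⟩
      rcases hi with h | h
      · rw [h] at h2; exact lt_irrefl _ h2
      · rw [h] at h3; exact lt_irrefl _ h3
    have h2 : i ∉ F := fun h => h1 (hFsub i h)
    simp only [ξ, z, if_neg h2, add_zero]
    exact I.frz i h1
  · intro p hp
    have h1 : g p + gl p = 0 := by
      rw [I.sup p hp]
      simp [gl, hp]
    exact h1
  · -- W
    have h1 := I.pot
    have h2 : ∑ ω ∈ R.Ω, (∑ i, (x' i - R.x i) * R.w ω i) ^ 2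
        ≤ 64 * ∑ i, (∑ ω ∈ R.Ω, R.w ω i ^ 2) * ((x' i - 1 / 2) ^ 2 - (R.x i - 1 / 2) ^ 2) := by
      have h3 : ∑ i, (∑ ω ∈ R.Ω, R.w ω i ^ 2) * ((x' i - 1 / 2) ^ 2 - (R.x i - 1 / 2) ^ 2)
          = ∑ i, (∑ ω ∈ R.Ω, R.w ω i ^ 2) * (x' i - 1 / 2) ^ 2
            - ∑ i, (∑ ω ∈ R.Ω, R.w ω i ^ 2) * (R.x i - 1 / 2) ^ 2 := by
        rw [← sum_sub_distrib]
        exact sum_congr rfl fun i _ => by ring
      rw [h3]
      linarith
    have h4 : ∑ i, (∑ ω ∈ R.Ω, R.w ω i ^ 2) * ((x' i - 1 / 2) ^ 2 - (R.x i - 1 / 2) ^ 2)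
        ≤ ∑ i ∈ frac R.x, (∑ ω ∈ R.Ω, R.w ω i ^ 2) * (1 / 4) := by
      have h5 : ∑ i, (∑ ω ∈ R.Ω, R.w ω i ^ 2) * ((x' i - 1 / 2) ^ 2 - (R.x i - 1 / 2) ^ 2)
          = ∑ i ∈ frac R.x, (∑ ω ∈ R.Ω, R.w ω i ^ 2)
              * ((x' i - 1 / 2) ^ 2 - (R.x i - 1 / 2) ^ 2) := by
        symm
        apply sum_subset (subset_univ _)
        intro i _ hi
        rw [I.frz i hi]
        ring
      rw [h5]
      apply sum_le_sum
      intro i _
      apply mul_le_mul_of_nonneg_left _ (sum_nonneg fun _ _ => sq_nonneg _)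
      have h6 := I.box i
      nlinarith [sq_nonneg (R.x i - 1 / 2)]
    have h5 : ∑ i ∈ frac R.x, (∑ ω ∈ R.Ω, R.w ω i ^ 2) * (1 / 4)
        = (1 / 4) * ∑ ω ∈ R.Ω, ∑ i ∈ frac R.x, R.w ω i ^ 2 := by
      rw [← sum_mul, sum_comm, mul_comm]
    have h6 : ∑ ω ∈ R.Ω, (∑ i, z i * R.w ω i) ^ 2
        ≤ 64 * ∑ ω ∈ R.Ω, ∑ i ∈ frac R.x, R.w ω i ^ 2 := by
      rw [mul_sum]
      apply sum_le_sum
      intro ω _
      rw [hsupp]
      refine (Finset.sum_mul_sq_le_sq_mul_sq F z (R.w ω)).trans ?_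
      apply mul_le_mul hz2 _ (sum_nonneg fun _ _ => sq_nonneg _) (by norm_num)
      exact sum_le_sum_of_subset_of_nonneg hFsub fun _ _ _ => sq_nonneg _
    have h7 : ∑ ω ∈ R.Ω, (∑ i, (ξ i - R.x i) * R.w ω i) ^ 2
        ≤ 2 * ∑ ω ∈ R.Ω, (∑ i, (x' i - R.x i) * R.w ω i) ^ 2
          + 2 * ∑ ω ∈ R.Ω, (∑ i, z i * R.w ω i) ^ 2 := by
      rw [mul_sum, mul_sum, ← sum_add_distrib]
      apply sum_le_sum
      intro ω _
      rw [hsum]
      nlinarith [sq_nonneg (∑ i, (x' i - R.x i) * R.w ω i - ∑ i, z i * R.w ω i)]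
    have h8 : 0 ≤ ∑ ω ∈ R.Ω, ∑ i ∈ frac R.x, R.w ω i ^ 2 :=
      sum_nonneg fun _ _ => sum_nonneg fun _ _ => sq_nonneg _
    rw [h5] at h4
    linarith
  · -- tests
    intro t ht
    have h1 : ∑ p, R.θ t p * (g p + gl p)
        = ∑ p ∈ R.Hc, R.θ t p * g p + ∑ p ∈ R.Hc, R.θ t p * gl p := by
      rw [← sum_add_distrib]
      symm
      have h2 : ∑ p ∈ R.Hc, (R.θ t p * g p + R.θ t p * gl p)
          = ∑ p, (R.θ t p * g p + R.θ t p * gl p) := by
        apply sum_subset (subset_univ _)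
        intro p _ hp
        rw [I.sup p hp]
        simp [gl, hp]
      rw [h2]
      exact sum_congr rfl fun p _ => by ring
    have h2 : |∑ p ∈ R.Hc, R.θ t p * g p| ≤ 1 / 128 := by
      have h3 : ∑ p ∈ R.Hc, R.θ t p * g p
          = ∑ n ∈ R.Hc.image R.s, ∑ p ∈ R.Hc with R.s p = n, R.θ t p * g p :=
        (sum_fiberwise_of_maps_to (fun p hp => mem_image_of_mem R.s hp) _).symm
      rw [h3]
      refine (abs_sum_le_sum_abs _ _).trans ?_
      have h4 : ∀ n ∈ R.Hc.image R.s, |∑ p ∈ R.Hc with R.s p = n, R.θ t p * g p|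
          ≤ (10 / 32000) * (24 / 25) ^ n := by
        intro n _
        refine (I.tst t ht n).trans ?_
        unfold β
        have h5 : ((9 : ℝ) / 10) ^ (6 - R.L n) ≤ 1 := pow_le_one₀ (by norm_num) (by norm_num)
        have h6 : (0 : ℝ) < (24 / 25) ^ n := by positivity
        nlinarith
      refine (sum_le_sum h4).trans ?_
      rw [← mul_sum]
      have h5 : ∑ n ∈ R.Hc.image R.s, (24 / 25 : ℝ) ^ n ≤ 25 := by
        have h6 : (24 / 25 : ℝ) < 1 := by norm_num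
        have h7 := (summable_geometric_of_lt_one (by norm_num : (0 : ℝ) ≤ 24 / 25)
          h6).sum_le_tsum (R.Hc.image R.s) (fun n _ => by positivity)
        rw [tsum_geometric_of_lt_one (by norm_num) h6] at h7
        refine h7.trans (le_of_eq (by norm_num))
      linarith
    have h3 : |∑ p ∈ R.Hc, R.θ t p * gl p| ≤ 1 / 128 := by
      refine (abs_sum_mul_le_nrm _ _ _).trans ?_
      have h4 : nrm R.Hc (R.θ t) ≤ 1 / 10 ^ 14 := by
        apply nrm_le _ _ _ (by positivity)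
        refine (hθ2 t ht).trans (le_of_eq (by norm_num))
      have h5 : nrm R.Hc gl ≤ 100 := by
        apply nrm_le _ _ _ (by positivity)
        linarith
      calc nrm R.Hc (R.θ t) * nrm R.Hc gl ≤ (1 / 10 ^ 14) * 100 :=
            mul_le_mul h4 h5 (nrm_nonneg _ _) (by positivity)
        _ ≤ 1 / 128 := by norm_num
    rw [h1]
    refine (abs_add_le _ _).trans ?_
    linarith
  · -- M
    intro q hq
    have h1 : nrm (R.Ms q) (fun μ => ∑ p, R.M q μ p * g p) ≤ 32 * Real.sqrt 2 ^ (R.c q) := by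
      have h0 : (0 : ℝ) < Real.sqrt 2 ^ (R.c q) := by positivity
      rcases Nat.le_total (R.c q) 6 with h | h
      · have h2 := I.mA q hq h
        have h3 : 0 ≤ ∑ j ∈ range (2 ^ (6 - R.c q) / 2), R.lam q j :=
          sum_nonneg fun _ _ => R.lam_nonneg _ _
        have h4 : (0 : ℝ) < 2 ^ (R.c q) := by positivity
        apply nrm_le _ _ _ (by positivity)
        rw [mul_pow, sqrt_two_pow_sq]
        have h5 : 0 ≤ 128 * 2 ^ (R.c q) * ∑ j ∈ range (2 ^ (6 - R.c q) / 2), R.lam q j := by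
          positivity
        nlinarith
      · have h2 := I.mB q hq h
        have h3 : (0 : ℝ) < Real.sqrt 2 ^ 6 := by positivity
        linarith
    have h2 : nrm (R.Ms q) (fun μ => ∑ p, R.M q μ p * gl p) ≤ 91 := by
      apply nrm_le _ _ _ (by norm_num)
      have h3 : ∑ μ ∈ R.Ms q, (∑ p, R.M q μ p * gl p) ^ 2
          ≤ (∑ μ ∈ R.Ms q, ∑ p ∈ R.Hc, R.M q μ p ^ 2) * ∑ p ∈ R.Hc, gl p ^ 2 := by
        refine le_trans (le_of_eq ?_) (rows_sq_le (R.Ms q) R.Hc (R.M q) gl)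
        exact sum_congr rfl fun μ _ => by rw [hglsum]
      have h4 : ∑ μ ∈ R.Ms q, ∑ p ∈ R.Hc, R.M q μ p ^ 2 ≤ 1 := by
        refine le_trans ?_ (R.hM q hq)
        apply sum_le_sum
        intro μ _
        exact sum_le_sum_of_subset_of_nonneg (subset_univ _) fun _ _ _ => sq_nonneg _
      have h5 : 0 ≤ ∑ p ∈ R.Hc, gl p ^ 2 := sum_nonneg fun _ _ => sq_nonneg _
      have h6 : 0 ≤ ∑ μ ∈ R.Ms q, ∑ p ∈ R.Hc, R.M q μ p ^ 2 :=
        sum_nonneg fun _ _ => sum_nonneg fun _ _ => sq_nonneg _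
      nlinarith
    have h3 : nrm (R.Ms q) (fun μ => ∑ p, R.M q μ p * (g p + gl p))
        ≤ 123 * Real.sqrt 2 ^ (R.c q) := by
      have h4 : nrm (R.Ms q) (fun μ => ∑ p, R.M q μ p * (g p + gl p))
          ≤ nrm (R.Ms q) (fun μ => ∑ p, R.M q μ p * g p)
            + nrm (R.Ms q) (fun μ => ∑ p, R.M q μ p * gl p) := by
        refine le_trans (le_of_eq ?_) (nrm_add_le _ _ _)
        apply nrm_congr
        intro μ _
        rw [← sum_add_distrib]
        exact sum_congr rfl fun p _ => by ring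
      have h5 : (1 : ℝ) ≤ Real.sqrt 2 ^ (R.c q) :=
        one_le_pow₀ (by rw [Real.one_le_sqrt]; norm_num)
      linarith
    rw [← nrm_sq]
    have h4 : (0 : ℝ) < Real.sqrt 2 ^ (R.c q) := by positivity
    calc nrm (R.Ms q) (fun μ => ∑ p, R.M q μ p * (g p + gl p)) ^ 2
        ≤ (123 * Real.sqrt 2 ^ (R.c q)) ^ 2 := pow_le_pow_left₀ (nrm_nonneg _ _) h3 2
      _ = 15129 * 2 ^ (R.c q) := by rw [mul_pow, sqrt_two_pow_sq]; norm_num
      _ ≤ 20000 * 2 ^ (R.c q) := by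
        have : (0 : ℝ) < 2 ^ (R.c q) := by positivity
        linarith
  · -- residual
    intro n
    have h1 : ∑ p ∈ R.Hc with R.s p = n, ((∑ i, (ξ i - R.x i) * R.u i p) - (g p + gl p)) ^ 2
        = ∑ p ∈ R.Hc with R.s p = n, ((∑ i, (x' i - R.x i) * R.u i p) - g p) ^ 2 := by
      apply sum_congr rfl
      intro p hp
      have hp2 := mem_filter.mp hp
      rw [hsum]
      have : gl p = ∑ i, z i * R.u i p := by simp [gl, hp2.1, e]
      rw [this]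
      ring
    rw [h1]
    rcases Nat.lt_or_ge 6 (R.L n) with h2 | h2
    · have h3 := I.rB n h2.le
      have h4 : nrm (R.Hc.filter (fun p => R.s p = n))
          (fun p => (∑ i, (x' i - R.x i) * R.u i p) - g p) ≤ 20 * Real.sqrt 2 ^ (R.L n) := by
        have : (0 : ℝ) < Real.sqrt 2 ^ 6 := by positivity
        linarith
      have h5 := pow_le_pow_left₀ (nrm_nonneg _ _) h4 2
      rw [nrm_sq] at h5
      refine h5.trans ?_
      calc (20 * Real.sqrt 2 ^ (R.L n)) ^ 2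
        _ = 400 * 2 ^ (R.L n) := by rw [mul_pow, sqrt_two_pow_sq]; norm_num
        _ ≤ 400 * (2 * (R.m n * (400 / 441 : ℝ) ^ n)) :=
          mul_le_mul_of_nonneg_left (ln_lt (R.m n) n h2) (by norm_num)
        _ ≤ _ := by
          have : (0 : ℝ) ≤ (R.m n : ℝ) * (400 / 441) ^ n := by positivity
          nlinarith
    · have h3 : ∑ p ∈ R.Hc with R.s p = n, ((∑ i, (x' i - R.x i) * R.u i p) - g p) ^ 2 = 0 := by
        apply sum_eq_zero
        intro p hp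
        have hp2 := mem_filter.mp hp
        rw [I.rA n h2 p hp2.1 hp2.2]
        ring
      rw [h3]
      positivity

end RD

/-- MODULE ROUND. The spread rounding theorem. -/
theorem rounding_spread : ∃ C ε : ℝ, 1 ≤ C ∧ 0 < ε ∧
    ∀ (ι D Tt Wt Qt Mt : Type) [Fintype ι] [DecidableEq ι] [Fintype D] [DecidableEq D]
      (x : ι → ℝ) (_ : ∀ i, 0 ≤ x i ∧ x i ≤ 1)
      (u : ι → D → ℝ) (_ : ∀ i, ∑ p, u i p ^ 2 ≤ 2)
      (Hc : Finset D) (s : D → ℕ)
      (Ts : Finset Tt) (θ : Tt → D → ℝ)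
      (_ : ∀ n : ℕ, ∑ t ∈ Ts, (∑ p ∈ Hc with s p = n, θ t p ^ 2) ^ 2
        ≤ ε * ((Hc.filter (fun p => s p = n)).card : ℝ) * (3 / 4) ^ n)
      (_ : ∀ t ∈ Ts, ∑ p ∈ Hc, θ t p ^ 2 ≤ ε)
      (Ω : Finset Wt) (w : Wt → ι → ℝ)
      (Qs : Finset Qt) (c : Qt → ℕ) (_ : ∑ q ∈ Qs, (1 / 2 : ℝ) ^ (c q) ≤ 1 / 64)
      (Ms : Qt → Finset Mt) (M : Qt → Mt → D → ℝ)
      (_ : ∀ q ∈ Qs, ∑ μ ∈ Ms q, ∑ p ∈ Hc, M q μ p ^ 2 ≤ 1),
    ∃ (ξ : ι → ℝ) (g : D → ℝ), (∀ i, ξ i = 0 ∨ ξ i = 1) ∧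
      (∀ i, (x i = 0 ∨ x i = 1) → ξ i = x i) ∧ (∀ p, p ∉ Hc → g p = 0) ∧
      (∑ ω ∈ Ω, (∑ i, (ξ i - x i) * w ω i) ^ 2 ≤ C * ∑ ω ∈ Ω, ∑ i ∈ frac x, w ω i ^ 2) ∧
      (∀ t ∈ Ts, |∑ p, θ t p * g p| ≤ 1 / 64) ∧
      (∀ q ∈ Qs, ∑ μ ∈ Ms q, (∑ p, M q μ p * g p) ^ 2 ≤ C * 2 ^ (c q)) ∧
      (∀ n : ℕ, ∑ p ∈ Hc with s p = n, ((∑ i, (ξ i - x i) * u i p) - g p) ^ 2
        ≤ C * ((Hc.filter (fun p => s p = n)).card : ℝ) * (400 / 441) ^ n) := by
  classical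
  refine ⟨20000, 1 / 10 ^ 28, by norm_num, by positivity, ?_⟩
  intro ι D Tt Wt Qt Mt _ _ _ _ x hx u hu Hc s Ts θ hθ hθ2 Ω w Qs c hc Ms M hM
  let M' : Qt → Mt → D → ℝ := fun q μ p => if p ∈ Hc then M q μ p else 0
  have hM' : ∀ q μ (f : D → ℝ), ∑ p, M' q μ p * f p = ∑ p ∈ Hc, M q μ p * f p := by
    intro q μ f
    rw [← sum_subset (subset_univ Hc)]
    · exact sum_congr rfl fun p hp => by simp [M', hp]
    · intro p _ hp
      simp [M', hp]
  have hM'2 : ∀ q μ, ∑ p, M' q μ p ^ 2 = ∑ p ∈ Hc, M q μ p ^ 2 := by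
    intro q μ
    rw [← sum_subset (subset_univ Hc)]
    · exact sum_congr rfl fun p hp => by simp [M', hp]
    · intro p _ hp
      simp [M', hp]
  have hE := fun q => eig_exclusion (Ms q) (M' q)
  choose b lam hanti hnn hsum hex using hE
  let R : RD ι D Tt Wt Qt Mt :=
    { x := x, hx := hx, u := u, hu := hu, Hc := Hc, s := s, Ts := Ts, θ := θ, hθ := hθ, Ω := Ω,
      w := w, Qs := Qs, c := c, hc := hc, Ms := Ms, M := M'
      hMH := fun q μ p hp => by simp [M', hp]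
      hM := fun q hq => by
        refine le_trans (le_of_eq ?_) (hM q hq)
        exact sum_congr rfl fun μ _ => hM'2 q μ
      b := b, lam := lam, lam_anti := hanti, lam_nonneg := hnn
      lam_sum := fun q hq K => by
        refine (hsum q K).trans (le_trans (le_of_eq ?_) (hM q hq))
        exact sum_congr rfl fun μ _ => hM'2 q μ
      lam_ex := hex }
  obtain ⟨ξ, g, h1, h2, h3, h4, h5, h6, h7⟩ := R.final hθ2
  refine ⟨ξ, g, h1, h2, h3, h4, h5, ?_, h7⟩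
  intro q hq
  refine le_trans (le_of_eq ?_) (h6 q hq)
  apply sum_congr rfl
  intro μ _
  have h8 : ∑ p, M q μ p * g p = ∑ p, R.M q μ p * g p := by
    apply sum_congr rfl
    intro p _
    by_cases hp : p ∈ Hc
    · simp [R, M', hp]
    · rw [h3 p hp, mul_zero, mul_zero]
  rw [h8]

end Vale.Agent.Steinitz2
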