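import Vale.Agent.Lib.Steinitz2.Round

/-!
# P262 log-free: families of functionals and operators with their own scale
-/

namespace Vale.Agent.Steinitz2

open Finset

theorem frac_off {ι : Type*} [Fintype ι] {x : ι → ℝ} (hx : ∀ i, 0 ≤ x i ∧ x i ≤ 1) (i : ι)
    (hi : i ∉ frac x) : x i = 0 ∨ x i = 1 := by
  unfold frac at hi
  simp only [Finset.mem_filter, Finset.mem_univ, true_and, not_and, not_lt] at hi
  rcases (hx i).1.eq_or_lt with h | h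
  · exact Or.inl h.symm
  · exact Or.inr (le_antisymm (hx i).2 (hi h))

theorem sqrt_scale {α : Type*} (S : Finset α) (r : ℝ) (hr : 0 ≤ r) (a f : α → ℝ) :
    (∑ i ∈ S, a i * (√r * f i)) ^ 2 = r * (∑ i ∈ S, a i * f i) ^ 2 := by
  have : ∑ i ∈ S, a i * (√r * f i) = √r * ∑ i ∈ S, a i * f i := by
    rw [Finset.mul_sum]
    apply Finset.sum_congr rfl
    intro i _
    ring
  rw [this, mul_pow, Real.sq_sqrt hr]

/-- `rounding_spread` with families of functionals and operators which are not normalised. -/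
theorem rounding_fam : ∃ C ε : ℝ, 1 ≤ C ∧ 0 < ε ∧
    ∀ (ι D Tt Kt Wt Qt Mt : Type) [Fintype ι] [DecidableEq ι] [Fintype D] [DecidableEq D]
      (x : ι → ℝ) (_ : ∀ i, 0 ≤ x i ∧ x i ≤ 1)
      (u : ι → D → ℝ) (_ : ∀ i, ∑ p, u i p ^ 2 ≤ 2)
      (Hc : Finset D) (s : D → ℕ)
      (Ts : Finset Tt) (θ : Tt → D → ℝ)
      (_ : ∀ n : ℕ, ∑ t ∈ Ts, (∑ p ∈ Hc with s p = n, θ t p ^ 2) ^ 2
        ≤ ε * ((Hc.filter (fun p => s p = n)).card : ℝ) * (3 / 4) ^ n)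
      (_ : ∀ t ∈ Ts, ∑ p ∈ Hc, θ t p ^ 2 ≤ ε)
      (Ks : Finset Kt) (ρ : Kt → ℝ) (_ : ∀ k ∈ Ks, 0 < ρ k) (_ : ∑ k ∈ Ks, ρ k ≤ 90)
      (Ω : Kt → Finset Wt) (w : Kt → Wt → ι → ℝ) (W : Kt → ℝ)
      (_ : ∀ k ∈ Ks, ∑ ω ∈ Ω k, ∑ i ∈ frac x, w k ω i ^ 2 ≤ W k)
      (Qs : Finset Qt) (c : Qt → ℕ) (_ : ∑ q ∈ Qs, (1 / 2 : ℝ) ^ (c q) ≤ 1 / 64)
      (Ms : Qt → Finset Mt) (M : Qt → Mt → D → ℝ) (A : Qt → ℝ)
      (_ : ∀ q ∈ Qs, ∑ μ ∈ Ms q, ∑ p ∈ Hc, M q μ p ^ 2 ≤ A q),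
    ∃ (ξ : ι → ℝ) (g : D → ℝ), (∀ i, ξ i = 0 ∨ ξ i = 1) ∧
      (∀ i, (x i = 0 ∨ x i = 1) → ξ i = x i) ∧ (∀ p, p ∉ Hc → g p = 0) ∧
      (∀ k ∈ Ks, ∑ ω ∈ Ω k, (∑ i, (ξ i - x i) * w k ω i) ^ 2 ≤ 90 * C * W k / ρ k) ∧
      (∀ t ∈ Ts, |∑ p, θ t p * g p| ≤ 1 / 64) ∧
      (∀ q ∈ Qs, ∑ μ ∈ Ms q, (∑ p, M q μ p * g p) ^ 2 ≤ C * 2 ^ (c q) * A q) ∧
      (∀ n : ℕ, ∑ p ∈ Hc with s p = n, ((∑ i, (ξ i - x i) * u i p) - g p) ^ 2
        ≤ C * ((Hc.filter (fun p => s p = n)).card : ℝ) * (400 / 441) ^ n) := by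
  obtain ⟨C, ε, hC, hε, H⟩ := rounding_spread
  refine ⟨C, ε, hC, hε, ?_⟩
  intro ι D Tt Kt Wt Qt Mt _ _ _ _ x hx u hu Hc s Ts θ hθ1 hθ2 Ks ρ hρ hρs Ω w W hW Qs c hc Ms M
    A hA
  have hC0 : 0 < C := by linarith
  have hW0 : ∀ k ∈ Ks, 0 ≤ W k := fun k hk =>
    (Finset.sum_nonneg fun ω _ => Finset.sum_nonneg fun i _ => sq_nonneg _).trans (hW k hk)
  have hA0 : ∀ q ∈ Qs, 0 ≤ A q := fun q hq =>
    (Finset.sum_nonneg fun μ _ => Finset.sum_nonneg fun p _ => sq_nonneg _).trans (hA q hq)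
  obtain ⟨ξ, g, h1, h2, h3, h4, h5, h6, h7⟩ := H ι D Tt (Σ _ : Kt, Wt) Qt Mt x hx u hu Hc s Ts θ
    hθ1 hθ2 (Ks.sigma Ω) (fun a i => √(ρ a.1 / W a.1) * w a.1 a.2 i) Qs c hc Ms
    (fun q μ p => √(1 / A q) * M q μ p) (by
      intro q hq
      simp only [mul_pow, ← Finset.mul_sum]
      rw [Real.sq_sqrt (div_nonneg zero_le_one (hA0 q hq))]
      calc 1 / A q * ∑ μ ∈ Ms q, ∑ p ∈ Hc, M q μ p ^ 2 ≤ 1 / A q * A q :=
            mul_le_mul_of_nonneg_left (hA q hq) (div_nonneg zero_le_one (hA0 q hq))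
        _ ≤ 1 := by
            rw [one_div, inv_mul_eq_div]
            exact div_self_le_one _)
  refine ⟨ξ, g, h1, h2, h3, ?_, h5, ?_, h7⟩
  · intro k hk
    have hs0 : ∀ k ∈ Ks, (√(ρ k / W k)) ^ 2 = ρ k / W k := fun k hk =>
      Real.sq_sqrt (div_nonneg (hρ k hk).le (hW0 k hk))
    have e1 : ∑ a ∈ Ks.sigma Ω, (∑ i, (ξ i - x i) * (√(ρ a.1 / W a.1) * w a.1 a.2 i)) ^ 2 =
        ∑ k ∈ Ks, ρ k / W k * ∑ ω ∈ Ω k, (∑ i, (ξ i - x i) * w k ω i) ^ 2 := by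
      rw [Finset.sum_sigma]
      apply Finset.sum_congr rfl
      intro k hk
      rw [Finset.mul_sum]
      apply Finset.sum_congr rfl
      intro ω _
      exact sqrt_scale _ _ (div_nonneg (hρ k hk).le (hW0 k hk)) _ _
    have e2 : ∑ a ∈ Ks.sigma Ω, ∑ i ∈ frac x, (√(ρ a.1 / W a.1) * w a.1 a.2 i) ^ 2 =
        ∑ k ∈ Ks, ρ k / W k * ∑ ω ∈ Ω k, ∑ i ∈ frac x, w k ω i ^ 2 := by
      rw [Finset.sum_sigma]
      apply Finset.sum_congr rfl
      intro k hk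
      rw [Finset.mul_sum]
      apply Finset.sum_congr rfl
      intro ω _
      rw [Finset.mul_sum]
      apply Finset.sum_congr rfl
      intro i _
      rw [mul_pow, hs0 k hk]
    have e3 : ∑ k ∈ Ks, ρ k / W k * ∑ ω ∈ Ω k, ∑ i ∈ frac x, w k ω i ^ 2 ≤ 90 := by
      refine le_trans (Finset.sum_le_sum fun k hk => ?_) hρs
      calc ρ k / W k * ∑ ω ∈ Ω k, ∑ i ∈ frac x, w k ω i ^ 2 ≤ ρ k / W k * W k :=
            mul_le_mul_of_nonneg_left (hW k hk) (div_nonneg (hρ k hk).le (hW0 k hk))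
        _ = ρ k * (W k / W k) := by ring
        _ ≤ ρ k * 1 := mul_le_mul_of_nonneg_left (div_self_le_one _) (hρ k hk).le
        _ = ρ k := mul_one _
    have e4 : ρ k / W k * ∑ ω ∈ Ω k, (∑ i, (ξ i - x i) * w k ω i) ^ 2 ≤ C * 90 := by
      calc ρ k / W k * ∑ ω ∈ Ω k, (∑ i, (ξ i - x i) * w k ω i) ^ 2 ≤
            ∑ k ∈ Ks, ρ k / W k * ∑ ω ∈ Ω k, (∑ i, (ξ i - x i) * w k ω i) ^ 2 :=
              Finset.single_le_sum (f := fun k => ρ k / W k *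
                ∑ ω ∈ Ω k, (∑ i, (ξ i - x i) * w k ω i) ^ 2)
                (fun k hk => mul_nonneg (div_nonneg (hρ k hk).le (hW0 k hk))
                  (Finset.sum_nonneg fun ω _ => sq_nonneg _)) hk
        _ ≤ C * ∑ a ∈ Ks.sigma Ω, ∑ i ∈ frac x, (√(ρ a.1 / W a.1) * w a.1 a.2 i) ^ 2 := by
            rw [← e1]; exact h4
        _ ≤ C * 90 := by
            rw [e2]
            exact mul_le_mul_of_nonneg_left e3 hC0.le
    rcases (hW0 k hk).eq_or_lt with h0 | h0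
    · have hw : ∀ ω ∈ Ω k, ∀ i ∈ frac x, w k ω i = 0 := by
        have hz : ∑ ω ∈ Ω k, ∑ i ∈ frac x, w k ω i ^ 2 = 0 :=
          le_antisymm (by rw [h0]; exact hW k hk)
            (Finset.sum_nonneg fun ω _ => Finset.sum_nonneg fun i _ => sq_nonneg _)
        intro ω hω i hi
        have h8 := (Finset.sum_eq_zero_iff_of_nonneg
          (fun ω _ => Finset.sum_nonneg fun i _ => sq_nonneg (w k ω i))).1 hz ω hω
        have h9 := (Finset.sum_eq_zero_iff_of_nonneg (fun i _ => sq_nonneg (w k ω i))).1 h8 i hi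
        exact (pow_eq_zero_iff two_ne_zero).1 h9
      rw [← h0]
      have : ∑ ω ∈ Ω k, (∑ i, (ξ i - x i) * w k ω i) ^ 2 = 0 := by
        apply Finset.sum_eq_zero
        intro ω hω
        have : ∑ i, (ξ i - x i) * w k ω i = 0 := by
          apply Finset.sum_eq_zero
          intro i _
          by_cases hi : i ∈ frac x
          · rw [hw ω hω i hi, mul_zero]
          · rw [h2 i (frac_off hx i hi), sub_self, zero_mul]
        rw [this]
        ring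
      rw [this]
      simp
    · rw [le_div_iff₀ (hρ k hk)]
      rw [div_mul_eq_mul_div, div_le_iff₀ h0] at e4
      linarith
  · intro q hq
    have h8 := h6 q hq
    have e1 : ∑ μ ∈ Ms q, (∑ p, √(1 / A q) * M q μ p * g p) ^ 2 =
        1 / A q * ∑ μ ∈ Ms q, (∑ p, M q μ p * g p) ^ 2 := by
      rw [Finset.mul_sum]
      apply Finset.sum_congr rfl
      intro μ _
      have e2 : ∑ p, √(1 / A q) * M q μ p * g p = ∑ p, g p * (√(1 / A q) * M q μ p) :=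
        Finset.sum_congr rfl fun p _ => by ring
      have e3 : ∑ p, M q μ p * g p = ∑ p, g p * M q μ p :=
        Finset.sum_congr rfl fun p _ => by ring
      rw [e2, e3]
      exact sqrt_scale _ _ (div_nonneg zero_le_one (hA0 q hq)) _ _
    rw [e1] at h8
    rcases (hA0 q hq).eq_or_lt with h0 | h0
    · have hM : ∀ μ ∈ Ms q, ∀ p ∈ Hc, M q μ p = 0 := by
        have hz : ∑ μ ∈ Ms q, ∑ p ∈ Hc, M q μ p ^ 2 = 0 :=
          le_antisymm (by rw [h0]; exact hA q hq)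
            (Finset.sum_nonneg fun μ _ => Finset.sum_nonneg fun p _ => sq_nonneg _)
        intro μ hμ p hp
        have h8 := (Finset.sum_eq_zero_iff_of_nonneg
          (fun μ _ => Finset.sum_nonneg fun p _ => sq_nonneg (M q μ p))).1 hz μ hμ
        have h9 := (Finset.sum_eq_zero_iff_of_nonneg (fun p _ => sq_nonneg (M q μ p))).1 h8 p hp
        exact (pow_eq_zero_iff two_ne_zero).1 h9
      have : ∑ μ ∈ Ms q, (∑ p, M q μ p * g p) ^ 2 = 0 := by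
        apply Finset.sum_eq_zero
        intro μ hμ
        have : ∑ p, M q μ p * g p = 0 := by
          apply Finset.sum_eq_zero
          intro p _
          by_cases hp : p ∈ Hc
          · rw [hM μ hμ p hp, zero_mul]
          · rw [h3 p hp, mul_zero]
        rw [this]
        ring
      rw [this, ← h0, mul_zero]
    · rw [one_div, inv_mul_eq_div, div_le_iff₀ h0] at h8
      exact h8

end Vale.Agent.Steinitz2
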