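import Vale.Agent.Lib.Steinitz2.Cert
import Vale.Agent.Lib.Steinitz2.Defs

/-!
# P262 log-free: the certificate of one set, with the bounds used by `three_way`
-/

namespace Vale.Agent.Steinitz2

open Finset

theorem cn_nonneg {D : Type*} (Hc : Finset D) (s : D → ℕ) (n : ℕ) : 0 ≤ cn Hc s n :=
  Nat.cast_nonneg _

theorem pow_half_le (n : ℕ) : (1 / 2 : ℝ) ^ (n / 6) ≤ 2 * (9 / 10) ^ n := by
  obtain ⟨a, b, hb, rfl⟩ : ∃ a b : ℕ, b < 6 ∧ n = 6 * a + b :=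
    ⟨n / 6, n % 6, Nat.mod_lt _ (by norm_num), (Nat.div_add_mod n 6).symm⟩
  rw [show (6 * a + b) / 6 = a by omega, pow_add, pow_mul]
  have h1 : (1 / 2 : ℝ) ^ a ≤ ((9 / 10) ^ 6) ^ a :=
    pow_le_pow_left₀ (by norm_num) (by norm_num) a
  have h2 : (1 / 2 : ℝ) ≤ (9 / 10) ^ b := by
    calc (1 / 2 : ℝ) ≤ (9 / 10) ^ 5 := by norm_num
      _ ≤ (9 / 10) ^ b := pow_le_pow_of_le_one (by norm_num) (by norm_num) (by omega)
  have h3 : (0 : ℝ) ≤ ((9 / 10) ^ 6) ^ a := by positivity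
  nlinarith

theorem two_pow_le (n : ℕ) : (2 : ℝ) ^ (n / 6) ≤ (9 / 8) ^ n := by
  obtain ⟨a, b, hb, rfl⟩ : ∃ a b : ℕ, b < 6 ∧ n = 6 * a + b :=
    ⟨n / 6, n % 6, Nat.mod_lt _ (by norm_num), (Nat.div_add_mod n 6).symm⟩
  rw [show (6 * a + b) / 6 = a by omega, pow_add, pow_mul]
  have h1 : (2 : ℝ) ^ a ≤ ((9 / 8) ^ 6) ^ a := pow_le_pow_left₀ (by norm_num) (by norm_num) a
  have h2 : (1 : ℝ) ≤ (9 / 8) ^ b := one_le_pow₀ (by norm_num)
  have h3 : (0 : ℝ) ≤ ((9 / 8) ^ 6) ^ a := by positivity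
  nlinarith

theorem geom_fin (N : Finset ℕ) {r : ℝ} (h0 : 0 ≤ r) (h1 : r < 1) :
    ∑ n ∈ N, r ^ n ≤ 1 / (1 - r) := by
  have h := (summable_geometric_of_lt_one h0 h1).sum_le_tsum N (fun n _ => pow_nonneg h0 n)
  rwa [tsum_geometric_of_lt_one h0 h1, ← one_div] at h

theorem geom_fiber {Qt : Type*} (Qs : Finset Qt) (sQ : Qt → ℕ)
    (h4 : ∀ n : ℕ, (Qs.filter (fun q => sQ q = n)).card ≤ 4) {r : ℝ} (h0 : 0 ≤ r) (h1 : r < 1) :
    ∑ q ∈ Qs, r ^ (sQ q) ≤ 4 * (1 / (1 - r)) := by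
  classical
  rw [Finset.sum_comp (fun n => r ^ n) sQ]
  calc ∑ b ∈ Qs.image sQ, (Qs.filter (fun q => sQ q = b)).card • r ^ b ≤
        ∑ b ∈ Qs.image sQ, 4 * r ^ b := by
        apply Finset.sum_le_sum
        intro b _
        rw [nsmul_eq_mul]
        apply mul_le_mul_of_nonneg_right _ (pow_nonneg h0 b)
        exact_mod_cast h4 b
    _ = 4 * ∑ b ∈ Qs.image sQ, r ^ b := by rw [Finset.mul_sum]
    _ ≤ 4 * (1 / (1 - r)) := mul_le_mul_of_nonneg_left (geom_fin _ h0 h1) (by norm_num)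

/-- the certificate of one even set -/
theorem set_cert {ι : Type} [DecidableEq ι] {d : ℕ} (v : ι → Fin d → ℝ)
    (hv : ∀ i, ∑ j, v i j ^ 2 ≤ 1) (F : Finset ι) (Hc : Finset (Fin d)) (s : Fin d → ℕ)
    (K : ℝ) (hK : 0 ≤ K) (t0 : ℕ) (hF : Even v Hc s K t0 F) (T : ℝ) (hT : T = 2 ^ t0) :
    ∃ (G : Fin d → Fin d → ℝ) (θ : ι → Fin d → ℝ),
      (∀ g : Fin d → ℝ, (∀ j, j ∉ Hc → g j = 0) → ∀ j ∈ Hc,
        ∑ i ∈ F, (∑ l, θ i l * g l) * v i j = g j - √T * ∑ l, G j l * g l) ∧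
      (∀ i, ∑ l, θ i l ^ 2 ≤ 1 / T) ∧
      (∀ n : ℕ, ∑ j ∈ Hc with s j = n, ∑ l, G j l ^ 2
        ≤ cn Hc s n * (4 * (1 + √K) / T) ^ 2 * (9 / 16) ^ n) ∧
      (∀ n : ℕ, ∑ j ∈ Hc with s j = n, ∑ l, ∑ p, (∑ i ∈ F, (v i j * v i l) * θ i p) ^ 2
        ≤ (1 / √T) * (8 * T * cn Hc s n * 2 ^ n)) ∧
      (∀ (Λt : Type) (Λ : Finset Λt) (f : Λt → ι → ℝ),
        ∑ r ∈ Λ, ∑ l, (∑ i ∈ F, f r i * θ i l) ^ 2 ≤ (1 / √T) * ∑ r ∈ Λ, ∑ i ∈ F, f r i ^ 2) ∧
      (∀ n : ℕ, ∑ i ∈ F, ∑ j ∈ Hc with s j = n, θ i j ^ 2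
        ≤ cn Hc s n * (4 * (1 + √K) / T) * (3 / 4) ^ n) := by
  have hT0 : 0 < T := by rw [hT]; positivity
  have hκ : 0 < √T := Real.sqrt_pos.2 hT0
  obtain ⟨G, c1, c2, c3, c4, c5, c6, c7⟩ := cert v hv F Hc (√T) hκ
  obtain ⟨⟨y, hy1, hy2⟩, htr⟩ := hF
  have hG : ∀ n : ℕ, ∑ j ∈ Hc with s j = n, ∑ l, G j l ^ 2 ≤
      (√(cn Hc s n) * (4 * (1 + √K) / T) * (3 / 4) ^ n) ^ 2 := by
    intro n
    obtain ⟨m, hm⟩ : ∃ m : ℝ, m = cn Hc s n := ⟨_, rfl⟩
    have hm0 : 0 ≤ m := by rw [hm]; exact cn_nonneg _ _ _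
    have h1 := c6 (Hc.filter (fun j => s j = n)) y (T * 2 ^ n / 4) (√(K * T * m) * (3 / 2) ^ n)
      (Finset.filter_subset _ _) (by positivity) (by
        intro j hj
        have := hy1 j (Finset.mem_filter.1 hj).1
        rw [(Finset.mem_filter.1 hj).2, ← hT] at this
        exact this) (by positivity) (by
        rw [mul_pow, Real.sq_sqrt (by positivity), ← pow_mul, mul_comm n 2, pow_mul]
        have := hy2 n
        rw [← hT, ← hm] at this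
        norm_num at this ⊢
        exact this)
    have e1 : ((Hc.filter (fun j => s j = n)).card : ℝ) = m := by rw [hm]; rfl
    rw [e1] at h1
    rw [← hm]
    refine h1.trans (pow_le_pow_left₀ (by positivity) ?_ 2)
    rw [div_le_iff₀ (by positivity)]
    have e2 : √(K * T * m) * (3 / 2) ^ n / √T = √K * √m * (3 / 2) ^ n := by
      rw [Real.sqrt_mul (by positivity), Real.sqrt_mul hK]
      field_simp
    rw [e2]
    have e3 : √m * (4 * (1 + √K) / T) * (3 / 4) ^ n * (T * 2 ^ n / 4) =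
        √m * (1 + √K) * (3 / 2) ^ n := by
      have : ((3 : ℝ) / 2) ^ n = (3 / 4) ^ n * 2 ^ n := by
        rw [← mul_pow]; norm_num
      rw [this]
      field_simp
    rw [e3]
    have h3 : (1 : ℝ) ≤ (3 / 2) ^ n := one_le_pow₀ (by norm_num)
    have h4 : √m * 1 ≤ √m * (3 / 2) ^ n := mul_le_mul_of_nonneg_left h3 (Real.sqrt_nonneg _)
    nlinarith
  refine ⟨G, fun i l => ∑ p, G l p * v i p, c3, ?_, ?_, ?_, c5, ?_⟩
  · intro i
    have := c4 i
    rwa [Real.sq_sqrt hT0.le] at this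
  · intro n
    refine (hG n).trans (le_of_eq ?_)
    rw [mul_pow, mul_pow, Real.sq_sqrt (cn_nonneg _ _ _), ← pow_mul, mul_comm n 2, pow_mul]
    norm_num
  · intro n
    have h1 := c5 (Fin d × Fin d) ((Hc.filter (fun j => s j = n)) ×ˢ (univ : Finset (Fin d)))
      (fun r i => v i r.1 * v i r.2)
    rw [Finset.sum_product, Finset.sum_product] at h1
    refine h1.trans (mul_le_mul_of_nonneg_left ?_ (by positivity))
    calc ∑ j ∈ Hc with s j = n, ∑ l, ∑ i ∈ F, (v i j * v i l) ^ 2 =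
          ∑ i ∈ F, ∑ j ∈ Hc with s j = n, v i j ^ 2 * ∑ l, v i l ^ 2 := by
          rw [Finset.sum_comm (s := F)]
          apply Finset.sum_congr rfl
          intro j _
          rw [Finset.sum_comm]
          apply Finset.sum_congr rfl
          intro i _
          rw [Finset.mul_sum]
          apply Finset.sum_congr rfl
          intro l _
          rw [mul_pow]
      _ ≤ ∑ i ∈ F, ∑ j ∈ Hc with s j = n, v i j ^ 2 := by
          apply Finset.sum_le_sum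
          intro i _
          apply Finset.sum_le_sum
          intro j _
          calc v i j ^ 2 * ∑ l, v i l ^ 2 ≤ v i j ^ 2 * 1 :=
                mul_le_mul_of_nonneg_left (hv i) (sq_nonneg _)
            _ = v i j ^ 2 := mul_one _
      _ ≤ 8 * T * cn Hc s n * 2 ^ n := by
          have := htr n
          rw [← hT] at this
          exact this
  · intro n
    have h1 := c7 (Hc.filter (fun j => s j = n)) (Finset.filter_subset _ _)
    refine h1.trans ?_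
    have e1 : √(((Hc.filter (fun j => s j = n)).card : ℝ)) = √(cn Hc s n) := rfl
    rw [e1]
    have h2 : √(∑ j ∈ Hc with s j = n, ∑ l, G j l ^ 2) ≤
        √(cn Hc s n) * (4 * (1 + √K) / T) * (3 / 4) ^ n :=
      Real.sqrt_le_iff.2 ⟨by positivity, hG n⟩
    calc √(cn Hc s n) * √(∑ j ∈ Hc with s j = n, ∑ l, G j l ^ 2) ≤
          √(cn Hc s n) * (√(cn Hc s n) * (4 * (1 + √K) / T) * (3 / 4) ^ n) :=
          mul_le_mul_of_nonneg_left h2 (Real.sqrt_nonneg _)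
      _ = (√(cn Hc s n) * √(cn Hc s n)) * (4 * (1 + √K) / T) * (3 / 4) ^ n := by ring
      _ = _ := by rw [Real.mul_self_sqrt (cn_nonneg _ _ _)]

end Vale.Agent.Steinitz2
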