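import Vale.Agent.Lib.Steinitz2.Defs

/-!
# P262 log-free: module STAGE, averaging over an orthonormal basis
-/

namespace Vale.Agent.Steinitz2

open Finset

/-- extension by zero of a vector indexed by a finset -/
noncomputable def extz {ι : Type*} [DecidableEq ι] (J : Finset ι) (e : EuclideanSpace ℝ J) (i : ι) :
    ℝ := if h : i ∈ J then e ⟨i, h⟩ else 0

theorem extz_off {ι : Type*} [DecidableEq ι] (J : Finset ι) (e : EuclideanSpace ℝ J) (i : ι)
    (h : i ∉ J) : extz J e i = 0 := by simp [extz, h]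

theorem sum_mul_extz {ι : Type*} [Fintype ι] [DecidableEq ι] (J : Finset ι)
    (e : EuclideanSpace ℝ J) (g : ι → ℝ) : ∑ i, g i * extz J e i = ∑ j : J, g j * e j := by
  rw [← Finset.sum_subset (Finset.subset_univ J)
    (fun i _ hi => by rw [extz_off J e i hi, mul_zero]), ← Finset.sum_coe_sort J]
  apply Finset.sum_congr rfl
  intro j _
  simp [extz]

theorem sum_sq_extz {ι : Type*} [Fintype ι] [DecidableEq ι] (J : Finset ι)
    (e : EuclideanSpace ℝ J) : ∑ i, extz J e i ^ 2 = ‖e‖ ^ 2 := by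
  rw [EuclideanSpace.real_norm_sq_eq, ← Finset.sum_subset (Finset.subset_univ J)
    (fun i _ hi => by rw [extz_off J e i hi]; ring), ← Finset.sum_coe_sort J]
  apply Finset.sum_congr rfl
  intro j _
  simp [extz]

/-- Averaging over an orthonormal basis of the kernel of few linear forms. -/
theorem avg_unit {ι Tt K : Type*} [Fintype ι] [DecidableEq ι] [Fintype K] (J : Finset ι)
    (ℓ : K → ι → ℝ) (Ts : Finset Tt) (a : Tt → ι → ℝ) (c ρ : Tt → ℝ) (hc : ∀ t ∈ Ts, 0 ≤ c t)
    (hρ : ∀ t ∈ Ts, 0 ≤ ρ t)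
    (hK : Fintype.card K < J.card)
    (h : ∀ δ : ι → ℝ, (∀ i, i ∉ J → δ i = 0) → (∀ k, ∑ i, ℓ k i * δ i = 0) →
      ∀ t ∈ Ts, (∑ i, a t i * δ i) ^ 2 ≤ ρ t * ∑ i, δ i ^ 2) :
    ∃ δ : ι → ℝ, (∀ i, i ∉ J → δ i = 0) ∧ (∀ k, ∑ i, ℓ k i * δ i = 0) ∧ ∑ i, δ i ^ 2 = 1 ∧
      ((J.card : ℝ) - Fintype.card K) * ∑ t ∈ Ts, c t * (∑ i, a t i * δ i) ^ 2 ≤
        ∑ t ∈ Ts, c t * ρ t := by
  classical
  let Φ : EuclideanSpace ℝ J →ₗ[ℝ] (K → ℝ) :=
    { toFun := fun e k => ∑ j : J, ℓ k j * e j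
      map_add' := by
        intro e f
        ext k
        simp [mul_add, Finset.sum_add_distrib]
      map_smul' := by
        intro r e
        ext k
        simp only [PiLp.smul_apply, smul_eq_mul, RingHom.id_apply, Pi.smul_apply, Finset.mul_sum]
        apply Finset.sum_congr rfl
        intro j _
        ring }
  have hΦ : ∀ e k, Φ e k = ∑ j : J, ℓ k j * e j := fun e k => rfl
  obtain ⟨W, hW⟩ : ∃ W : Submodule ℝ (EuclideanSpace ℝ J), W = LinearMap.ker Φ := ⟨_, rfl⟩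
  have hdim : (J.card : ℝ) - Fintype.card K ≤ Module.finrank ℝ W := by
    have h1 := LinearMap.finrank_range_add_finrank_ker Φ
    have h2 : Module.finrank ℝ (LinearMap.range Φ) ≤ Fintype.card K := by
      have := Submodule.finrank_le (LinearMap.range Φ)
      rwa [Module.finrank_fintype_fun_eq_card] at this
    rw [finrank_euclideanSpace, Fintype.card_coe] at h1
    rw [hW]
    have h3 : J.card ≤ Fintype.card K + Module.finrank ℝ (LinearMap.ker Φ) := by omega
    have h4 : (J.card : ℝ) ≤ Fintype.card K + Module.finrank ℝ (LinearMap.ker Φ) := by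
      exact_mod_cast h3
    linarith
  obtain ⟨m, hm⟩ : ∃ m : ℕ, m = Module.finrank ℝ W := ⟨_, rfl⟩
  rw [← hm] at hdim
  have hKJ : (0 : ℝ) < (J.card : ℝ) - Fintype.card K := by
    have : (Fintype.card K : ℝ) < J.card := by exact_mod_cast hK
    linarith
  have hm0 : 0 < m := by
    have : (0 : ℝ) < m := hKJ.trans_le hdim
    exact_mod_cast this
  obtain ⟨B, -⟩ : ∃ B : OrthonormalBasis (Fin m) ℝ W, True := by
    rw [hm]
    exact ⟨stdOrthonormalBasis ℝ W, trivial⟩
  -- the basis vectors in the kernel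
  have hker : ∀ w : W, ∀ k, ∑ i, ℓ k i * extz J (w : EuclideanSpace ℝ J) i = 0 := by
    intro w k
    rw [sum_mul_extz, ← hΦ]
    have : (w : EuclideanSpace ℝ J) ∈ LinearMap.ker Φ := hW ▸ w.2
    rw [LinearMap.mem_ker] at this
    rw [this]
    rfl
  -- Bessel
  have hbes : ∀ t ∈ Ts, ∑ r : Fin m, (∑ i, a t i * extz J (B r : EuclideanSpace ℝ J) i) ^ 2 ≤ ρ t := by
    intro t ht
    obtain ⟨α, hα⟩ : ∃ α : Fin m → ℝ,
        α = fun r => ∑ i, a t i * extz J (B r : EuclideanSpace ℝ J) i := ⟨_, rfl⟩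
    have hα' : ∀ r, ∑ i, a t i * extz J (B r : EuclideanSpace ℝ J) i = α r := fun r => by rw [hα]
    simp only [hα']
    obtain ⟨w, hw⟩ : ∃ w : W, w = ∑ r, α r • B r := ⟨_, rfl⟩
    have hn : ‖(w : EuclideanSpace ℝ J)‖ ^ 2 = ∑ r, α r ^ 2 := by
      rw [← Submodule.coe_norm, ← real_inner_self_eq_norm_sq, hw, B.orthonormal.inner_sum]
      apply Finset.sum_congr rfl
      intro r _
      simp [sq]
    have ha : ∑ i, a t i * extz J (w : EuclideanSpace ℝ J) i = ∑ r, α r ^ 2 := by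
      rw [sum_mul_extz, hw]
      have e1 : ∀ j : J, ((∑ r, α r • B r : W) : EuclideanSpace ℝ J) j =
          ∑ r, α r * (B r : EuclideanSpace ℝ J) j := by
        intro j
        rw [Submodule.coe_sum]
        simp
      simp only [e1, Finset.mul_sum]
      rw [Finset.sum_comm]
      apply Finset.sum_congr rfl
      intro r _
      have hβ : ∑ j : J, a t j * (B r : EuclideanSpace ℝ J) j = α r := by
        rw [← hα' r, sum_mul_extz]
      calc ∑ j : J, a t j * (α r * (B r : EuclideanSpace ℝ J) j) =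
          α r * ∑ j : J, a t j * (B r : EuclideanSpace ℝ J) j := by
            rw [Finset.mul_sum]
            apply Finset.sum_congr rfl
            intro j _
            ring
        _ = α r ^ 2 := by rw [hβ, sq]
    have h1 := h (extz J (w : EuclideanSpace ℝ J)) (extz_off J _) (hker w) t ht
    rw [ha, sum_sq_extz, hn] at h1
    have h0 : 0 ≤ ∑ r, α r ^ 2 := Finset.sum_nonneg fun r _ => sq_nonneg _
    by_contra hcon
    have hcon' : ρ t < ∑ r, α r ^ 2 := not_le.1 hcon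
    have := hρ t ht
    nlinarith
  have hsum : ∑ r : Fin m, ∑ t ∈ Ts, c t *
      (∑ i, a t i * extz J (B r : EuclideanSpace ℝ J) i) ^ 2 ≤ ∑ t ∈ Ts, c t * ρ t := by
    rw [Finset.sum_comm]
    apply Finset.sum_le_sum
    intro t ht
    rw [← Finset.mul_sum]
    exact mul_le_mul_of_nonneg_left (hbes t ht) (hc t ht)
  obtain ⟨r, hr⟩ : ∃ r : Fin m, (m : ℝ) * ∑ t ∈ Ts, c t *
      (∑ i, a t i * extz J (B r : EuclideanSpace ℝ J) i) ^ 2 ≤ ∑ t ∈ Ts, c t * ρ t := by
    by_contra hcon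
    have hcon' : ∀ r : Fin m, ∑ t ∈ Ts, c t * ρ t < (m : ℝ) * ∑ t ∈ Ts, c t *
        (∑ i, a t i * extz J (B r : EuclideanSpace ℝ J) i) ^ 2 := by
      intro r
      by_contra hr
      exact hcon ⟨r, not_lt.1 hr⟩
    have h2 : ∑ _r : Fin m, ∑ t ∈ Ts, c t * ρ t < ∑ r : Fin m, (m : ℝ) * ∑ t ∈ Ts, c t *
        (∑ i, a t i * extz J (B r : EuclideanSpace ℝ J) i) ^ 2 := by
      apply Finset.sum_lt_sum_of_nonempty
      · exact ⟨⟨0, hm0⟩, Finset.mem_univ _⟩
      · intro r _
        exact hcon' r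
    rw [← Finset.mul_sum, Finset.sum_const, Finset.card_univ, Fintype.card_fin, nsmul_eq_mul] at h2
    have hm1 : (0 : ℝ) < m := by exact_mod_cast hm0
    have := mul_le_mul_of_nonneg_left hsum hm1.le
    linarith
  refine ⟨extz J (B r : EuclideanSpace ℝ J), extz_off J _, hker (B r), ?_, ?_⟩
  · rw [sum_sq_extz, ← Submodule.coe_norm, B.orthonormal.norm_eq_one, one_pow]
  · refine le_trans (mul_le_mul_of_nonneg_right hdim ?_) hr
    exact Finset.sum_nonneg fun t ht => mul_nonneg (hc t ht) (sq_nonneg _)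

end Vale.Agent.Steinitz2
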