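import Vale.Agent.Lib.Steinitz2.StageAvg
import Vale.Agent.Lib.Steinitz2.Eig

/-!
# P262 log-free: module STAGE, the good direction
-/

namespace Vale.Agent.Steinitz2

open Finset

theorem exclusion' {ι D : Type*} [Fintype ι] [DecidableEq ι] (F : Finset ι) (P : Finset D)
    (u : ι → D → ℝ) (N : ℕ) (hN : 0 < N) (T : ℝ) (hT : ∑ i ∈ F, ∑ p ∈ P, u i p ^ 2 ≤ T) :
    ∃ φ : Fin N → ι → ℝ, ∀ δ : ι → ℝ, (∀ i, i ∉ F → δ i = 0) → (∀ r, ∑ i, φ r i * δ i = 0) →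
      ∑ p ∈ P, (∑ i, δ i * u i p) ^ 2 ≤ (T / N) * ∑ i, δ i ^ 2 := by
  obtain ⟨φ, hφ⟩ := exclusion F P u N hN T hT
  refine ⟨φ, fun δ h1 h2 => ?_⟩
  have e : ∀ g : ι → ℝ, (∀ i, i ∉ F → g i = 0) → ∑ i ∈ F, g i = ∑ i, g i := fun g hg =>
    Finset.sum_subset (Finset.subset_univ F) fun i _ hi => hg i hi
  have h3 := hφ δ h1 (fun r => by
    rw [e (fun i => φ r i * δ i) (fun i hi => by rw [h1 i hi, mul_zero])]; exact h2 r)
  rw [e (fun i => δ i ^ 2) (fun i hi => by rw [h1 i hi]; ring)] at h3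
  refine le_trans (le_of_eq ?_) h3
  apply Finset.sum_congr rfl
  intro p _
  rw [e (fun i => δ i * u i p) (fun i hi => by rw [h1 i hi, zero_mul])]

/-- the direction of one step -/
theorem stage_dir {ι D Lt Tt Wt : Type*} [Fintype ι] [DecidableEq ι] [Fintype D]
    (n : ℕ) (hn : 128 ≤ n) (J : Finset ι) (hJ : n < 2 * J.card) (hJn : J.card ≤ n)
    (u : ι → D → ℝ) (hu : ∀ i, ∑ p, u i p ^ 2 ≤ 2)
    (Ls : Finset Lt) (L : Lt → ι → ℝ) (hL : 16 * Ls.card ≤ n)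
    (Ts : Finset Tt) (θ : Tt → D → ℝ) (Ts' : Finset Tt) (hT : 64 * Ts'.card ≤ n)
    (cc : Tt → ℝ) (hcc : ∀ t ∈ Ts, 0 ≤ cc t)
    (Ω : Finset Wt) (w : Wt → ι → ℝ) (f : Fin 4 → ι → ℝ) :
    ∃ δ : ι → ℝ, (∀ i, i ∉ J → δ i = 0) ∧ ∑ i, δ i ^ 2 = 1 ∧
      (∀ l ∈ Ls, ∑ i, L l i * δ i = 0) ∧
      (∀ t ∈ Ts', ∑ i, (∑ p, θ t p * u i p) * δ i = 0) ∧
      (∀ k, ∑ i, f k i * δ i = 0) ∧
      ∑ p, (∑ i, δ i * u i p) ^ 2 ≤ 128 ∧
      ∑ ω ∈ Ω, (∑ i, δ i * w ω i) ^ 2 ≤ 64 * ∑ i, (∑ ω ∈ Ω, w ω i ^ 2) * δ i ^ 2 ∧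
      (n : ℝ) * ∑ t ∈ Ts, cc t * (∑ i, (∑ p, θ t p * u i p) * δ i) ^ 2 ≤
        512 * ∑ t ∈ Ts, cc t * ∑ p, θ t p ^ 2 := by
  classical
  obtain ⟨N, hN⟩ : ∃ N : ℕ, N = n / 64 + 1 := ⟨_, rfl⟩
  have hN0 : 0 < N := by omega
  have hNn : (n : ℝ) / 64 ≤ N := by
    have : n ≤ 64 * N := by omega
    have : (n : ℝ) ≤ 64 * N := by exact_mod_cast this
    linarith
  have hN0' : (0 : ℝ) < N := by exact_mod_cast hN0
  have hJn' : (J.card : ℝ) ≤ n := by exact_mod_cast hJn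
  -- first exclusion
  obtain ⟨φ, hφ⟩ := exclusion' J (univ : Finset D) u N hN0 (2 * n) (by
    calc ∑ i ∈ J, ∑ p, u i p ^ 2 ≤ ∑ _i ∈ J, (2 : ℝ) := Finset.sum_le_sum fun i _ => hu i
      _ = 2 * J.card := by rw [Finset.sum_const, nsmul_eq_mul]; ring
      _ ≤ 2 * n := by linarith)
  -- second exclusion
  obtain ⟨ν, hν⟩ : ∃ ν : ι → ℝ, ν = fun i => √(∑ ω ∈ Ω, w ω i ^ 2) := ⟨_, rfl⟩
  have hν0 : ∀ i, 0 ≤ ν i := fun i => by rw [hν]; exact Real.sqrt_nonneg _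
  have hν2 : ∀ i, ν i ^ 2 = ∑ ω ∈ Ω, w ω i ^ 2 := fun i => by
    rw [hν]; exact Real.sq_sqrt (Finset.sum_nonneg fun ω _ => sq_nonneg _)
  have hw0 : ∀ i, ν i = 0 → ∀ ω ∈ Ω, w ω i = 0 := by
    intro i hi ω hω
    have h1 : ∑ ω ∈ Ω, w ω i ^ 2 = 0 := by rw [← hν2, hi]; ring
    have h2 := (Finset.sum_eq_zero_iff_of_nonneg (fun ω _ => sq_nonneg (w ω i))).1 h1 ω hω
    exact pow_eq_zero_iff (two_ne_zero) |>.1 h2
  obtain ⟨ψ, hψ⟩ := exclusion' J Ω (fun i ω => w ω i / ν i) N hN0 n (by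
    calc ∑ i ∈ J, ∑ ω ∈ Ω, (w ω i / ν i) ^ 2 ≤ ∑ _i ∈ J, (1 : ℝ) := by
          apply Finset.sum_le_sum
          intro i _
          simp only [div_pow]
          rw [← Finset.sum_div, ← hν2]
          exact div_self_le_one _
      _ = J.card := by rw [Finset.sum_const, nsmul_eq_mul]; ring
      _ ≤ n := hJn')
  -- all linear forms
  obtain ⟨ℓ, hℓ⟩ : ∃ ℓ : (Ls ⊕ Ts') ⊕ ((Fin N ⊕ Fin N) ⊕ Fin 4) → ι → ℝ, ℓ =
    Sum.elim (Sum.elim (fun l : Ls => L l) (fun (t : Ts') i => ∑ p, θ t p * u i p))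
      (Sum.elim (Sum.elim φ (fun r i => ψ r i * ν i)) f) := ⟨_, rfl⟩
  have hcard : Fintype.card ((Ls ⊕ Ts') ⊕ ((Fin N ⊕ Fin N) ⊕ Fin 4)) =
      (Ls.card + Ts'.card) + ((N + N) + 4) := by
    simp only [Fintype.card_sum, Fintype.card_coe, Fintype.card_fin]
  have hmain : ∀ δ : ι → ℝ, (∀ i, i ∉ J → δ i = 0) → (∀ k, ∑ i, ℓ k i * δ i = 0) →
      ∑ p, (∑ i, δ i * u i p) ^ 2 ≤ 128 * ∑ i, δ i ^ 2 := by
    intro δ h1 h2
    refine (hφ δ h1 (fun r => ?_)).trans ?_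
    · have := h2 (Sum.inr (Sum.inl (Sum.inl r)))
      rw [hℓ] at this
      exact this
    · apply mul_le_mul_of_nonneg_right _ (Finset.sum_nonneg fun i _ => sq_nonneg _)
      rw [div_le_iff₀ hN0']
      linarith
  obtain ⟨δ, d1, d2, d3, d4⟩ := avg_unit J ℓ Ts (fun t i => ∑ p, θ t p * u i p) cc
    (fun t => 128 * ∑ p, θ t p ^ 2) hcc
    (fun t _ => mul_nonneg (by norm_num) (Finset.sum_nonneg fun p _ => sq_nonneg _))
    (by rw [hcard]; omega) (by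
      intro δ h1 h2 t _
      have h3 := hmain δ h1 h2
      have e1 : ∑ i, (∑ p, θ t p * u i p) * δ i = ∑ p, θ t p * ∑ i, δ i * u i p := by
        simp only [Finset.sum_mul, Finset.mul_sum]
        rw [Finset.sum_comm]
        apply Finset.sum_congr rfl
        intro p _
        apply Finset.sum_congr rfl
        intro i _
        ring
      rw [e1]
      calc (∑ p, θ t p * ∑ i, δ i * u i p) ^ 2 ≤
          (∑ p, θ t p ^ 2) * ∑ p, (∑ i, δ i * u i p) ^ 2 := Finset.sum_mul_sq_le_sq_mul_sq _ _ _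
        _ ≤ (∑ p, θ t p ^ 2) * (128 * ∑ i, δ i ^ 2) :=
            mul_le_mul_of_nonneg_left h3 (Finset.sum_nonneg fun p _ => sq_nonneg _)
        _ = _ := by ring)
  refine ⟨δ, d1, d3, ?_, ?_, ?_, ?_, ?_, ?_⟩
  · intro l hl
    have := d2 (Sum.inl (Sum.inl ⟨l, hl⟩))
    rw [hℓ] at this
    exact this
  · intro t ht
    have := d2 (Sum.inl (Sum.inr ⟨t, ht⟩))
    rw [hℓ] at this
    exact this
  · intro k
    have := d2 (Sum.inr (Sum.inr k))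
    rw [hℓ] at this
    exact this
  · have := hmain δ d1 d2
    rwa [d3, mul_one] at this
  · have h1 := hψ (fun i => ν i * δ i) (fun i hi => by rw [d1 i hi, mul_zero]) (fun r => by
      have := d2 (Sum.inr (Sum.inl (Sum.inr r)))
      rw [hℓ] at this
      refine Eq.trans ?_ this
      apply Finset.sum_congr rfl
      intro i _
      simp only [Sum.elim_inr, Sum.elim_inl]
      ring)
    have e1 : ∀ ω ∈ Ω, ∑ i, δ i * w ω i = ∑ i, ν i * δ i * (w ω i / ν i) := by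
      intro ω hω
      apply Finset.sum_congr rfl
      intro i _
      rcases eq_or_ne (ν i) 0 with h0 | h0
      · rw [hw0 i h0 ω hω]; simp
      · field_simp
    calc ∑ ω ∈ Ω, (∑ i, δ i * w ω i) ^ 2 = ∑ ω ∈ Ω, (∑ i, ν i * δ i * (w ω i / ν i)) ^ 2 :=
          Finset.sum_congr rfl fun ω hω => by rw [e1 ω hω]
      _ ≤ (n : ℝ) / N * ∑ i, (ν i * δ i) ^ 2 := h1
      _ ≤ 64 * ∑ i, (ν i * δ i) ^ 2 := by
          apply mul_le_mul_of_nonneg_right _ (Finset.sum_nonneg fun i _ => sq_nonneg _)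
          rw [div_le_iff₀ hN0']
          linarith
      _ = 64 * ∑ i, (∑ ω ∈ Ω, w ω i ^ 2) * δ i ^ 2 := by
          congr 1
          apply Finset.sum_congr rfl
          intro i _
          rw [mul_pow, hν2]
  · obtain ⟨q, hq⟩ : ∃ q : ℝ, q = ∑ t ∈ Ts, cc t * (∑ i, (∑ p, θ t p * u i p) * δ i) ^ 2 :=
      ⟨_, rfl⟩
    have hq0 : 0 ≤ q := by
      rw [hq]; exact Finset.sum_nonneg fun t ht => mul_nonneg (hcc t ht) (sq_nonneg _)
    have e2 : ∑ t ∈ Ts, cc t * (128 * ∑ p, θ t p ^ 2) = 128 * ∑ t ∈ Ts, cc t * ∑ p, θ t p ^ 2 := by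
      rw [Finset.mul_sum]
      apply Finset.sum_congr rfl
      intro t _
      ring
    rw [e2, hcard, ← hq] at d4
    rw [← hq]
    have h5 : (n : ℝ) ≤ 4 * ((J.card : ℝ) - (((Ls.card + Ts'.card) + ((N + N) + 4) : ℕ) : ℝ)) := by
      have : n + 4 * ((Ls.card + Ts'.card) + ((N + N) + 4)) ≤ 4 * J.card := by omega
      have h6 : ((n + 4 * ((Ls.card + Ts'.card) + ((N + N) + 4)) : ℕ) : ℝ) ≤ (4 * J.card : ℕ) := by
        exact_mod_cast this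
      push_cast at h6 ⊢
      linarith
    have h7 := mul_le_mul_of_nonneg_right h5 hq0
    linarith

end Vale.Agent.Steinitz2
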