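import Vale.Agent.Lib.Steinitz2.SetCert
import Vale.Agent.Lib.Steinitz2.RoundFam

/-!
# P262 log-free: one rounding call with four certified sets
-/

namespace Vale.Agent.Steinitz2

open Finset

/-- a vector placed in one of two components -/
def embz {d : ℕ} (e : Bool) (ψ : Fin d → ℝ) (p : Bool × Fin d) : ℝ := if p.1 = e then ψ p.2 else 0

theorem embz_mul {d : ℕ} (e : Bool) (ψ : Fin d → ℝ) (g : Bool × Fin d → ℝ) :
    ∑ p, embz e ψ p * g p = ∑ l, ψ l * g (e, l) := by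
  rw [Fintype.sum_prod_type]
  have : ∀ a : Bool, ∑ l, embz e ψ (a, l) * g (a, l) =
      if a = e then ∑ l, ψ l * g (e, l) else 0 := by
    intro a
    by_cases h : a = e
    · subst h; simp [embz]
    · simp [embz, h]
  simp only [this, Finset.sum_ite_eq', Finset.mem_univ, if_true]

/-- the coordinates in both components -/
def Hz {d : ℕ} (Hc : Finset (Fin d)) : Finset (Bool × Fin d) := (univ : Finset Bool) ×ˢ Hc

theorem sum_Hz_class {d : ℕ} (Hc : Finset (Fin d)) (s : Fin d → ℕ) (n : ℕ)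
    (φ : Bool × Fin d → ℝ) :
    ∑ p ∈ Hz Hc with s p.2 = n, φ p = ∑ e : Bool, ∑ j ∈ Hc with s j = n, φ (e, j) := by
  have : (Hz Hc).filter (fun p => s p.2 = n) =
      (univ : Finset Bool) ×ˢ (Hc.filter (fun j => s j = n)) := by
    ext p
    simp [Hz]
  rw [this, Finset.sum_product]

theorem card_Hz_class {d : ℕ} (Hc : Finset (Fin d)) (s : Fin d → ℕ) (n : ℕ) :
    (((Hz Hc).filter (fun p => s p.2 = n)).card : ℝ) = 2 * cn Hc s n := by
  have : (Hz Hc).filter (fun p => s p.2 = n) =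
      (univ : Finset Bool) ×ˢ (Hc.filter (fun j => s j = n)) := by
    ext p
    simp [Hz]
  rw [this, Finset.card_product]
  simp [cn]

theorem embz_sq_class {d : ℕ} (Hc : Finset (Fin d)) (s : Fin d → ℕ) (n : ℕ) (e : Bool)
    (ψ : Fin d → ℝ) :
    ∑ p ∈ Hz Hc with s p.2 = n, embz e ψ p ^ 2 = ∑ j ∈ Hc with s j = n, ψ j ^ 2 := by
  rw [sum_Hz_class]
  have : ∀ a : Bool, ∑ j ∈ Hc with s j = n, embz e ψ (a, j) ^ 2 =
      if a = e then ∑ j ∈ Hc with s j = n, ψ j ^ 2 else 0 := by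
    intro a
    by_cases h : a = e
    · subst h; simp [embz]
    · simp [embz, h]
  simp only [this, Finset.sum_ite_eq', Finset.mem_univ, if_true]

theorem embz_sq_le {d : ℕ} (Hc : Finset (Fin d)) (e : Bool) (ψ : Fin d → ℝ) :
    ∑ p ∈ Hz Hc, embz e ψ p ^ 2 ≤ ∑ l, ψ l ^ 2 := by
  rw [Hz, Finset.sum_product]
  have : ∀ a : Bool, ∑ j ∈ Hc, embz e ψ (a, j) ^ 2 =
      if a = e then ∑ j ∈ Hc, ψ j ^ 2 else 0 := by
    intro a
    by_cases h : a = e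
    · subst h; simp [embz]
    · simp [embz, h]
  simp only [this, Finset.sum_ite_eq', Finset.mem_univ, if_true]
  exact Finset.sum_le_sum_of_subset_of_nonneg (Finset.subset_univ _) fun _ _ _ => sq_nonneg _

section

variable {ι Qt Λt : Type} [Fintype Λt] {d : ℕ}

/-- rows of the operators -/
noncomputable def rowz (G : Fin d → Fin d → ℝ) (θ : ι → Fin d → ℝ) (F : Finset ι)
    (v : ι → Fin d → ℝ) (f : Qt → Λt → ι → ℝ) (k : (ℕ ⊕ ℕ) ⊕ Qt)
    (μ : Fin d ⊕ ((Fin d × Fin d) ⊕ Λt)) (p : Fin d) : ℝ :=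
  match μ with
  | Sum.inl j => G j p
  | Sum.inr (Sum.inl jl) => ∑ i ∈ F, (v i jl.1 * v i jl.2) * θ i p
  | Sum.inr (Sum.inr r) => match k with
    | Sum.inl _ => 0
    | Sum.inr q => ∑ i ∈ F, f q r i * θ i p

/-- the rows which are used -/
def setz (S : ℕ → Finset (Fin d)) (k : (ℕ ⊕ ℕ) ⊕ Qt) :
    Finset (Fin d ⊕ ((Fin d × Fin d) ⊕ Λt)) :=
  match k with
  | Sum.inl (Sum.inl n) => (S n).disjSum ∅
  | Sum.inl (Sum.inr n) => (∅ : Finset (Fin d)).disjSum ((S n ×ˢ univ).disjSum ∅)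
  | Sum.inr _ => (∅ : Finset (Fin d)).disjSum ((∅ : Finset (Fin d × Fin d)).disjSum univ)

theorem sum_setz1 (S : ℕ → Finset (Fin d)) (n : ℕ)
    (φ : Fin d ⊕ ((Fin d × Fin d) ⊕ Λt) → ℝ) :
    ∑ μ ∈ setz (Qt := Qt) S (Sum.inl (Sum.inl n)), φ μ = ∑ j ∈ S n, φ (Sum.inl j) := by
  simp [setz]

theorem sum_setz2 (S : ℕ → Finset (Fin d)) (n : ℕ)
    (φ : Fin d ⊕ ((Fin d × Fin d) ⊕ Λt) → ℝ) :
    ∑ μ ∈ setz (Qt := Qt) S (Sum.inl (Sum.inr n)), φ μ =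
      ∑ j ∈ S n, ∑ l, φ (Sum.inr (Sum.inl (j, l))) := by
  simp [setz, Finset.sum_product]

theorem sum_setz3 (S : ℕ → Finset (Fin d)) (q : Qt)
    (φ : Fin d ⊕ ((Fin d × Fin d) ⊕ Λt) → ℝ) :
    ∑ μ ∈ setz (Qt := Qt) S (Sum.inr q), φ μ = ∑ r, φ (Sum.inr (Sum.inr r)) := by
  simp [setz]

/-- the functionals -/
noncomputable def funz (v : ι → Fin d → ℝ) (f : Qt → Λt → ι → ℝ) (ζ : Bool → ι → ℝ)
    (k : Bool × (ℕ ⊕ Qt)) (ω : (Fin d × Fin d) ⊕ Λt) (i : ι) : ℝ :=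
  match ω with
  | Sum.inl jl => ζ k.1 i * (v i jl.1 * v i jl.2)
  | Sum.inr r => match k.2 with
    | Sum.inl _ => 0
    | Sum.inr q => ζ k.1 i * f q r i

/-- the functionals which are used -/
def fsetz (S : ℕ → Finset (Fin d)) (k : Bool × (ℕ ⊕ Qt)) : Finset ((Fin d × Fin d) ⊕ Λt) :=
  match k.2 with
  | Sum.inl n => (S n ×ˢ univ).disjSum ∅
  | Sum.inr _ => (∅ : Finset (Fin d × Fin d)).disjSum univ

theorem sum_fsetz1 (S : ℕ → Finset (Fin d)) (e : Bool) (n : ℕ)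
    (φ : (Fin d × Fin d) ⊕ Λt → ℝ) :
    ∑ ω ∈ fsetz (Qt := Qt) S (e, Sum.inl n), φ ω = ∑ j ∈ S n, ∑ l, φ (Sum.inl (j, l)) := by
  simp [fsetz, Finset.sum_product]

theorem sum_fsetz2 (S : ℕ → Finset (Fin d)) (e : Bool) (q : Qt)
    (φ : (Fin d × Fin d) ⊕ Λt → ℝ) :
    ∑ ω ∈ fsetz (Qt := Qt) S (e, Sum.inr q), φ ω = ∑ r, φ (Sum.inr r) := by
  simp [fsetz]

/-- scales of the operators -/
noncomputable def scz (mn : ℕ → ℝ) (g0 T : ℝ) (Lb : Qt → ℝ) (k : (ℕ ⊕ ℕ) ⊕ Qt) : ℝ :=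
  match k with
  | Sum.inl (Sum.inl n) => mn n * g0 ^ 2 * (9 / 16) ^ n
  | Sum.inl (Sum.inr n) => (1 / √T) * (8 * T * mn n * 2 ^ n)
  | Sum.inr q => (1 / √T) * Lb q

/-- exponents of the operators -/
def exz (sQ : Qt → ℕ) (k : (ℕ ⊕ ℕ) ⊕ Qt) : ℕ :=
  match k with
  | Sum.inl (Sum.inl n) => 16 + n / 6
  | Sum.inl (Sum.inr n) => 16 + n / 6
  | Sum.inr q => 16 + sQ q / 6

theorem exz_sum (N : Finset ℕ) (Qs : Finset Qt) (sQ : Qt → ℕ)
    (h4 : ∀ n : ℕ, (Qs.filter (fun q => sQ q = n)).card ≤ 4) :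
    ∑ a ∈ (univ : Finset (Bool × Bool)) ×ˢ ((N.disjSum N).disjSum Qs),
      (1 / 2 : ℝ) ^ (exz sQ a.2) ≤ 1 / 64 := by
  have h1 : ∑ n ∈ N, (1 / 2 : ℝ) ^ (16 + n / 6) ≤ 20 / 65536 := by
    calc ∑ n ∈ N, (1 / 2 : ℝ) ^ (16 + n / 6) ≤ ∑ n ∈ N, (2 / 65536) * (9 / 10 : ℝ) ^ n := by
          apply Finset.sum_le_sum
          intro n _
          rw [pow_add]
          have := pow_half_le n
          norm_num
          linarith
      _ = (2 / 65536) * ∑ n ∈ N, (9 / 10 : ℝ) ^ n := by rw [Finset.mul_sum]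
      _ ≤ (2 / 65536) * (1 / (1 - 9 / 10)) :=
          mul_le_mul_of_nonneg_left (geom_fin N (by norm_num) (by norm_num)) (by norm_num)
      _ = 20 / 65536 := by norm_num
  have h2 : ∑ q ∈ Qs, (1 / 2 : ℝ) ^ (16 + sQ q / 6) ≤ 80 / 65536 := by
    calc ∑ q ∈ Qs, (1 / 2 : ℝ) ^ (16 + sQ q / 6) ≤ ∑ q ∈ Qs, (2 / 65536) * (9 / 10 : ℝ) ^ (sQ q) := by
          apply Finset.sum_le_sum
          intro q _
          rw [pow_add]
          have := pow_half_le (sQ q)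
          norm_num
          linarith
      _ = (2 / 65536) * ∑ q ∈ Qs, (9 / 10 : ℝ) ^ (sQ q) := by rw [Finset.mul_sum]
      _ ≤ (2 / 65536) * (4 * (1 / (1 - 9 / 10))) :=
          mul_le_mul_of_nonneg_left (geom_fiber Qs sQ h4 (by norm_num) (by norm_num))
            (by norm_num)
      _ = 80 / 65536 := by norm_num
  rw [Finset.sum_product]
  simp only [Finset.sum_disjSum, exz]
  rw [Finset.sum_const]
  simp only [Finset.card_univ, Fintype.card_prod, Fintype.card_bool, nsmul_eq_mul]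
  push_cast
  linarith

/-- weights of the functionals -/
noncomputable def wtz (sQ : Qt → ℕ) (k : Bool × (ℕ ⊕ Qt)) : ℝ :=
  match k.2 with
  | Sum.inl n => (8 / 9) ^ n
  | Sum.inr q => (8 / 9) ^ (sQ q)

/-- scales of the functionals -/
noncomputable def fscz (mn : ℕ → ℝ) (T : ℝ) (Lb : Qt → ℝ) (k : Bool × (ℕ ⊕ Qt)) : ℝ :=
  match k.2 with
  | Sum.inl n => 8 * T * mn n * 2 ^ n
  | Sum.inr q => Lb q

theorem wtz_sum (N : Finset ℕ) (Qs : Finset Qt) (sQ : Qt → ℕ)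
    (h4 : ∀ n : ℕ, (Qs.filter (fun q => sQ q = n)).card ≤ 4) :
    ∑ k ∈ (univ : Finset Bool) ×ˢ (N.disjSum Qs), wtz sQ k ≤ 90 := by
  rw [Finset.sum_product]
  simp only [Finset.sum_disjSum, wtz]
  rw [Finset.sum_const]
  simp only [Finset.card_univ, Fintype.card_bool, nsmul_eq_mul]
  have h1 := geom_fin N (r := (8 / 9 : ℝ)) (by norm_num) (by norm_num)
  have h2 := geom_fiber Qs sQ h4 (r := (8 / 9 : ℝ)) (by norm_num) (by norm_num)
  norm_num at h1 h2 ⊢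
  linarith

theorem wtz_pos (sQ : Qt → ℕ) (k : Bool × (ℕ ⊕ Qt)) : 0 < wtz sQ k := by
  obtain ⟨e, k⟩ := k
  cases k <;> simp [wtz]

end

end Vale.Agent.Steinitz2
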