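import Vale.Agent.Lib.Steinitz2.TwrCall

/-!
# P262 log-free: one rounding call with four certified sets (main statement)
-/

namespace Vale.Agent.Steinitz2

open Finset

/-- the hypotheses on `T` -/
theorem T_bounds {K ε T : ℝ} (hε : 0 < ε)
    (h : 2 ^ 38 + 2 ^ 20 * (1 + √K) ^ 2 + 8 * (1 + √K) / ε ≤ T) :
    0 < T ∧ 2 ^ 19 ≤ √T ∧ T * (4 * (1 + √K) / T) ^ 2 * 2 ^ 16 ≤ 1 ∧
      4 * (1 / T) * (4 * (1 + √K) / T) ≤ 2 * ε ∧ 1 / T ≤ ε := by
  have hk : 0 ≤ √K := Real.sqrt_nonneg _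
  have h1 : 0 ≤ 2 ^ 20 * (1 + √K) ^ 2 := by positivity
  have h2 : 0 ≤ 8 * (1 + √K) / ε := by positivity
  have hT : 2 ^ 38 ≤ T := by linarith
  have hT0 : 0 < T := by linarith [show (0 : ℝ) < 2 ^ 38 by norm_num]
  have hTε : 8 * (1 + √K) ≤ T * ε := by
    have : 8 * (1 + √K) / ε ≤ T := by linarith [show (0 : ℝ) < 2 ^ 38 by norm_num]
    rwa [div_le_iff₀ hε] at this
  refine ⟨hT0, ?_, ?_, ?_, ?_⟩
  · apply Real.le_sqrt_of_sq_le
    refine le_trans (le_of_eq ?_) hT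
    norm_num
  · have h3 : 2 ^ 20 * (1 + √K) ^ 2 ≤ T := by linarith [show (0 : ℝ) < 2 ^ 38 by norm_num]
    have e : T * (4 * (1 + √K) / T) ^ 2 * 2 ^ 16 = (2 ^ 20 * (1 + √K) ^ 2) / T := by
      field_simp
      ring
    rw [e, div_le_one hT0]
    exact h3
  · have e : 4 * (1 / T) * (4 * (1 + √K) / T) = 2 * (8 * (1 + √K) / T) / T := by
      field_simp
      ring
    rw [e, div_le_iff₀ hT0]
    have h4 : 8 * (1 + √K) / T ≤ ε := by rw [div_le_iff₀ hT0]; linarith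
    have h5 : (1 : ℝ) ≤ T := by linarith [show (1 : ℝ) ≤ 2 ^ 38 by norm_num]
    nlinarith
  · rw [div_le_iff₀ hT0]
    nlinarith

/-- the raw output of `rounding_fam` for four certified sets -/
theorem call_raw : ∃ C ε : ℝ, 1 ≤ C ∧ 0 < ε ∧
    ∀ (ι Qt Λt : Type) [Fintype ι] [DecidableEq ι] [Fintype Λt] (d : ℕ) (v : ι → Fin d → ℝ)
      (_ : ∀ i, ∑ j, v i j ^ 2 ≤ 1) (Hc : Finset (Fin d)) (s : Fin d → ℕ)
      (x : ι → ℝ) (_ : ∀ i, 0 ≤ x i ∧ x i ≤ 1) (ζ : Bool → ι → ℝ) (_ : ∀ e i, ζ e i ^ 2 ≤ 1)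
      (K T : ℝ) (_ : 0 ≤ K) (_ : 2 ^ 38 + 2 ^ 20 * (1 + √K) ^ 2 + 8 * (1 + √K) / ε ≤ T)
      (_ : ∀ n : ℕ, ∑ i ∈ frac x, ∑ j ∈ Hc with s j = n, v i j ^ 2 ≤ 8 * T * cn Hc s n * 2 ^ n)
      (F : Bool → Bool → Finset ι) (G : Bool → Bool → Fin d → Fin d → ℝ)
      (θ : Bool → Bool → ι → Fin d → ℝ)
      (_ : ∀ e b i, ∑ l, θ e b i l ^ 2 ≤ 1 / T)
      (_ : ∀ e b, ∀ n : ℕ, ∑ j ∈ Hc with s j = n, ∑ l, G e b j l ^ 2
        ≤ cn Hc s n * (4 * (1 + √K) / T) ^ 2 * (9 / 16) ^ n)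
      (_ : ∀ e b, ∀ n : ℕ, ∑ j ∈ Hc with s j = n, ∑ l, ∑ p,
        (∑ i ∈ F e b, (v i j * v i l) * θ e b i p) ^ 2 ≤ (1 / √T) * (8 * T * cn Hc s n * 2 ^ n))
      (_ : ∀ e b, ∀ n : ℕ, ∑ i ∈ F e b, ∑ j ∈ Hc with s j = n, θ e b i j ^ 2
        ≤ cn Hc s n * (4 * (1 + √K) / T) * (3 / 4) ^ n)
      (Qs : Finset Qt) (sQ : Qt → ℕ) (_ : ∀ n : ℕ, (Qs.filter (fun q => sQ q = n)).card ≤ 4)
      (f : Qt → Λt → ι → ℝ) (Lb : Qt → ℝ)
      (_ : ∀ q ∈ Qs, ∑ r, ∑ i ∈ frac x, f q r i ^ 2 ≤ Lb q)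
      (_ : ∀ e b, ∀ q ∈ Qs, ∑ r, ∑ l, (∑ i ∈ F e b, f q r i * θ e b i l) ^ 2
        ≤ (1 / √T) * Lb q),
    ∃ (ξ : ι → ℝ) (g : Bool → Fin d → ℝ), (∀ i, ξ i = 0 ∨ ξ i = 1) ∧
      (∀ i, (x i = 0 ∨ x i = 1) → ξ i = x i) ∧ (∀ e j, j ∉ Hc → g e j = 0) ∧
      (∀ e b, ∀ i ∈ F e b, |∑ l, θ e b i l * g e l| ≤ 1 / 64) ∧
      (∀ e, ∀ n : ℕ, ∑ j ∈ Hc with s j = n, (∑ i, (ξ i - x i) * (ζ e i * v i j) - g e j) ^ 2
        ≤ C * (2 * cn Hc s n) * (400 / 441) ^ n) ∧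
      (∀ e b, ∀ n : ℕ, ∑ j ∈ Hc with s j = n, (∑ l, G e b j l * g e l) ^ 2
        ≤ C * 2 ^ (16 + n / 6) * (cn Hc s n * (4 * (1 + √K) / T) ^ 2 * (9 / 16) ^ n)) ∧
      (∀ e b, ∀ n : ℕ, ∑ j ∈ Hc with s j = n, ∑ l,
        (∑ p, (∑ i ∈ F e b, (v i j * v i l) * θ e b i p) * g e p) ^ 2
        ≤ C * 2 ^ (16 + n / 6) * ((1 / √T) * (8 * T * cn Hc s n * 2 ^ n))) ∧
      (∀ e b, ∀ q ∈ Qs, ∑ r, (∑ p, (∑ i ∈ F e b, f q r i * θ e b i p) * g e p) ^ 2
        ≤ C * 2 ^ (16 + sQ q / 6) * ((1 / √T) * Lb q)) ∧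
      (∀ e, ∀ n : ℕ, ∑ j ∈ Hc with s j = n, ∑ l,
        (∑ i, (ξ i - x i) * (ζ e i * (v i j * v i l))) ^ 2
        ≤ 90 * C * (8 * T * cn Hc s n * 2 ^ n) / (8 / 9) ^ n) ∧
      (∀ e, ∀ q ∈ Qs, ∑ r, (∑ i, (ξ i - x i) * (ζ e i * f q r i)) ^ 2
          ≤ 90 * C * Lb q / (8 / 9) ^ (sQ q)) := by
  obtain ⟨C, ε, hC, hε, H⟩ := rounding_fam
  refine ⟨C, ε, hC, hε, ?_⟩
  intro ι Qt Λt _ _ _ d v hv Hc s x hx ζ hζ K T hK hT hB F G θ b1 b2 b3 b4 Qs sQ h4 f Lb b5 b6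
  obtain ⟨hT0, hT1, hT2, hT3, hT4⟩ := T_bounds hε hT
  obtain ⟨N, hN⟩ : ∃ N : Finset ℕ, N = Hc.image s := ⟨_, rfl⟩
  have hSN : ∀ n, n ∉ N → Hc.filter (fun j => s j = n) = ∅ := by
    intro n hn
    rw [Finset.filter_eq_empty_iff]
    intro j hj hjn
    apply hn
    rw [hN]
    exact Finset.mem_image.2 ⟨j, hj, hjn⟩
  obtain ⟨S, hS⟩ : ∃ S : ℕ → Finset (Fin d), S = fun n => Hc.filter (fun j => s j = n) := ⟨_, rfl⟩
  have hS' : ∀ n, Hc.filter (fun j => s j = n) = S n := fun n => by rw [hS]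
  obtain ⟨g0, hg0⟩ : ∃ g0 : ℝ, g0 = 4 * (1 + √K) / T := ⟨_, rfl⟩
  rw [← hg0] at hT2 hT3
  simp only [← hg0] at b2 b4 ⊢
  have hg00 : 0 ≤ g0 := by rw [hg0]; positivity
  have hm0 : ∀ n, 0 ≤ cn Hc s n := fun n => cn_nonneg _ _ _
  -- the tests
  obtain ⟨ψ, hψ⟩ : ∃ ψ : Bool × Bool × ι → Fin d → ℝ, ψ = fun a l =>
    if a.2.2 ∈ F a.1 a.2.1 then θ a.1 a.2.1 a.2.2 l else 0 := ⟨_, rfl⟩
  have hψ1 : ∀ e b i, i ∈ F e b → ψ (e, b, i) = θ e b i := by
    intro e b i hi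
    rw [hψ]
    funext l
    simp [hi]
  have hψ2 : ∀ e b i, i ∉ F e b → ψ (e, b, i) = fun _ => 0 := by
    intro e b i hi
    rw [hψ]
    funext l
    simp [hi]
  have ht1 : ∀ n : ℕ, ∑ a : Bool × Bool × ι, (∑ p ∈ Hz Hc with s p.2 = n,
      embz a.1 (ψ a) p ^ 2) ^ 2 ≤
      ε * (((Hz Hc).filter (fun p => s p.2 = n)).card : ℝ) * (3 / 4) ^ n := by
    intro n
    rw [card_Hz_class]
    simp only [embz_sq_class]
    rw [Fintype.sum_prod_type]
    have e1 : ∀ e b, ∑ i, (∑ j ∈ Hc with s j = n, ψ (e, b, i) j ^ 2) ^ 2 ≤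
        1 / T * (cn Hc s n * g0 * (3 / 4) ^ n) := by
      intro e b
      rw [← Finset.sum_subset (Finset.subset_univ (F e b)) (fun i _ hi => by
        rw [hψ2 e b i hi]; simp)]
      calc ∑ i ∈ F e b, (∑ j ∈ Hc with s j = n, ψ (e, b, i) j ^ 2) ^ 2 ≤
            ∑ i ∈ F e b, 1 / T * ∑ j ∈ Hc with s j = n, θ e b i j ^ 2 := by
            apply Finset.sum_le_sum
            intro i hi
            rw [hψ1 e b i hi, sq]
            apply mul_le_mul_of_nonneg_right _ (Finset.sum_nonneg fun j _ => sq_nonneg _)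
            exact (Finset.sum_le_sum_of_subset_of_nonneg (Finset.subset_univ _)
              fun _ _ _ => sq_nonneg _).trans (b1 e b i)
        _ = 1 / T * ∑ i ∈ F e b, ∑ j ∈ Hc with s j = n, θ e b i j ^ 2 := by
            rw [Finset.mul_sum]
        _ ≤ _ := mul_le_mul_of_nonneg_left (b4 e b n) (by positivity)
    calc ∑ e : Bool, ∑ a : Bool × ι, (∑ j ∈ Hc with s j = n, ψ (e, a) j ^ 2) ^ 2 =
          ∑ e : Bool, ∑ b : Bool, ∑ i, (∑ j ∈ Hc with s j = n, ψ (e, b, i) j ^ 2) ^ 2 := by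
          simp only [Fintype.sum_prod_type]
      _ ≤ ∑ _e : Bool, ∑ _b : Bool, 1 / T * (cn Hc s n * g0 * (3 / 4) ^ n) :=
          Finset.sum_le_sum fun e _ => Finset.sum_le_sum fun b _ => e1 e b
      _ = 4 * (1 / T) * g0 * (cn Hc s n * (3 / 4) ^ n) := by
          simp only [Finset.sum_const, Finset.card_univ, Fintype.card_bool, nsmul_eq_mul]
          push_cast
          ring
      _ ≤ 2 * ε * (cn Hc s n * (3 / 4) ^ n) :=
          mul_le_mul_of_nonneg_right hT3 (mul_nonneg (hm0 n) (by positivity))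
      _ = ε * (2 * cn Hc s n) * (3 / 4) ^ n := by ring
  have ht2 : ∀ a ∈ (univ : Finset (Bool × Bool × ι)), ∑ p ∈ Hz Hc, embz a.1 (ψ a) p ^ 2 ≤ ε := by
    rintro ⟨e, b, i⟩ _
    refine (embz_sq_le Hc e (ψ (e, b, i))).trans ?_
    by_cases hi : i ∈ F e b
    · rw [hψ1 e b i hi]
      exact (b1 e b i).trans hT4
    · rw [hψ2 e b i hi]
      simp [hε.le]
  -- the functionals
  have hf1 : ∀ k ∈ (univ : Finset Bool) ×ˢ (N.disjSum Qs), ∑ ω ∈ fsetz S k,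
      ∑ i ∈ frac x, funz v f ζ k ω i ^ 2 ≤ fscz (fun n => cn Hc s n) T Lb k := by
    rintro ⟨e, n | q⟩ hk
    · rw [sum_fsetz1]
      simp only [funz, fscz]
      refine le_trans ?_ (hB n)
      rw [hS' n]
      calc ∑ j ∈ S n, ∑ l, ∑ i ∈ frac x, (ζ e i * (v i j * v i l)) ^ 2 =
            ∑ i ∈ frac x, ∑ j ∈ S n, ζ e i ^ 2 * (v i j ^ 2 * ∑ l, v i l ^ 2) := by
            rw [Finset.sum_comm (s := frac x)]
            apply Finset.sum_congr rfl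
            intro j _
            rw [Finset.sum_comm]
            apply Finset.sum_congr rfl
            intro i _
            rw [Finset.mul_sum, Finset.mul_sum]
            apply Finset.sum_congr rfl
            intro l _
            ring
        _ ≤ ∑ i ∈ frac x, ∑ j ∈ S n, v i j ^ 2 := by
            apply Finset.sum_le_sum
            intro i _
            apply Finset.sum_le_sum
            intro j _
            calc ζ e i ^ 2 * (v i j ^ 2 * ∑ l, v i l ^ 2) ≤ 1 * (v i j ^ 2 * 1) :=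
                  mul_le_mul (hζ e i) (mul_le_mul_of_nonneg_left (hv i) (sq_nonneg _))
                    (mul_nonneg (sq_nonneg _) (Finset.sum_nonneg fun l _ => sq_nonneg _))
                    zero_le_one
              _ = v i j ^ 2 := by ring
    · rw [sum_fsetz2]
      simp only [funz, fscz]
      have hq : q ∈ Qs := by
        have := (Finset.mem_product.1 hk).2
        rcases Finset.mem_disjSum.1 this with ⟨a, _, ha⟩ | ⟨a, ha, ha'⟩
        · cases ha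
        · cases ha'; exact ha
      refine le_trans ?_ (b5 q hq)
      apply Finset.sum_le_sum
      intro r _
      apply Finset.sum_le_sum
      intro i _
      calc (ζ e i * f q r i) ^ 2 = ζ e i ^ 2 * f q r i ^ 2 := by ring
        _ ≤ 1 * f q r i ^ 2 := mul_le_mul_of_nonneg_right (hζ e i) (sq_nonneg _)
        _ = f q r i ^ 2 := one_mul _
  -- the operators
  have ho1 : ∀ a ∈ (univ : Finset (Bool × Bool)) ×ˢ ((N.disjSum N).disjSum Qs),
      ∑ μ ∈ setz S a.2, ∑ p ∈ Hz Hc,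
        embz a.1.1 (rowz (G a.1.1 a.1.2) (θ a.1.1 a.1.2) (F a.1.1 a.1.2) v f a.2 μ) p ^ 2 ≤
        scz (fun n => cn Hc s n) g0 T Lb a.2 := by
    rintro ⟨⟨e, b⟩, (n | n) | q⟩ ha
    · rw [sum_setz1]
      simp only [scz]
      rw [← hS' n]
      refine (Finset.sum_le_sum fun j _ => embz_sq_le Hc e _).trans ?_
      exact b2 e b n
    · rw [sum_setz2]
      simp only [scz]
      rw [← hS' n]
      refine (Finset.sum_le_sum fun j _ => Finset.sum_le_sum fun l _ =>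
        embz_sq_le Hc e _).trans ?_
      exact b3 e b n
    · rw [sum_setz3]
      simp only [scz]
      have hq : q ∈ Qs := by
        have := (Finset.mem_product.1 ha).2
        rcases Finset.mem_disjSum.1 this with ⟨a, _, ha⟩ | ⟨a, ha, ha'⟩
        · cases ha
        · cases ha'; exact ha
      refine (Finset.sum_le_sum fun r _ => embz_sq_le Hc e _).trans ?_
      exact b6 e b q hq
  obtain ⟨ξ, g, h1, h2, h3, h4', h5, h6, h7⟩ := H ι (Bool × Fin d) (Bool × Bool × ι)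
    (Bool × (ℕ ⊕ Qt)) ((Fin d × Fin d) ⊕ Λt) ((Bool × Bool) × ((ℕ ⊕ ℕ) ⊕ Qt))
    (Fin d ⊕ ((Fin d × Fin d) ⊕ Λt)) x hx (fun i p => ζ p.1 i * v i p.2) (by
      intro i
      rw [Fintype.sum_prod_type]
      simp only [mul_pow, ← Finset.mul_sum]
      calc ∑ e : Bool, ζ e i ^ 2 * ∑ j, v i j ^ 2 ≤ ∑ _e : Bool, (1 : ℝ) * 1 :=
            Finset.sum_le_sum fun e _ => mul_le_mul (hζ e i) (hv i)
              (Finset.sum_nonneg fun j _ => sq_nonneg _) zero_le_one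
        _ = 2 := by simp)
    (Hz Hc) (fun p => s p.2) univ (fun a => embz a.1 (ψ a)) ht1 ht2
    ((univ : Finset Bool) ×ˢ (N.disjSum Qs)) (wtz sQ) (fun k _ => wtz_pos sQ k)
    (wtz_sum N Qs sQ h4) (fsetz S) (funz v f ζ) (fscz (fun n => cn Hc s n) T Lb) hf1
    ((univ : Finset (Bool × Bool)) ×ˢ ((N.disjSum N).disjSum Qs)) (fun a => exz sQ a.2)
    (exz_sum N Qs sQ h4) (fun a => setz S a.2)
    (fun a μ => embz a.1.1 (rowz (G a.1.1 a.1.2) (θ a.1.1 a.1.2) (F a.1.1 a.1.2) v f a.2 μ))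
    (fun a => scz (fun n => cn Hc s n) g0 T Lb a.2) ho1
  have hmemN : ∀ (e b : Bool) (n : ℕ), n ∈ N → (((e, b), Sum.inl (Sum.inl n)) :
      (Bool × Bool) × ((ℕ ⊕ ℕ) ⊕ Qt)) ∈ (univ : Finset (Bool × Bool)) ×ˢ
        ((N.disjSum N).disjSum Qs) := by
    intro e b n hn
    simp [hn]
  have hmemN' : ∀ (e b : Bool) (n : ℕ), n ∈ N → (((e, b), Sum.inl (Sum.inr n)) :
      (Bool × Bool) × ((ℕ ⊕ ℕ) ⊕ Qt)) ∈ (univ : Finset (Bool × Bool)) ×ˢ
        ((N.disjSum N).disjSum Qs) := by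
    intro e b n hn
    simp [hn]
  have hmemQ : ∀ (e b : Bool) (q : Qt), q ∈ Qs → (((e, b), Sum.inr q) :
      (Bool × Bool) × ((ℕ ⊕ ℕ) ⊕ Qt)) ∈ (univ : Finset (Bool × Bool)) ×ˢ
        ((N.disjSum N).disjSum Qs) := by
    intro e b q hq
    simp [hq]
  have hC0 : 0 ≤ C := by linarith
  refine ⟨ξ, fun e l => g (e, l), h1, h2, ?_, ?_, ?_, ?_, ?_, ?_, ?_, ?_⟩
  · intro e j hj
    apply h3
    simp [Hz, hj]
  · intro e b i hi
    have h8 := h5 (e, b, i) (Finset.mem_univ _)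
    rw [embz_mul, hψ1 e b i hi] at h8
    exact h8
  · intro e n
    have h8 := h7 n
    rw [card_Hz_class, sum_Hz_class] at h8
    refine le_trans ?_ h8
    exact Finset.single_le_sum (f := fun e => ∑ j ∈ Hc with s j = n,
      (∑ i, (ξ i - x i) * (ζ (e, j).1 i * v i (e, j).2) - g (e, j)) ^ 2)
      (fun e _ => Finset.sum_nonneg fun j _ => sq_nonneg _) (Finset.mem_univ e)
  · intro e b n
    by_cases hn : n ∈ N
    · have h8 := h6 _ (hmemN e b n hn)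
      simp only [sum_setz1, embz_mul, rowz, exz, scz] at h8
      rw [hS' n]
      exact h8
    · rw [hSN n hn, Finset.sum_empty]
      have := hm0 n
      positivity
  · intro e b n
    by_cases hn : n ∈ N
    · have h8 := h6 _ (hmemN' e b n hn)
      simp only [sum_setz2, embz_mul, rowz, exz, scz] at h8
      rw [hS' n]
      exact h8
    · rw [hSN n hn, Finset.sum_empty]
      have := hm0 n
      positivity
  · intro e b q hq
    have h8 := h6 _ (hmemQ e b q hq)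
    simp only [sum_setz3, embz_mul, rowz, exz, scz] at h8
    exact h8
  · intro e n
    by_cases hn : n ∈ N
    · have h8 := h4' (e, Sum.inl n) (by simp [hn])
      simp only [sum_fsetz1, funz, fscz, wtz] at h8
      rw [hS' n]
      exact h8
    · rw [hSN n hn, Finset.sum_empty]
      have := hm0 n
      positivity
  · intro e q hq
    have h8 := h4' (e, Sum.inr q) (by simp [hq])
    simp only [sum_fsetz2, funz, fscz, wtz] at h8
    exact h8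

end Vale.Agent.Steinitz2
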